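import Vale.Agent.P110.Stmts

/-! # P110: analytic assembly -/

namespace Vale.Agent.P110

open Finset

namespace Approx

lemma line_integral (G : ℝ → ℝ) (N α θ β σ₀ κ k : ℝ) (hα : 0 < α) (hN : 0 < N) :
    ((√N : ℝ) : ℂ) * ∫ x in (θ - α * σ₀)..(θ + α * σ₀),
        e (N * α * (G ((x - θ) / α) + κ * ((x - θ) / α)) + β - k * x)
      = ((√α : ℝ) : ℂ) * e (β - k * θ) *
        (((√(N * α) : ℝ) : ℂ) * ∫ x in (-σ₀)..σ₀, e (N * α * (G x - (k / N - κ) * x))) := by
  have h1 := intervalIntegral.smul_integral_comp_mul_add (a := -σ₀) (b := σ₀)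
    (fun x => e (N * α * (G ((x - θ) / α) + κ * ((x - θ) / α)) + β - k * x)) α θ
  have h2 : α * -σ₀ + θ = θ - α * σ₀ := by ring
  have h3 : α * σ₀ + θ = θ + α * σ₀ := by ring
  rw [h2, h3] at h1
  rw [← h1]
  have h4 : ∀ x : ℝ, e (N * α * (G ((α * x + θ - θ) / α) + κ * ((α * x + θ - θ) / α)) + β
      - k * (α * x + θ)) = e (β - k * θ) * e (N * α * (G x - (k / N - κ) * x)) := by
    intro x
    rw [← e_add]
    have : (α * x + θ - θ) / α = x := by field_simp; ring
    rw [this]; congr 1; field_simp; ring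
  simp_rw [h4]
  rw [intervalIntegral.integral_const_mul, Real.sqrt_mul hN.le, Complex.real_smul]
  have h5 : (α : ℂ) = ((√α : ℝ) : ℂ) * ((√α : ℝ) : ℂ) := by
    rw [← Complex.ofReal_mul, Real.mul_self_sqrt hα.le]
  push_cast
  generalize (∫ x in (-σ₀)..σ₀, e (N * α * (G x - (k / N - κ) * x))) = I
  generalize e (β - k * θ) = E
  linear_combination (((√N : ℝ) : ℂ) * E * I) * h5

lemma mirror_integral (Φ : ℝ → ℝ) (p q : ℝ) (k : ℕ) :
    (∫ x in (1 - q)..(1 - p), e (-Φ (1 - x) - k * x)).re = (∫ x in p..q, e (Φ x - k * x)).re := by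
  have h1 := intervalIntegral.integral_comp_sub_left (a := p) (b := q)
    (fun x => e (-Φ (1 - x) - k * x)) 1
  rw [← h1]
  have h2 : ∀ x : ℝ, e (-Φ (1 - (1 - x)) - k * (1 - x))
      = (starRingEnd ℂ) (e (Φ x - k * x)) := by
    intro x
    rw [← e_neg, ← e_add_nat _ k]; congr 1; simp; ring
  simp_rw [h2]
  rw [intervalIntegral.intervalIntegral_conj, Complex.conj_re]

lemma sum_le_one_of_unique {T : ℕ} (A : Fin T → ℝ) (h1 : ∀ t, A t ≤ 1)
    (hu : ∀ t t', A t ≠ 0 → A t' ≠ 0 → t = t') : ∑ t, A t ≤ 1 := by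
  by_cases h : ∃ t, A t ≠ 0
  · obtain ⟨t, ht⟩ := h
    rw [Finset.sum_eq_single t]
    · exact h1 t
    · intro b _ hb
      by_contra hb'
      exact hb (hu b t hb' ht)
    · simp
  · push Not at h
    simp [h]

end Approx

set_option maxHeartbeats 1000000 in
open Approx in
theorem approx_of (hCfg : ConfigStmt) (hLine : LineStmt) (hArcs : ArcsStmt) : ApproxStmt := by
  classical
  intro δ hδ
  obtain ⟨γ, hγ, hLine⟩ := hLine
  obtain ⟨C₀, hC₀, hArcs⟩ := hArcs
  set ε : ℝ := min (min (1 / 20) (δ / 4)) ((δ / (4 * C₀)) ^ 2 / 3) with hεdef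
  have hε0 : 0 < ε := by positivity
  have hε1 : ε ≤ 1 / 20 := (min_le_left _ _).trans (min_le_left _ _)
  have hε2 : ε ≤ δ / 4 := (min_le_left _ _).trans (min_le_right _ _)
  have hε3 : ε ≤ (δ / (4 * C₀)) ^ 2 / 3 := min_le_right _ _
  obtain ⟨ι, _, T, blk, α, θ, β, σ₀, Γ, hσ, hΓ, hα, hin, hdisj, hmir, hcov, htime, hstar⟩ :=
    hCfg γ ε hγ hε0 (by linarith)
  have hne : Nonempty ι := by
    by_contra h
    rw [not_nonempty_iff] at h
    simp at hcov; linarith
  have hα0 : ∀ l, 0 < α l := fun l => by linarith [hα l]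
  set Ls : ℝ := ∑ l, 2 * √(α l) with hLs
  have hLs0 : 0 ≤ Ls := Finset.sum_nonneg fun l _ => by positivity
  set η : ℝ := δ / (4 * (Ls + 1)) with hη
  have hη0 : 0 < η := by positivity
  obtain ⟨G, G1, C, lam₀, hG, hG1, hG2, hJ⟩ := hLine σ₀ Γ (ε / 4) η hσ hΓ (by positivity) hη0
  set τ : ℝ := 2 * (1 + ε / 2) * Γ * σ₀ with hτ
  have hΓσ : 0 < Γ * σ₀ := mul_pos hΓ hσ
  have hτ0 : 0 < τ := by positivity
  have hτ1 : (1 + ε / 4) * Γ * σ₀ < τ / 2 := by
    rw [hτ]; nlinarith [mul_pos hε0 hΓσ]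
  have hTτ : T * τ ≤ 1 - ε / 2 := by
    have : T * τ = (1 + ε / 2) * (2 * Γ * σ₀ * T) := by rw [hτ]; ring
    rw [this]
    nlinarith
  set κ : Fin T → ℝ := fun t => ε / 4 + ((t : ℕ) + 1 / 2) * τ with hκ
  have hκ1 : ∀ t, ε / 4 + τ / 2 ≤ κ t := by
    intro t; simp only [hκ]
    have : (0 : ℝ) ≤ (t : ℕ) := Nat.cast_nonneg _
    nlinarith
  have hκ2 : ∀ t, κ t + τ / 2 ≤ 1 - ε / 4 := by
    intro t; simp only [hκ]
    have : ((t : ℕ) : ℝ) + 1 ≤ T := by exact_mod_cast t.2
    nlinarith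
  let low : ι → Prop := fun l => θ l + α l * σ₀ < 1 / 2
  have hhigh : ∀ l, ¬ low l → 1 / 2 < θ l - α l * σ₀ := by
    intro l hl
    rcases hmir l l with h | h
    · exact absurd (by simp only [low]; linarith) hl
    · linarith
  let a : ι → ℝ := fun l => if low l then θ l - α l * σ₀ else 1 - (θ l + α l * σ₀)
  let b : ι → ℝ := fun l => if low l then θ l + α l * σ₀ else 1 - (θ l - α l * σ₀)
  have hασ : ∀ l, 0 < α l * σ₀ := fun l => mul_pos (hα0 l) hσ
  have hab : ∀ l, 0 < a l ∧ a l < b l ∧ b l < 1 / 2 := by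
    intro l
    have h1 := hin l
    have h2 := hασ l
    by_cases hl : low l
    · simp only [a, b, if_pos hl]
      exact ⟨h1.1, by linarith, hl⟩
    · simp only [a, b, if_neg hl]
      have := hhigh l hl
      exact ⟨by linarith, by linarith, by linarith⟩
  have habd : ∀ l l', l ≠ l' → b l < a l' ∨ b l' < a l := by
    intro l l' hll
    have h1 := hdisj l l' hll
    have h2 := hmir l l'
    by_cases hl : low l <;> by_cases hl' : low l'
    · simp only [a, b, if_pos hl, if_pos hl']; exact h1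
    · simp only [a, b, if_pos hl, if_neg hl']
      rcases h2 with h | h
      · left; linarith
      · right; linarith
    · simp only [a, b, if_neg hl, if_pos hl']
      rcases h2 with h | h
      · right; linarith
      · left; linarith
    · simp only [a, b, if_neg hl, if_neg hl']
      rcases h1 with h | h
      · right; linarith
      · left; linarith
  have hlen : ∀ l, b l - a l = 2 * α l * σ₀ := by
    intro l
    by_cases hl : low l
    · simp only [a, b, if_pos hl]; ring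
    · simp only [a, b, if_neg hl]; ring
  obtain ⟨N₀, hN₀⟩ := hArcs ι a b (ε / 4) (max C 0) (δ / 4) (by positivity) (by linarith) hab habd
    (by positivity)
  refine ⟨max (max N₀ 1) ⌈lam₀⌉₊, fun N hN => ?_⟩
  have hN0 : N₀ ≤ N := le_trans (le_trans (le_max_left _ _) (le_max_left _ _)) hN
  have hN1 : 1 ≤ N := le_trans (le_trans (le_max_right _ _) (le_max_left _ _)) hN
  have hNpos : (0 : ℝ) < N := by exact_mod_cast hN1
  have hN2 : lam₀ ≤ N := (Nat.le_ceil _).trans (by exact_mod_cast le_trans (le_max_right _ _) hN)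
  let Φ : ι → ℝ → ℝ := fun l x =>
    N * α l * (G ((x - θ l) / α l) + κ (blk l) * ((x - θ l) / α l)) + β l
  let Φ' : ι → ℝ → ℝ := fun l x => N * (G1 ((x - θ l) / α l) + κ (blk l))
  have hΦ : ∀ l x, HasDerivAt (Φ l) (Φ' l x) x := by
    intro l x
    have h1 : HasDerivAt (fun y : ℝ => (y - θ l) / α l) (1 / α l) x :=
      ((hasDerivAt_id x).sub_const (θ l)).div_const (α l)
    have h2 := (hG ((x - θ l) / α l)).comp x h1
    have h3 := ((h2.add (h1.const_mul (κ (blk l)))).const_mul (N * α l)).add_const (β l)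
    refine HasDerivAt.congr_deriv h3 ?_
    have := (hα0 l).ne'
    simp only [Φ']; field_simp
  have hmem : ∀ l x, x ∈ Set.Icc (θ l - α l * σ₀) (θ l + α l * σ₀) →
      (x - θ l) / α l ∈ Set.Icc (-σ₀) σ₀ := by
    intro l x hx
    constructor
    · rw [le_div_iff₀ (hα0 l)]; linarith [hx.1]
    · rw [div_le_iff₀ (hα0 l)]; linarith [hx.2]
  have hband : ∀ l x, x ∈ Set.Icc (θ l - α l * σ₀) (θ l + α l * σ₀) →
      ε / 4 * N ≤ Φ' l x ∧ Φ' l x ≤ (1 - ε / 4) * N := by
    intro l x hx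
    have h1 := abs_le.mp (hG1 _ (hmem l x hx))
    have h2 := hκ1 (blk l)
    have h3 := hκ2 (blk l)
    simp only [Φ']
    constructor
    · rw [mul_comm (ε / 4)]; apply mul_le_mul_of_nonneg_left _ hNpos.le; linarith
    · rw [mul_comm (1 - ε / 4)]; apply mul_le_mul_of_nonneg_left _ hNpos.le; linarith
  have hlip : ∀ l x y, x ∈ Set.Icc (θ l - α l * σ₀) (θ l + α l * σ₀) →
      y ∈ Set.Icc (θ l - α l * σ₀) (θ l + α l * σ₀) →
      |Φ' l x - Φ' l y| ≤ max C 0 * N * |x - y| := by
    intro l x y hx hy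
    have h1 := hG2 _ (hmem l x hx) _ (hmem l y hy)
    have h2 : Φ' l x - Φ' l y = N * (G1 ((x - θ l) / α l) - G1 ((y - θ l) / α l)) := by
      simp only [Φ']; ring
    have h3 : |(x - θ l) / α l - (y - θ l) / α l| ≤ |x - y| := by
      rw [← sub_div, abs_div, abs_of_pos (hα0 l)]
      have : x - θ l - (y - θ l) = x - y := by ring
      rw [this]
      exact div_le_self (abs_nonneg _) (hα l)
    rw [h2, abs_mul, abs_of_pos hNpos]
    have h4 : C * |(x - θ l) / α l - (y - θ l) / α l| ≤ max C 0 * |x - y| :=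
      (mul_le_mul_of_nonneg_right (le_max_left _ _) (abs_nonneg _)).trans
        (mul_le_mul_of_nonneg_left h3 (le_max_right _ _))
    calc _ ≤ N * (max C 0 * |x - y|) := mul_le_mul_of_nonneg_left (h1.trans h4) hNpos.le
      _ = _ := by ring
  let φ : ι → ℝ → ℝ := fun l => if low l then Φ l else fun x => -Φ l (1 - x)
  let φ' : ι → ℝ → ℝ := fun l => if low l then Φ' l else fun x => Φ' l (1 - x)
  obtain ⟨u, hu1, hu2⟩ := hN₀ N hN0 φ φ'
    (by
      intro l x
      by_cases hl : low l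
      · simp only [φ, φ', if_pos hl]; exact hΦ l x
      · simp only [φ, φ', if_neg hl]
        have h1 : HasDerivAt (fun y : ℝ => 1 - y) (-1) x := (hasDerivAt_id x).const_sub 1
        have h2 := ((hΦ l (1 - x)).comp x h1).neg
        refine HasDerivAt.congr_deriv h2 (by ring))
    (by
      intro l x hx
      by_cases hl : low l
      · simp only [φ', a, b, if_pos hl] at hx ⊢; exact hband l x hx
      · simp only [φ', a, b, if_neg hl] at hx ⊢
        exact hband l (1 - x) ⟨by linarith [hx.2], by linarith [hx.1]⟩)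
    (by
      intro l x hx y hy
      by_cases hl : low l
      · simp only [φ', a, b, if_pos hl] at hx hy ⊢; exact hlip l x y hx hy
      · simp only [φ', a, b, if_neg hl] at hx hy ⊢
        have := hlip l (1 - x) (1 - y) ⟨by linarith [hx.2], by linarith [hx.1]⟩
          ⟨by linarith [hy.2], by linarith [hy.1]⟩
        rwa [show 1 - x - (1 - y) = -(x - y) by ring, abs_neg] at this)
  refine ⟨u, fun k => ?_, fun x => (hu2 x).trans (by gcongr; linarith)⟩
  have hre : ∀ l, (∫ x in a l..b l, e (φ l x - k * x)).re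
      = (∫ x in (θ l - α l * σ₀)..(θ l + α l * σ₀), e (Φ l x - k * x)).re := by
    intro l
    by_cases hl : low l
    · simp only [φ, a, b, if_pos hl]
    · simp only [φ, a, b, if_neg hl]; exact mirror_integral _ _ _ _
  choose A Ψ hA0 hA1 hAκ hAJ using fun t : Fin T => hJ (k / N - κ t)
  have hAs : ∑ t, A t ≤ 1 := by
    refine sum_le_one_of_unique A hA1 fun t t' ht ht' => ?_
    have h1 := abs_le.mp (hAκ t ht)
    have h2 := abs_le.mp (hAκ t' ht')
    simp only [hκ] at h1 h2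
    have h3 : ((t : ℕ) : ℝ) < (t' : ℕ) + 1 := by
      by_contra h
      push Not at h
      nlinarith
    have h4 : ((t' : ℕ) : ℝ) < (t : ℕ) + 1 := by
      by_contra h
      push Not at h
      nlinarith
    have h5 : (t : ℕ) < (t' : ℕ) + 1 := by exact_mod_cast h3
    have h6 : (t' : ℕ) < (t : ℕ) + 1 := by exact_mod_cast h4
    exact Fin.ext (by omega)
  let m : ι → ℝ := fun l => (A (blk l) / √Γ) *
    (2 * (((√(α l) : ℝ) : ℂ) * γ * e (β l - k * θ l + α l * (N * Ψ (blk l)))).re)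
  have hterm : ∀ l, |√N * (2 * (∫ x in a l..b l, e (φ l x - k * x)).re) - m l|
      ≤ 2 * √(α l) * η := by
    intro l
    rw [hre l]
    have h1 := line_integral G N (α l) (θ l) (β l) σ₀ (κ (blk l)) k (hα0 l) hNpos
    have h2 := hAJ (blk l) (N * α l) (hN2.trans (le_mul_of_one_le_right hNpos.le (hα l)))
    set J := ((√(N * α l) : ℝ) : ℂ) *
      ∫ x in (-σ₀)..σ₀, e (N * α l * (G x - (k / N - κ (blk l)) * x)) with hJdef
    have h3 : √N * (2 * (∫ x in (θ l - α l * σ₀)..(θ l + α l * σ₀), e (Φ l x - k * x)).re) - m l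
        = 2 * (((√(α l) : ℝ) : ℂ) * e (β l - k * θ l) *
          (J - γ * ((A (blk l) / √Γ : ℝ) : ℂ) * e (N * α l * Ψ (blk l)))).re := by
      rw [mul_sub (((√(α l) : ℝ) : ℂ) * e (β l - k * θ l)), Complex.sub_re, ← h1,
        Complex.re_ofReal_mul]
      have h4 : ((√(α l) : ℝ) : ℂ) * e (β l - k * θ l) *
          (γ * ((A (blk l) / √Γ : ℝ) : ℂ) * e (N * α l * Ψ (blk l)))
          = ((A (blk l) / √Γ : ℝ) : ℂ) *
            (((√(α l) : ℝ) : ℂ) * γ * e (β l - k * θ l + α l * (N * Ψ (blk l)))) := by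
        rw [e_add, show α l * (N * Ψ (blk l)) = N * α l * Ψ (blk l) by ring]; ring
      rw [h4, Complex.re_ofReal_mul]
      simp only [m, Φ]; ring
    rw [h3, abs_mul, abs_two, mul_assoc 2]
    gcongr
    refine (Complex.abs_re_le_norm _).trans ?_
    rw [norm_mul, norm_mul, norm_e, mul_one, Complex.norm_real, Real.norm_eq_abs,
      abs_of_nonneg (Real.sqrt_nonneg _)]
    gcongr
  have hm : |∑ l, m l| ≤ 1 + ε := by
    rw [← Finset.sum_fiberwise (s := univ) (g := blk) (f := m)]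
    refine (Finset.abs_sum_le_sum_abs _ _).trans ?_
    have h1 : ∀ t ∈ (univ : Finset (Fin T)), |∑ l ∈ univ.filter (fun l => blk l = t), m l|
        ≤ A t * (1 + ε) := by
      intro t _
      have h2 : ∑ l ∈ univ.filter (fun l => blk l = t), m l = (A t / √Γ) *
          ∑ l ∈ univ.filter (fun l => blk l = t),
            2 * (((√(α l) : ℝ) : ℂ) * γ * e (β l - k * θ l + α l * (N * Ψ t))).re := by
        rw [Finset.mul_sum]
        refine Finset.sum_congr rfl fun l hl => ?_
        have := (Finset.mem_filter.mp hl).2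
        simp only [m, this]
      have hs : 0 < √Γ := Real.sqrt_pos.mpr hΓ
      rw [h2, abs_mul, abs_of_nonneg (div_nonneg (hA0 t) hs.le)]
      calc _ ≤ A t / √Γ * ((1 + ε) * √Γ) :=
            mul_le_mul_of_nonneg_left (hstar t k _) (div_nonneg (hA0 t) hs.le)
        _ = _ := by field_simp
    refine (Finset.sum_le_sum h1).trans ?_
    rw [← Finset.sum_mul]
    nlinarith
  have hmain : √N * |∑ l, 2 * (∫ x in a l..b l, e (φ l x - k * x)).re| ≤ 1 + ε + δ / 4 := by
    rw [← abs_of_nonneg (Real.sqrt_nonneg (N : ℝ)), ← abs_mul, Finset.mul_sum]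
    have h1 : ∑ l, √N * (2 * (∫ x in a l..b l, e (φ l x - k * x)).re)
        = ∑ l, m l + ∑ l, (√N * (2 * (∫ x in a l..b l, e (φ l x - k * x)).re) - m l) := by
      rw [← Finset.sum_add_distrib]; refine Finset.sum_congr rfl fun l _ => by ring
    rw [h1]
    refine (abs_add_le _ _).trans (add_le_add hm ?_)
    refine (Finset.abs_sum_le_sum_abs _ _).trans ((Finset.sum_le_sum fun l _ => hterm l).trans ?_)
    rw [← Finset.sum_mul, ← hLs, hη, ← mul_div_assoc, div_le_div_iff₀ (by positivity) (by norm_num)]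
    nlinarith
  have hfill : C₀ * √(1 / 2 - ∑ l, (b l - a l)) ≤ δ / 4 := by
    have h1 : √(1 / 2 - ∑ l, (b l - a l)) ≤ δ / (4 * C₀) := by
      refine Real.sqrt_le_iff.mpr ⟨by positivity, ?_⟩
      simp_rw [hlen]; linarith
    calc _ ≤ C₀ * (δ / (4 * C₀)) := by gcongr
      _ = _ := by field_simp
  linarith [hu1 k]

end Vale.Agent.P110
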