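import Vale.Agent.P110.Stmts

namespace Vale.Agent.P110

open Finset

namespace Arcs

lemma sum_parity (F : ℕ → ℝ) (Q : ℕ) :
    ∑ m ∈ range (2 * Q + 1), F m = ∑ j ∈ range (Q + 1), F (2 * j) + ∑ j ∈ range Q, F (2 * j + 1) := by
  induction Q with
  | zero => simp
  | succ n ih =>
    rw [show 2 * (n + 1) + 1 = 2 * n + 1 + 1 + 1 by ring, sum_range_succ, sum_range_succ, ih,
      sum_range_succ _ (n + 1), sum_range_succ (fun j => F (2 * j + 1)) n,
      show 2 * n + 1 + 1 = 2 * (n + 1) by ring]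
    ring

lemma exists_sorted (ι : Type) [Fintype ι] [Nonempty ι] (a b : ι → ℝ) (hab : ∀ l, a l < b l)
    (hdis : ∀ l l', l ≠ l' → b l < a l' ∨ b l' < a l) :
    ∃ γ : ℕ → ι, (∀ j, j + 1 < Fintype.card ι → b (γ j) < a (γ (j + 1))) ∧
      ∀ F : ι → ℝ, ∑ j ∈ range (Fintype.card ι), F (γ j) = ∑ l, F l := by
  classical
  set g : Fin (Fintype.card ι) ≃ ι :=
    (Tuple.sort (a ∘ (Fintype.equivFin ι).symm)).trans (Fintype.equivFin ι).symm with hg
  have hmono : Monotone (a ∘ g) := Tuple.monotone_sort (a ∘ (Fintype.equivFin ι).symm)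
  refine ⟨fun j => if h : j < Fintype.card ι then g ⟨j, h⟩ else Classical.arbitrary ι, ?_, ?_⟩
  · intro j hj
    have hj' : j < Fintype.card ι := by omega
    simp only [dif_pos hj, dif_pos hj']
    have h1 : a (g ⟨j, hj'⟩) ≤ a (g ⟨j + 1, hj⟩) :=
      hmono (show (⟨j, hj'⟩ : Fin _) ≤ ⟨j + 1, hj⟩ from Nat.le_succ j)
    rcases hdis (g ⟨j, hj'⟩) (g ⟨j + 1, hj⟩) (by simp) with h | h
    · exact h
    · linarith [hab (g ⟨j + 1, hj⟩)]
  · intro F
    rw [sum_range, ← Equiv.sum_comp g F]
    refine sum_congr rfl fun j _ => by simp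

lemma gap_bound (h1 : Vdc1Stmt) (h2 : Vdc2Stmt) {N lo Lam L A p q h κ : ℝ} (hN : 0 < N)
    (hLam : 0 < Lam) (hLA : L ≤ A) (hh : 0 < h) :
    ‖∫ θ in L..A, e (N * (lo * (θ - p) + Lam / 2 * ((θ - L) ^ 2 - q)) - N * κ * θ)‖ ≤
      2 / (N * h) + (if lo - h / 2 < κ ∧ κ < lo + Lam * (A - L) + h / 2 then 4 / √(N * Lam) else 0) := by
  have d1 : ∀ x, HasDerivAt (fun θ => N * (lo * (θ - p) + Lam / 2 * ((θ - L) ^ 2 - q)) - N * κ * θ)
      (N * (lo + Lam * (x - L)) - N * κ) x := by
    intro x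
    have := (((((hasDerivAt_id x).sub_const p).const_mul lo).add
      (((((hasDerivAt_id x).sub_const L).pow 2).sub_const q).const_mul (Lam / 2))).const_mul N).sub
      ((hasDerivAt_id x).const_mul (N * κ))
    refine HasDerivAt.congr_deriv this ?_
    simp
    left; ring
  have d2 : ∀ x, HasDerivAt (fun x => N * (lo + Lam * (x - L)) - N * κ) (N * Lam) x := by
    intro x
    have := (((((hasDerivAt_id x).sub_const L).const_mul Lam).const_add lo).const_mul N).sub_const
      (N * κ)
    refine HasDerivAt.congr_deriv this ?_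
    simp
  have hNL : 0 < N * Lam := mul_pos hN hLam
  split_ifs with hact
  · have := h2 _ _ (fun _ => N * Lam) L A (N * Lam) hLA hNL d1 d2 continuous_const
      (fun _ _ => le_rfl)
    have : 0 < 2 / (N * h) := by positivity
    linarith
  · have := h1 _ _ (fun _ => N * Lam) L A (N * h / 2) hLA (by positivity) d1 d2 continuous_const
      (fun _ _ => hNL.le) (by
        rw [not_and_or] at hact
        rcases hact with hc | hc
        · left
          intro x hx
          have a1 := mul_nonneg hLam.le (sub_nonneg.2 hx.1)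
          have a2 : h / 2 ≤ lo + Lam * (x - L) - κ := by linarith
          have := mul_le_mul_of_nonneg_left a2 hN.le
          linarith
        · right
          intro x hx
          have a1 := mul_le_mul_of_nonneg_left (sub_le_sub_right hx.2 L) hLam.le
          have a2 : lo + Lam * (x - L) - κ ≤ -(h / 2) := by linarith
          have := mul_le_mul_of_nonneg_left a2 hN.le
          linarith)
    rw [add_zero]
    refine this.trans (le_of_eq ?_)
    field_simp

end Arcs

open Arcs

theorem arcs_of (h1 : Vdc1Stmt) (h2 : Vdc2Stmt) (h3 : RegStmt) : ArcsStmt := by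
  classical
  refine ⟨16, by norm_num, fun ι _ _ a b c C δ hc0 hc4 hab hdis hδ => ?_⟩
  obtain ⟨γ, hγ, hsum⟩ := exists_sorted ι a b (fun l => (hab l).2.1) hdis
  set Q := Fintype.card ι with hQ
  have hQ0 : 0 < Q := Fintype.card_pos
  set A : ℕ → ℝ := fun j => if j < Q then a (γ j) else 1 / 2 with hA
  set L : ℕ → ℝ := fun j => if j = 0 then 0 else b (γ (j - 1)) with hL
  have hL0 : L 0 = 0 := by simp [hL]
  have hLs : ∀ j, L (j + 1) = b (γ j) := fun j => by simp [hL]
  have hAlt : ∀ j < Q, A j = a (γ j) := fun j hj => by simp [hA, hj]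
  have hAQ : A Q = 1 / 2 := by simp [hA]
  have hLA : ∀ j ≤ Q, L j < A j := by
    intro j hj
    rcases j with _ | j
    · rw [hL0, hAlt 0 hQ0]; exact (hab _).1
    · rw [hLs]
      rcases hj.lt_or_eq with hj | hj
      · rw [hAlt _ hj]; exact hγ j hj
      · rw [hj, hAQ]; exact (hab _).2.2
  set U : ℕ → ℝ := fun j => ∑ i ∈ range j, (A i - L i) with hU
  have hUs : ∀ j, U (j + 1) = U j + (A j - L j) := fun j => sum_range_succ _ _
  have hUmono : ∀ i j, i ≤ j → j ≤ Q + 1 → U i ≤ U j := by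
    intro i j hij hj
    refine sum_le_sum_of_subset_of_nonneg (range_mono hij) fun m hm _ => ?_
    have := hLA m (by have := mem_range.1 hm; omega)
    linarith
  set E : ℝ := 1 / 2 - ∑ l, (b l - a l) with hE
  have hUE : U (Q + 1) = E := by
    simp only [hU]
    rw [sum_sub_distrib, sum_range_succ, sum_range_succ', hAQ, hL0, hE, ← hsum,
      sum_sub_distrib, sum_congr rfl (fun j hj => hAlt j (mem_range.1 hj))]
    simp only [hLs]
    ring
  have hU0 : U 0 = 0 := by simp [hU]
  have hE0 : 0 < E := by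
    have a1 := hUmono 1 (Q + 1) (by omega) le_rfl
    have a2 := hLA 0 (by omega)
    rw [hUs, hU0, hUE] at a1
    linarith
  set Lam : ℝ := 1 / (4 * E) with hLam
  have hLam0 : 0 < Lam := by positivity
  have hLamE : Lam * E = 1 / 4 := by rw [hLam]; field_simp
  set h : ℝ := 1 / (4 * ((Q : ℝ) + 1)) with hh
  have hh0 : 0 < h := by positivity
  have hhQ : ((Q : ℝ) + 1) * h = 1 / 4 := by rw [hh]; field_simp
  set lo : ℕ → ℝ := fun j => 1 / 4 + Lam * U j + j * h with hlo
  set pp : ℕ → ℝ := fun j => if j = 0 then 0 else 1 / 2 with hpp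
  set x : ℕ → ℝ := fun m => if m % 2 = 0 then L (m / 2) else A (m / 2) with hx
  have hxe : ∀ j, x (2 * j) = L j := fun j => by simp [hx]
  have hxo : ∀ j, x (2 * j + 1) = A j := fun j => by
    have : (2 * j + 1) / 2 = j := by omega
    simp [hx, this]
  have hxe' : ∀ j, x (2 * j + 1 + 1) = b (γ j) := fun j => by
    rw [show 2 * j + 1 + 1 = 2 * (j + 1) by ring, hxe, hLs]
  obtain ⟨N₀, hN₀⟩ := h3 c (2 * Q) x (max C Lam) (δ / 2) hc0 (by linarith)
    (by rw [show 0 = 2 * 0 by rfl, hxe, hL0]) (by rw [hxo, hAQ]) (by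
      intro m hm
      obtain ⟨j, rfl | rfl⟩ := Nat.even_or_odd' m
      · rw [hxe, hxo]; exact hLA j (by omega)
      · rw [hxo, hxe', hAlt j (by omega)]; exact (hab _).2.1) (by positivity)
  obtain ⟨N₁, hN₁⟩ := exists_nat_gt ((8 * ((Q : ℝ) + 1) / (h * δ)) ^ 2)
  refine ⟨max N₀ N₁, fun N hN φ φ' hd hr hl => ?_⟩
  have hNN : (8 * ((Q : ℝ) + 1) / (h * δ)) ^ 2 < N :=
    hN₁.trans_le (by exact_mod_cast le_of_max_le_right hN)
  have hNpos : (0 : ℝ) < N := lt_of_le_of_lt (sq_nonneg _) hNN
  set G : ℕ → ℝ → ℝ := fun j θ =>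
    N * (lo j * (θ - pp j) + Lam / 2 * ((θ - L j) ^ 2 - (pp j - L j) ^ 2)) with hG
  set G' : ℕ → ℝ → ℝ := fun j θ => N * (lo j + Lam * (θ - L j)) with hG'
  set ψ : ℕ → ℝ → ℝ := fun m => if m % 2 = 0 then G (m / 2) else φ (γ (m / 2)) with hψ
  set ψ' : ℕ → ℝ → ℝ := fun m => if m % 2 = 0 then G' (m / 2) else φ' (γ (m / 2)) with hψ'
  have hψe : ∀ j, ψ (2 * j) = G j := fun j => by simp [hψ]
  have hψe' : ∀ j, ψ' (2 * j) = G' j := fun j => by simp [hψ']
  have hψo : ∀ j, ψ (2 * j + 1) = φ (γ j) := fun j => by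
    have : (2 * j + 1) / 2 = j := by omega
    simp [hψ, this]
  have hψo' : ∀ j, ψ' (2 * j + 1) = φ' (γ j) := fun j => by
    have : (2 * j + 1) / 2 = j := by omega
    simp [hψ', this]
  obtain ⟨u, hu1, hu2⟩ := hN₀ N (le_of_max_le_left hN) ψ ψ' (by
      intro m _ θ
      obtain ⟨j, rfl | rfl⟩ := Nat.even_or_odd' m
      · rw [hψe, hψe']
        have := ((((hasDerivAt_id θ).sub_const (pp j)).const_mul (lo j)).add
          (((((hasDerivAt_id θ).sub_const (L j)).pow 2).sub_const ((pp j - L j) ^ 2)).const_mul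
            (Lam / 2))).const_mul (N : ℝ)
        refine HasDerivAt.congr_deriv this ?_
        simp only [hG']
        simp
        left; ring
      · rw [hψo, hψo']; exact hd _ _) (by
      intro m hm θ hθ
      obtain ⟨j, rfl | rfl⟩ := Nat.even_or_odd' m
      · rw [hxe, hxo] at hθ
        rw [hψe']
        simp only [hG', hlo]
        have a1 := hUmono 0 j (by omega) (by omega)
        have a2 := hUmono (j + 1) (Q + 1) (by omega) le_rfl
        rw [hUs, hUE] at a2
        rw [hU0] at a1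
        have a3 : (j : ℝ) ≤ Q := by exact_mod_cast (by omega : j ≤ Q)
        have a4 : 0 ≤ Lam * (U j + (θ - L j)) := mul_nonneg hLam0.le (by linarith [hθ.1])
        have a5 : Lam * (U j + (θ - L j)) ≤ Lam * E :=
          mul_le_mul_of_nonneg_left (by linarith [hθ.2]) hLam0.le
        have a6 : (j : ℝ) * h ≤ (Q + 1) * h := mul_le_mul_of_nonneg_right (by linarith) hh0.le
        have a7 : 0 ≤ (j : ℝ) * h := by positivity
        constructor
        · rw [mul_comm]; exact mul_le_mul_of_nonneg_left (by linarith) hNpos.le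
        · rw [mul_comm (1 - c)]; exact mul_le_mul_of_nonneg_left (by linarith) hNpos.le
      · rw [hxo, hxe', hAlt j (by omega)] at hθ
        rw [hψo']; exact hr _ _ hθ) (by
      intro m hm θ hθ θ' hθ'
      obtain ⟨j, rfl | rfl⟩ := Nat.even_or_odd' m
      · rw [hψe']
        simp only [hG']
        rw [show (N : ℝ) * (lo j + Lam * (θ - L j)) - N * (lo j + Lam * (θ' - L j)) =
          (Lam * N) * (θ - θ') by ring, abs_mul, abs_of_pos (mul_pos hLam0 hNpos)]
        gcongr
        exact le_max_right _ _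
      · rw [hxo, hxe', hAlt j (by omega)] at hθ hθ'
        rw [hψo']
        refine (hl _ _ hθ _ hθ').trans ?_
        gcongr
        exact le_max_left _ _) (by
      rw [show 0 = 2 * 0 by rfl, hψe]
      simp [hG, hpp]) (by
      rw [hψe]
      simp [hG, hpp, hQ0.ne'])
  refine ⟨u, fun k => (hu1 k).trans ?_, fun θ => (hu2 θ).trans ?_⟩
  swap
  · have := Real.sqrt_nonneg (N : ℝ)
    nlinarith
  rw [sum_parity]
  have e1 : ∑ j ∈ range Q, 2 * (∫ θ in x (2 * j + 1)..x (2 * j + 1 + 1),
      e (ψ (2 * j + 1) θ - k * θ)).re = ∑ l, 2 * (∫ θ in a l..b l, e (φ l θ - k * θ)).re := by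
    rw [← hsum]
    refine sum_congr rfl fun j hj => ?_
    rw [hxo, hxe', hAlt j (mem_range.1 hj), hψo]
  rw [e1]
  set act : ℕ → Prop := fun j => lo j - h / 2 < k / N ∧ k / N < lo j + Lam * (A j - L j) + h / 2
    with hact
  have e2 : |∑ j ∈ range (Q + 1), 2 * (∫ θ in x (2 * j)..x (2 * j + 1),
      e (ψ (2 * j) θ - k * θ)).re| ≤ 2 * ((Q + 1) * (2 / (N * h)) + 4 / √(N * Lam)) := by
    refine (abs_sum_le_sum_abs _ _).trans ?_
    have b1 : ∀ j ∈ range (Q + 1), |2 * (∫ θ in x (2 * j)..x (2 * j + 1),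
        e (ψ (2 * j) θ - k * θ)).re| ≤ 2 * (2 / (N * h) + if act j then 4 / √(N * Lam) else 0) := by
      intro j hj
      rw [abs_mul, abs_two]
      refine mul_le_mul_of_nonneg_left ((Complex.abs_re_le_norm _).trans ?_) (by norm_num)
      rw [hxe, hxo, hψe]
      have := gap_bound h1 h2 (lo := lo j) (p := pp j) (q := (pp j - L j) ^ 2) (κ := k / N) hNpos
        hLam0 (hLA j (by have := mem_range.1 hj; omega)).le hh0
      rw [mul_div_cancel₀ _ hNpos.ne'] at this
      exact this
    refine (sum_le_sum b1).trans ?_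
    rw [← mul_sum, sum_add_distrib, ← sum_filter]
    simp only [sum_const, card_range, nsmul_eq_mul]
    have b2 : ((range (Q + 1)).filter act).card ≤ 1 := by
      refine card_le_one.2 fun i hi j hj => ?_
      have key : ∀ i j, i < j → j ≤ Q → act i → act j → False := by
        intro i j hij hj ai aj
        have c1 := hUmono (i + 1) j hij (by omega)
        rw [hUs] at c1
        have c2 := mul_le_mul_of_nonneg_left c1 hLam0.le
        have c3 : ((i : ℝ) + 1) * h ≤ j * h :=
          mul_le_mul_of_nonneg_right (by exact_mod_cast hij) hh0.le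
        have c4 := ai.2
        have c5 := aj.1
        simp only [hlo] at c4 c5
        linarith
      rw [mem_filter, mem_range] at hi hj
      rcases lt_trichotomy i j with h | h | h
      · exact (key i j h (by omega) hi.2 hj.2).elim
      · exact h
      · exact (key j i h (by omega) hj.2 hi.2).elim
    have b3 : (((range (Q + 1)).filter act).card : ℝ) ≤ 1 := by exact_mod_cast b2
    have b4 : 0 ≤ 4 / √(N * Lam) := by positivity
    have b5 := mul_le_mul_of_nonneg_right b3 b4
    push_cast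
    linarith
  have hs : 0 < √(N : ℝ) := Real.sqrt_pos.2 hNpos
  have e3 : √(N : ℝ) * (2 * ((Q + 1) * (2 / (N * h)) + 4 / √(N * Lam))) ≤ 16 * √E + δ / 2 := by
    have f1 : √(N : ℝ) * (4 / √(N * Lam)) = 8 * √E := by
      have g1 : √Lam = 1 / (2 * √E) := by
        rw [hLam, Real.sqrt_div zero_le_one, Real.sqrt_one, Real.sqrt_mul (by norm_num),
          show (4 : ℝ) = 2 ^ 2 by norm_num, Real.sqrt_sq (by norm_num)]
      have g2 : 0 < √E := Real.sqrt_pos.2 hE0
      rw [Real.sqrt_mul hNpos.le, g1]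
      field_simp
      norm_num
    have f2 : 8 * ((Q : ℝ) + 1) / (h * δ) ≤ √(N : ℝ) := Real.le_sqrt_of_sq_le hNN.le
    rw [div_le_iff₀ (by positivity)] at f2
    have f3 : √(N : ℝ) * ((Q + 1) * (2 / (N * h))) ≤ δ / 4 := by
      have g1 : √(N : ℝ) * ((Q + 1) * (2 / (N * h))) = 2 * (Q + 1) / (√(N : ℝ) * h) := by
        have g2 : (N : ℝ) = √(N : ℝ) * √(N : ℝ) := (Real.mul_self_sqrt hNpos.le).symm
        generalize √(N : ℝ) = s at *
        rw [g2]
        field_simp
      rw [g1, div_le_iff₀ (by positivity)]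
      linarith
    linarith
  have e4 := mul_le_mul_of_nonneg_left ((abs_add_le _
    (∑ l, 2 * (∫ θ in a l..b l, e (φ l θ - k * θ)).re)).trans (add_le_add_left e2 _)) hs.le
  linarith

end Vale.Agent.P110
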