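import Vale.Agent.P110.Stmts

/-! # P110: Gauss sums, coprime integers in prescribed ratios, sums of reduced fractions -/

namespace Vale.Agent.P110

open Finset

namespace Arith

lemma sum_shift (M : ℕ) (f : ℕ → ℂ) (hf : ∀ x, f (x + M) = f x) (y : ℕ) :
    ∑ x ∈ range M, f x = ∑ h ∈ range M, f (y + h) := by
  induction y with
  | zero => simp
  | succ y ih =>
    have h1 := Finset.sum_range_succ (fun h => f (y + h)) M
    have h2 := Finset.sum_range_succ' (fun h => f (y + h)) M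
    simp only [add_zero, hf] at h1 h2
    rw [ih]
    have h3 : ∑ h ∈ range M, f (y + 1 + h) = ∑ h ∈ range M, f (y + (h + 1)) :=
      Finset.sum_congr rfl fun h _ => by congr 1; ring
    rw [h3]
    exact add_right_cancel (h1.symm.trans h2)

lemma norm_gauss (M : ℕ) (a j : ℤ) (hM : 0 < M) (hc : IsCoprime (2 * a) (M : ℤ)) :
    ‖∑ x ∈ range M, e ((a * (x : ℝ) ^ 2 + j * x) / M)‖ ^ 2 = M := by
  have hM' : (M : ℝ) ≠ 0 := by positivity
  apply Complex.ofReal_injective
  have h2 := normSq_sum_e (range M) (fun _ => 1) (fun x => (a * (x : ℝ) ^ 2 + j * x) / M)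
  simp only [one_mul, map_one] at h2
  rw [h2, Finset.sum_comm]
  have h3 : ∀ y ∈ range M, ∑ x ∈ range M,
      e ((a * (x : ℝ) ^ 2 + j * x) / M - (a * (y : ℝ) ^ 2 + j * y) / M) =
      ∑ h ∈ range M, e ((a * (h : ℝ) ^ 2 + j * h) / M) * e (((2 * a * h : ℤ) : ℝ) * (y / M)) := by
    intro y _
    rw [sum_shift M (fun x => e ((a * (x : ℝ) ^ 2 + j * x) / M - (a * (y : ℝ) ^ 2 + j * y) / M))
      (fun x => ?_) y]
    · refine Finset.sum_congr rfl fun h _ => ?_
      rw [← e_add]
      congr 1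
      push_cast
      field_simp
      ring
    · rw [← e_add_int ((a * (x : ℝ) ^ 2 + j * x) / M - (a * (y : ℝ) ^ 2 + j * y) / M)
        (2 * a * x + a * M + j)]
      congr 1
      push_cast
      field_simp
      ring
  rw [Finset.sum_congr rfl h3, Finset.sum_comm, Finset.sum_eq_single 0]
  · rw [← Finset.mul_sum, sum_e_grid M hM]
    simp
  · intro h hh h0
    rw [← Finset.mul_sum, sum_e_grid M hM, if_neg, mul_zero]
    intro hd
    have h4 : (M : ℤ) ∣ (h : ℤ) := hc.symm.dvd_of_dvd_mul_left hd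
    have h5 : M ∣ h := by exact_mod_cast h4
    exact absurd (Nat.le_of_dvd (Nat.pos_of_ne_zero h0) h5) (not_le.2 (mem_range.1 hh))
  · intro h
    exact absurd (mem_range.2 hM) h

end Arith

open Arith in
theorem gauss : GaussStmt := by
  intro M a j hM hc
  have hM' : (M : ℝ) ≠ 0 := by positivity
  have hs : 0 < √(M : ℝ) := Real.sqrt_pos.2 (by positivity)
  have hs' : ((√(M : ℝ) : ℝ) : ℂ) ≠ 0 := by exact_mod_cast hs.ne'
  have hss : ((√(M : ℝ) : ℝ) : ℂ) * ((√(M : ℝ) : ℝ) : ℂ) = M := by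
    rw [← Complex.ofReal_mul, Real.mul_self_sqrt (by positivity)]; simp
  have h1 : ∀ ζ : ℕ, ∃ θ : ℝ, e θ =
      (∑ x ∈ range M, e ((a * (x : ℝ) ^ 2 + ((j + ζ : ℤ) : ℝ) * x) / M)) / ((√(M : ℝ) : ℝ) : ℂ) := by
    intro ζ
    apply exists_e_eq
    have h2 := norm_gauss M a (j + ζ) hM hc
    rw [norm_div, Complex.norm_real, Real.norm_eq_abs, abs_of_pos hs, div_eq_one_iff_eq hs.ne']
    exact ((Real.sqrt_eq_iff_mul_self_eq (by positivity) (norm_nonneg _)).2
      (by rw [← sq]; exact h2.symm)).symm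
  choose g hg using h1
  refine ⟨g, fun k => ?_⟩
  have h2 : ∀ ζ ∈ range M, e (g ζ - k * ((ζ : ℝ) / M)) =
      (∑ x ∈ range M, e ((a * (x : ℝ) ^ 2 + j * x) / M) * e ((((x : ℤ) - k : ℤ) : ℝ) * (ζ / M))) /
        ((√(M : ℝ) : ℝ) : ℂ) := by
    intro ζ _
    rw [sub_eq_add_neg, e_add, hg, div_mul_eq_mul_div, Finset.sum_mul]
    congr 1
    refine Finset.sum_congr rfl fun x _ => ?_
    rw [← e_add, ← e_add]
    congr 1
    push_cast
    field_simp
    ring
  rw [Finset.sum_congr rfl h2, ← Finset.sum_div, Finset.sum_comm]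
  have hMz : (0 : ℤ) < M := by exact_mod_cast hM
  obtain ⟨x0, hx0⟩ : ∃ x0 : ℕ, (x0 : ℤ) = k % M :=
    ⟨(k % M).toNat, Int.toNat_of_nonneg (Int.emod_nonneg _ hMz.ne')⟩
  have hx0M : x0 < M := by
    have := Int.emod_lt_of_pos k hMz
    omega
  have hk : k = x0 + M * (k / M) := by rw [hx0, Int.emod_add_mul_ediv]
  rw [Finset.sum_eq_single x0]
  · rw [← Finset.mul_sum, sum_e_grid M hM, if_pos ⟨-(k / M), by linear_combination -hk⟩,
      div_eq_iff hs', mul_comm _ (e _), mul_assoc, hss]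
    congr 1
    generalize k / M = m at hk
    rw [← e_add_int _ (2 * a * x0 * m + a * M * m ^ 2 + j * m), hk]
    congr 1
    push_cast
    field_simp
    ring
  · intro x hx hne
    rw [← Finset.mul_sum, sum_e_grid M hM, if_neg, mul_zero]
    intro hd
    have hx' := mem_range.1 hx
    have h3 : (M : ℤ) ∣ (x : ℤ) - x0 := by
      have : (x : ℤ) - x0 = (x - k) + M * (k / M) := by linear_combination hk
      rw [this]
      exact dvd_add hd (dvd_mul_right _ _)
    have h4 : (x : ℤ) - x0 = 0 := by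
      apply Int.eq_zero_of_abs_lt_dvd h3
      rw [abs_lt]; constructor <;> omega
    omega
  · intro h
    exact absurd (mem_range.2 hx0M) h

theorem coprime : CoprimeStmt := by
  intro r y A δ X₀ hy hA hδ
  set lam : ℝ := ∑ i, 3 / (δ * y i) + 1 with hlam
  have hsum : 0 ≤ ∑ i, 3 / (δ * y i) := Finset.sum_nonneg fun i _ => by have := hy i; positivity
  have hlam1 : 1 ≤ lam := by linarith
  have hlam3 : ∀ i, 3 ≤ δ * (lam * y i) := by
    intro i
    have h1 : 3 / (δ * y i) ≤ ∑ i, 3 / (δ * y i) :=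
      Finset.single_le_sum (f := fun i => 3 / (δ * y i))
        (fun i _ => by have := hy i; positivity) (mem_univ i)
    have h2 : 3 / (δ * y i) ≤ lam := by linarith
    have := hy i
    rw [div_le_iff₀ (by positivity)] at h2
    linarith
  let q : Fin r → ℕ := fun i => (r + 1) * ⌈lam * y i⌉₊ + i
  have hq : ∀ i j, i ≠ j → q i ≠ q j := by
    intro i j hij h
    apply hij
    have h1 := congrArg (· % (r + 1)) h
    simp only [q, Nat.mul_add_mod] at h1
    rw [Nat.mod_eq_of_lt (by omega), Nat.mod_eq_of_lt (by omega)] at h1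
    exact Fin.ext h1
  set P : ℕ := A * ∏ x ∈ univ.filter (fun x : Fin r × Fin r => x.1 ≠ x.2),
    ((q x.1 : ℤ) - q x.2).natAbs with hP
  have hP0 : 0 < P := by
    refine Nat.mul_pos hA (Finset.prod_pos fun x hx => ?_)
    have := hq _ _ (mem_filter.1 hx).2
    omega
  set s : ℕ := ⌈X₀⌉₊ + 1 with hs
  have hs1 : (1 : ℝ) ≤ s := by rw [hs]; push_cast; linarith [Nat.cast_nonneg (α := ℝ) ⌈X₀⌉₊]
  have hP1 : (1 : ℝ) ≤ P := by exact_mod_cast hP0
  have hr1 : (1 : ℝ) ≤ r + 1 := by linarith [Nat.cast_nonneg (α := ℝ) r]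
  have hcop : ∀ i, Nat.Coprime (1 + P * (s * q i)) P := fun i => by simp
  refine ⟨s * P * (r + 1) * lam, fun i => 1 + P * (s * q i), ?_, by positivity, fun i => ?_,
    fun i j hij => ?_, fun i => ?_⟩
  · have h1 : X₀ ≤ s := by
      rw [hs]; push_cast; linarith [Nat.le_ceil X₀]
    calc X₀ ≤ s * 1 * 1 * 1 := by linarith
      _ ≤ _ := by gcongr
  · have h1 : lam * y i ≤ ⌈lam * y i⌉₊ := Nat.le_ceil _
    have h2 : (⌈lam * y i⌉₊ : ℝ) ≤ lam * y i + 1 :=
      (Nat.ceil_lt_add_one (by have := hy i; positivity)).le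
    have h3 : ((i : ℕ) : ℝ) ≤ r := by exact_mod_cast i.2.le
    have h4 : (0 : ℝ) ≤ ((i : ℕ) : ℝ) := by positivity
    have h5 := hlam3 i
    have h6 : (1 : ℝ) ≤ s * P := by nlinarith
    simp only [q]
    push_cast
    set c : ℝ := (⌈lam * y i⌉₊ : ℝ)
    set u : ℝ := lam * y i with hu
    have e1 : (s : ℝ) * P * (r + 1) * lam * y i = (s * P) * ((r + 1) * u) := by rw [hu]; ring
    have e2 : (P : ℝ) * (s * ((r + 1) * c + i)) = (s * P) * ((r + 1) * c + i) := by ring
    rw [e1, e2]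
    set w : ℝ := s * P
    constructor
    · have : w * ((r + 1) * u) ≤ w * ((r + 1) * c + i) := by
        apply mul_le_mul_of_nonneg_left _ (by linarith)
        nlinarith
      linarith
    · have h7 : 1 + ((r + 1) * c + i) ≤ (1 + δ) * ((r + 1) * u) := by nlinarith
      calc 1 + w * ((r + 1) * c + i) ≤ w * (1 + ((r + 1) * c + i)) := by linarith
        _ ≤ w * ((1 + δ) * ((r + 1) * u)) := by gcongr
        _ = _ := by ring
  · set d := Nat.gcd (1 + P * (s * q i)) (1 + P * (s * q j)) with hd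
    have h1 : (d : ℤ) ∣ ((1 + P * (s * q i) : ℕ) : ℤ) := by exact_mod_cast Nat.gcd_dvd_left _ _
    have h2 : (d : ℤ) ∣ ((1 + P * (s * q j) : ℕ) : ℤ) := by exact_mod_cast Nat.gcd_dvd_right _ _
    have h3 : (d : ℤ) ∣ (q i : ℤ) - q j := by
      have : (q i : ℤ) - q j = q i * ((1 + P * (s * q j) : ℕ) : ℤ) -
          q j * ((1 + P * (s * q i) : ℕ) : ℤ) := by push_cast; ring
      rw [this]
      exact dvd_sub (h2.mul_left _) (h1.mul_left _)
    have h4 : d ∣ P := by
      refine Dvd.dvd.mul_left ((Int.natCast_dvd.1 h3).trans ?_) A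
      exact Finset.dvd_prod_of_mem (fun x : Fin r × Fin r => ((q x.1 : ℤ) - q x.2).natAbs)
        (a := (i, j)) (mem_filter.2 ⟨mem_univ _, hij⟩)
    exact Nat.Coprime.eq_one_of_dvd ((hcop i).coprime_dvd_left (Nat.gcd_dvd_left _ _)) h4
  · exact (hcop i).coprime_dvd_right (Dvd.intro _ rfl)

theorem frac : FracStmt := by
  classical
  intro r S n D hn hcop
  induction S using Finset.induction_on with
  | empty => exact fun _ => ⟨0, by simp [isCoprime_one_right], by simp⟩
  | insert l S hl ih =>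
    intro hD
    obtain ⟨a, ha, hsum⟩ := ih (fun l' hl' => hD l' (mem_insert_of_mem hl'))
    have hc : Nat.Coprime (n l) (∏ l ∈ S, n l) :=
      Nat.Coprime.prod_right fun l' hl' => hcop l l' (fun h => hl (h ▸ hl'))
    have hc' : IsCoprime (n l : ℤ) ((∏ l ∈ S, n l : ℕ) : ℤ) := Nat.isCoprime_iff_coprime.2 hc
    have hP : (0 : ℝ) < ((∏ l ∈ S, n l : ℕ) : ℝ) := by
      exact_mod_cast Finset.prod_pos fun l _ => hn l
    have hl0 : (0 : ℝ) < n l := by exact_mod_cast hn l
    rw [Finset.prod_insert hl, Finset.sum_insert hl, ← hsum]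
    set P : ℕ := ∏ l ∈ S, n l
    refine ⟨a * n l + D l * P, ?_, ?_⟩
    · push_cast
      apply IsCoprime.mul_right
      · have h1 : 2 * (a * (n l : ℤ) + D l * P) = 2 * D l * P + (n l) * (2 * a) := by ring
        rw [h1]
        exact ((hD l (mem_insert_self _ _)).mul_left hc'.symm).add_mul_left_left _
      · have h1 : 2 * (a * (n l : ℤ) + D l * P) = 2 * a * n l + P * (2 * D l) := by ring
        rw [h1]
        exact (ha.mul_left hc').add_mul_left_left _
    · push_cast
      field_simp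
      ring

end Vale.Agent.P110
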