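import Mathlib

/-! # P110: basic facts about `e x = exp (2 π i x)` -/

namespace Vale.Agent.P110

open Finset Complex

/-- `e x = exp (2 π i x)`. -/
noncomputable def e (x : ℝ) : ℂ := Complex.exp (2 * Real.pi * Complex.I * x)

lemma e_add (x y : ℝ) : e (x + y) = e x * e y := by
  unfold e; rw [← Complex.exp_add]; congr 1; push_cast; ring

@[simp] lemma e_zero : e 0 = 1 := by simp [e]

lemma e_eq_exp_ofReal (x : ℝ) : e x = Complex.exp (((2 * Real.pi * x : ℝ) : ℂ) * Complex.I) := by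
  unfold e; congr 1; push_cast; ring

@[simp] lemma norm_e (x : ℝ) : ‖e x‖ = 1 := by
  rw [e_eq_exp_ofReal]; exact Complex.norm_exp_ofReal_mul_I _

lemma e_ne_zero (x : ℝ) : e x ≠ 0 := Complex.exp_ne_zero _

lemma e_int (n : ℤ) : e (n : ℝ) = 1 := by
  unfold e
  have := Complex.exp_int_mul_two_pi_mul_I n
  rw [← this]; congr 1; push_cast; ring

lemma e_nat (n : ℕ) : e (n : ℝ) = 1 := by
  have := e_int (n : ℤ); simpa using this

lemma e_add_int (x : ℝ) (n : ℤ) : e (x + n) = e x := by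
  rw [e_add, e_int, mul_one]

lemma e_sub_int (x : ℝ) (n : ℤ) : e (x - n) = e x := by
  have := e_add_int x (-n); simpa [sub_eq_add_neg] using this

lemma e_add_nat (x : ℝ) (n : ℕ) : e (x + n) = e x := by
  rw [e_add, e_nat, mul_one]

lemma e_neg (x : ℝ) : e (-x) = (starRingEnd ℂ) (e x) := by
  unfold e
  rw [← Complex.exp_conj]; congr 1
  simp [Complex.conj_ofReal, map_ofNat]

lemma e_mul_e_neg (x : ℝ) : e x * e (-x) = 1 := by
  rw [← e_add]; simp

lemma e_sub (x y : ℝ) : e (x - y) = e x * (starRingEnd ℂ) (e y) := by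
  rw [sub_eq_add_neg, e_add, e_neg]

lemma e_nat_mul (n : ℕ) (x : ℝ) : e (n * x) = e x ^ n := by
  unfold e; rw [← Complex.exp_nat_mul]; congr 1; push_cast; ring

lemma e_int_mul (n : ℤ) (x : ℝ) : e (n * x) = e x ^ n := by
  unfold e; rw [← Complex.exp_int_mul]; congr 1; push_cast; ring

lemma e_sum {ι : Type*} (S : Finset ι) (f : ι → ℝ) : e (∑ i ∈ S, f i) = ∏ i ∈ S, e (f i) := by
  classical
  induction S using Finset.induction_on with
  | empty => simp
  | insert a S ha ih => rw [Finset.sum_insert ha, Finset.prod_insert ha, e_add, ih]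

lemma e_re (x : ℝ) : (e x).re = Real.cos (2 * Real.pi * x) := by
  rw [e_eq_exp_ofReal]; exact Complex.exp_ofReal_mul_I_re _

lemma e_im (x : ℝ) : (e x).im = Real.sin (2 * Real.pi * x) := by
  rw [e_eq_exp_ofReal]; exact Complex.exp_ofReal_mul_I_im _

@[continuity, fun_prop]
lemma continuous_e : Continuous e := by
  unfold e; fun_prop

lemma hasDerivAt_e (x : ℝ) : HasDerivAt e (2 * Real.pi * Complex.I * e x) x := by
  have h1 : HasDerivAt (fun y : ℝ => (2 * Real.pi * Complex.I * (y : ℂ))) (2 * Real.pi * Complex.I) x := by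
    simpa using (Complex.ofRealCLM.hasDerivAt (x := x)).const_mul (2 * Real.pi * Complex.I)
  have h2 := h1.cexp
  unfold e
  convert h2 using 1; ring

lemma HasDerivAt.e_comp {f : ℝ → ℝ} {f' x : ℝ} (hf : HasDerivAt f f' x) :
    HasDerivAt (fun y => e (f y)) (2 * Real.pi * Complex.I * f' * e (f x)) x := by
  have := (hasDerivAt_e (f x)).scomp x hf
  refine HasDerivAt.congr_deriv this ?_
  rw [Complex.real_smul]; ring

lemma norm_e_sub_one_le (x : ℝ) : ‖e x - 1‖ ≤ 2 * Real.pi * |x| := by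
  rw [e_eq_exp_ofReal, mul_comm _ Complex.I]
  have := Real.norm_exp_I_mul_ofReal_sub_one_le (x := 2 * Real.pi * x)
  refine this.trans (le_of_eq ?_)
  rw [Real.norm_eq_abs, abs_mul, abs_of_pos (by positivity)]

lemma norm_e_sub_e_le (x y : ℝ) : ‖e x - e y‖ ≤ 2 * Real.pi * |x - y| := by
  have : e x - e y = e y * (e (x - y) - 1) := by
    rw [mul_sub, ← e_add]; simp
  rw [this, norm_mul, norm_e, one_mul]; exact norm_e_sub_one_le _

/-- every unit complex number is `e θ`. -/
lemma exists_e_eq {z : ℂ} (hz : ‖z‖ = 1) : ∃ θ : ℝ, e θ = z := by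
  refine ⟨Complex.arg z / (2 * Real.pi), ?_⟩
  rw [e_eq_exp_ofReal]
  have hpi : (2 * Real.pi) ≠ 0 := by positivity
  rw [mul_div_cancel₀ _ hpi]
  have := Complex.norm_mul_exp_arg_mul_I z
  rw [hz] at this; simpa using this

lemma e_eq_one_iff (x : ℝ) : e x = 1 ↔ ∃ n : ℤ, x = n := by
  constructor
  · intro h
    unfold e at h
    rw [Complex.exp_eq_one_iff] at h
    obtain ⟨n, hn⟩ := h
    refine ⟨n, ?_⟩
    have h2 : (2 * Real.pi * Complex.I : ℂ) ≠ 0 := by
      simp [Real.pi_ne_zero, Complex.I_ne_zero]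
    have : (x : ℂ) = n := by
      apply mul_left_cancel₀ h2; rw [hn]; ring
    exact_mod_cast this
  · rintro ⟨n, rfl⟩; exact e_int n

lemma integral_e_int (n : ℤ) (a : ℝ) :
    ∫ x in a..a + 1, e (n * x) = if n = 0 then 1 else 0 := by
  split_ifs with h
  · subst h; simp
  · have hc : (2 * Real.pi * Complex.I * (n : ℂ)) ≠ 0 := by
      simp [Real.pi_ne_zero, Complex.I_ne_zero, h]
    have hd : ∀ x ∈ Set.uIcc a (a + 1), HasDerivAt
        (fun y : ℝ => e (n * y) / (2 * Real.pi * Complex.I * (n : ℂ))) (e (n * x)) x := by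
      intro x _
      have h1 : HasDerivAt (fun y : ℝ => (n : ℝ) * y) (n : ℝ) x := by
        simpa using (hasDerivAt_id x).const_mul (n : ℝ)
      have h2 := (HasDerivAt.e_comp h1).div_const (2 * Real.pi * Complex.I * (n : ℂ))
      refine HasDerivAt.congr_deriv h2 ?_
      rw [div_eq_iff hc]; push_cast; ring
    rw [intervalIntegral.integral_eq_sub_of_hasDerivAt hd (by
      apply Continuous.intervalIntegrable; fun_prop)]
    have : (n : ℝ) * (a + 1) = n * a + (n : ℤ) := by ring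
    rw [this, e_add_int]; simp

lemma normSq_sum_e {ι : Type*} (S : Finset ι) (c : ι → ℂ) (f : ι → ℝ) :
    ((‖∑ j ∈ S, c j * e (f j)‖ ^ 2 : ℝ) : ℂ)
      = ∑ j ∈ S, ∑ l ∈ S, c j * (starRingEnd ℂ) (c l) * e (f j - f l) := by
  rw [← Complex.normSq_eq_norm_sq, ← Complex.mul_conj, map_sum, Finset.sum_mul_sum]
  refine Finset.sum_congr rfl fun j _ => Finset.sum_congr rfl fun l _ => ?_
  rw [map_mul, e_sub]; ring

/-- Parseval for finite sums with distinct integer frequencies. -/
theorem parseval {ι : Type*} (S : Finset ι) (n : ι → ℤ) (hn : Set.InjOn n S) (c : ι → ℂ) (a : ℝ) :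
    ∫ x in a..a + 1, ‖∑ j ∈ S, c j * e (n j * x)‖ ^ 2 = ∑ j ∈ S, ‖c j‖ ^ 2 := by
  classical
  apply Complex.ofReal_injective
  rw [← intervalIntegral.integral_ofReal]
  simp_rw [normSq_sum_e]
  rw [intervalIntegral.integral_finsetSum (fun j _ => by
    apply Continuous.intervalIntegrable; fun_prop)]
  push_cast
  refine Finset.sum_congr rfl fun j hj => ?_
  rw [intervalIntegral.integral_finsetSum (fun j _ => by
    apply Continuous.intervalIntegrable; fun_prop)]
  have : ∀ l ∈ S, ∫ x in a..a + 1, c j * (starRingEnd ℂ) (c l) * e (n j * x - n l * x)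
      = if l = j then c j * (starRingEnd ℂ) (c j) else 0 := by
    intro l hl
    rw [intervalIntegral.integral_const_mul]
    have h1 : ∀ x : ℝ, (n j : ℝ) * x - n l * x = ((n j - n l : ℤ) : ℝ) * x := by
      intro x; push_cast; ring
    simp_rw [h1]
    rw [integral_e_int]
    by_cases hlj : l = j
    · subst hlj; simp
    · have : n j - n l ≠ 0 := fun h0 => hlj (hn hl hj (by omega))
      simp [this, hlj]
  rw [Finset.sum_congr rfl this, Finset.sum_ite_eq' S j]
  simp [hj, Complex.mul_conj, Complex.normSq_eq_norm_sq]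

/-- orthogonality on the grid `j / M`. -/
lemma sum_e_grid (M : ℕ) (hM : 0 < M) (n : ℤ) :
    ∑ j ∈ range M, e (n * (j / M)) = if (M : ℤ) ∣ n then (M : ℂ) else 0 := by
  have hM' : (M : ℝ) ≠ 0 := by positivity
  have h1 : ∀ j : ℕ, e (n * (j / M)) = e (n / M) ^ j := by
    intro j; rw [← e_nat_mul]; congr 1; ring
  simp_rw [h1]
  split_ifs with h
  · obtain ⟨m, rfl⟩ := h
    have : (((M : ℤ) * m : ℤ) : ℝ) / M = (m : ℝ) := by push_cast; field_simp
    rw [this, e_int]; simp
  · have hne : e (n / M) ≠ 1 := by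
      rw [Ne, e_eq_one_iff]
      rintro ⟨m, hm⟩
      apply h
      refine ⟨m, ?_⟩
      have : (n : ℝ) = M * m := by field_simp at hm; linarith
      exact_mod_cast this
    rw [geom_sum_eq hne, ← e_nat_mul]
    have : (M : ℝ) * (n / M) = (n : ℝ) := by field_simp
    rw [this, e_int]; simp

/-- geometric sum bound: `|∑_{k<n} e(k t)| ≤ 1 / (2 |t|)` for `|t| ≤ 1/2`. -/
lemma norm_geom_mul_le (n : ℕ) (t : ℝ) (ht : |t| ≤ 1 / 2) :
    ‖∑ k ∈ range n, e (k * t)‖ * |t| ≤ 1 / 2 := by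
  have h1 : (∑ k ∈ range n, e (k * t)) * (e t - 1) = e t ^ n - 1 := by
    simp_rw [e_nat_mul]; exact geom_sum_mul _ _
  have h2 : ‖e t ^ n - 1‖ ≤ 2 := by
    refine (norm_sub_le _ _).trans ?_
    simp; norm_num
  have h3 : 4 * |t| ≤ ‖e t - 1‖ := by
    rw [e_eq_exp_ofReal, mul_comm _ Complex.I, Complex.norm_exp_I_mul_ofReal_sub_one]
    have h4 : 2 * Real.pi * t / 2 = Real.pi * t := by ring
    rw [h4, Real.norm_eq_abs, abs_mul, abs_two]
    have h5 : |Real.pi * t| ≤ Real.pi / 2 := by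
      rw [abs_mul, abs_of_pos Real.pi_pos]; nlinarith [Real.pi_pos]
    have h6 := Real.mul_abs_le_abs_sin h5
    rw [abs_mul, abs_of_pos Real.pi_pos] at h6
    have : 2 / Real.pi * (Real.pi * |t|) = 2 * |t| := by field_simp
    linarith
  have h7 : ‖∑ k ∈ range n, e (k * t)‖ * ‖e t - 1‖ ≤ 2 := by
    rw [← norm_mul, h1]; exact h2
  nlinarith [norm_nonneg (∑ k ∈ range n, e (k * t))]

end Vale.Agent.P110
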