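import Vale.Agent.P110.Stmts

/-! # P110: the arithmetic configuration of chirps -/

namespace Vale.Agent.P110

open Finset

namespace Config

lemma hi_lt (u α P σ : ℝ) (hα : 0 < α) (hP : 0 < P) (hσ : σ < 1 / (2 * P)) :
    (u + α / 2) / P + α * σ < (u + α) / P := by
  have h1 : α * σ < α * (1 / (2 * P)) := mul_lt_mul_of_pos_left hσ hα
  have h2 : (u + α) / P = (u + α / 2) / P + α * (1 / (2 * P)) := by field_simp; ring
  linarith

lemma lt_lo (u α P σ : ℝ) (hα : 0 < α) (hP : 0 < P) (hσ : σ < 1 / (2 * P)) :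
    u / P < (u + α / 2) / P - α * σ := by
  have h1 : α * σ < α * (1 / (2 * P)) := mul_lt_mul_of_pos_left hσ hα
  have h2 : u / P = (u + α / 2) / P - α * (1 / (2 * P)) := by field_simp; ring
  linarith

/-- the sum over the lines of one type in one block. -/
lemma star_one (M : ℕ) (a j : ℤ) (g : ℕ → ℝ) (γ w : ℂ) (v α θ₀ Ψ : ℝ) (k : ℕ) (hα : 0 ≤ α)
    (hg : ∀ k : ℤ, ∑ ζ ∈ range M, e (g ζ - k * ((ζ : ℝ) / M))
      = ((√M : ℝ) : ℂ) * e ((a * k ^ 2 + j * k) / M))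
    (hv : γ * e v = w) :
    ∑ ζ : Fin M, ((√α : ℝ) : ℂ) * γ * e ((g ζ + v) - k * (θ₀ + j / M + ((ζ : ℕ) : ℝ) / M) + α * Ψ)
      = ((√(α * M) : ℝ) : ℂ) * w * e (a / M * k ^ 2 - k * θ₀ + α * Ψ) := by
  have h1 := hg k
  rw [← Fin.sum_univ_eq_sum_range (fun ζ => e (g ζ - ((k : ℤ) : ℝ) * ((ζ : ℝ) / M))) M] at h1
  have h2 : ∀ ζ : Fin M,
      ((√α : ℝ) : ℂ) * γ * e ((g ζ + v) - k * (θ₀ + j / M + ((ζ : ℕ) : ℝ) / M) + α * Ψ)
      = ((√α : ℝ) : ℂ) * w * e (-(k * (j / M)) - k * θ₀ + α * Ψ) *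
        e (g ζ - ((k : ℤ) : ℝ) * (((ζ : ℕ) : ℝ) / M)) := by
    intro ζ
    rw [← hv, mul_assoc (((√α : ℝ) : ℂ) * (γ * e v)), ← e_add, mul_assoc, mul_assoc, mul_assoc,
      ← e_add]
    congr 3; push_cast; ring
  simp_rw [h2]
  rw [← Finset.mul_sum, h1, Real.sqrt_mul hα]
  have h3 : e (a / M * k ^ 2 - k * θ₀ + α * Ψ) = e (-(k * (j / M)) - k * θ₀ + α * Ψ) *
      e ((a * ((k : ℤ) : ℝ) ^ 2 + j * ((k : ℤ) : ℝ)) / M) := by
    rw [← e_add]; congr 1; push_cast; ring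
  rw [h3]; push_cast; ring

lemma perturb {r : ℕ} (c : Fin r → ℂ) (hc : ∀ i, c i ≠ 0) (c' : Fin r → ℝ) (d : ℝ)
    (h1 : ∀ i, (1 - d) * ‖c i‖ ≤ c' i) (h2 : ∀ i, c' i ≤ ‖c i‖) (z : Fin r → ℝ)
    (hb : |∑ i, 2 * (c i * e (z i)).re| ≤ 1) :
    |∑ i, 2 * ((c' i : ℂ) * (c i / ‖c i‖) * e (z i)).re| ≤ 1 + d * ∑ i, 2 * ‖c i‖ := by
  have h3 : ∑ i, 2 * ((c' i : ℂ) * (c i / ‖c i‖) * e (z i)).re
      = ∑ i, 2 * (c i * e (z i)).re
        + ∑ i, 2 * (((c' i - ‖c i‖ : ℝ) : ℂ) * (c i / ‖c i‖) * e (z i)).re := by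
    rw [← Finset.sum_add_distrib]
    refine Finset.sum_congr rfl fun i _ => ?_
    rw [← mul_add, ← Complex.add_re]
    congr 2
    have : ((‖c i‖ : ℝ) : ℂ) ≠ 0 := by simpa using hc i
    push_cast; field_simp; ring
  rw [h3]
  refine (abs_add_le _ _).trans (add_le_add hb ?_)
  rw [Finset.mul_sum]
  refine (Finset.abs_sum_le_sum_abs _ _).trans (Finset.sum_le_sum fun i _ => ?_)
  have h4 : 0 < ‖c i‖ := norm_pos_iff.mpr (hc i)
  rw [abs_mul, abs_two]
  have h5 := Complex.abs_re_le_norm (((c' i - ‖c i‖ : ℝ) : ℂ) * (c i / ‖c i‖) * e (z i))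
  rw [norm_mul, norm_mul, norm_e, norm_div, Complex.norm_real, Complex.norm_real,
    Real.norm_eq_abs, Real.norm_eq_abs, abs_of_pos h4, div_self h4.ne', abs_sub_comm,
    abs_of_nonneg (show 0 ≤ ‖c i‖ - c' i by linarith [h2 i])] at h5
  nlinarith [h1 i]

lemma coprime_of_dvd {n A : ℕ} (h : Nat.Coprime n A) {x : ℤ} (hx : x.natAbs ∣ A) :
    IsCoprime x (n : ℤ) := by
  rw [Int.isCoprime_iff_gcd_eq_one]
  have : Nat.Coprime x.natAbs n := (Nat.Coprime.coprime_dvd_right hx h).symm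
  simpa [Int.gcd] using this

lemma cover_num (ε d E T Z p : ℝ) (hε : 0 < ε) (hε1 : ε < 1 / 10) (hd0 : 0 ≤ d) (hd : d ≤ ε)
    (hE : 1 - ε ≤ E) (hZ : 0 < Z) (hp : 0 < p) (hT : (1 - 2 * ε) * (Z * p) ≤ T) :
    1 / 2 - 3 * ε ≤ (1 - ε) / p * T * (E / 2 / ((1 + d) * Z)) := by
  have h1 : (1 - ε) / p * T * (E / 2 / ((1 + d) * Z))
      = (1 - ε) * (T / (Z * p)) * (E / 2) * (1 / (1 + d)) := by field_simp
  have h2 : 1 - 2 * ε ≤ T / (Z * p) := by rwa [le_div_iff₀ (by positivity)]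
  have h3 : 1 - ε ≤ 1 / (1 + d) := by
    rw [le_div_iff₀ (by positivity)]; nlinarith
  rw [h1]
  have h4 : (1 - ε) * (1 - 2 * ε) * ((1 - ε) / 2) * (1 - ε)
      ≤ (1 - ε) * (T / (Z * p)) * (E / 2) * (1 / (1 + d)) := by
    have : 0 ≤ 1 - ε := by linarith
    have : 0 ≤ 1 - 2 * ε := by linarith
    have : 0 ≤ T / (Z * p) := by linarith
    have : 0 ≤ E := by linarith
    gcongr
  refine le_trans ?_ h4
  nlinarith [mul_pos hε hε, mul_pos hε (mul_pos hε hε), sq_nonneg (ε ^ 2)]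

end Config

set_option maxHeartbeats 1000000 in
open Config in
theorem config_of (hP : ProfileStmt) (hG : GaussStmt) (hC : CoprimeStmt) (hF : FracStmt)
    (hL : LayoutStmt) : ConfigStmt := by
  classical
  intro γ ε hγ hε hε1
  obtain ⟨r, α, β, c, hα, hdet, hc, hf, hE1, hE2⟩ := hP ε hε
  set E : ℝ := ∑ i, 2 * ‖c i‖ ^ 2 with hE
  have hE0 : 0 < E := by linarith
  have hcn : ∀ i, 0 < ‖c i‖ := fun i => norm_pos_iff.mpr (hc i)
  have hαR : ∀ i, (0 : ℝ) < α i := fun i => by exact_mod_cast hα i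
  obtain ⟨p, T₀, hp, hT₀, hL⟩ := hL r α β (fun i => 2 * ‖c i‖ ^ 2 / E) ε hα hdet
    (fun i => by have := hcn i; positivity) (by rw [← Finset.sum_div, ← hE, div_self hE0.ne']) hε
  have hpR : (0 : ℝ) < p := by exact_mod_cast hp
  have hT₀R : (0 : ℝ) < T₀ := by exact_mod_cast hT₀
  set S₁ : ℝ := ∑ i, 2 * ‖c i‖ with hS₁
  have hS₁0 : 0 ≤ S₁ := Finset.sum_nonneg fun i _ => by positivity
  set d : ℝ := ε / (S₁ + 1) with hd
  have hd0 : 0 < d := by positivity
  have hd1 : d ≤ ε := div_le_self hε.le (by linarith)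
  have hd2 : d * S₁ ≤ ε := by
    rw [hd, div_mul_eq_mul_div, div_le_iff₀ (by positivity)]; nlinarith
  let D : Fin r → Fin r → ℤ := fun i l => β i * α l - α i * β l
  let D' : Fin r → Fin r → ℕ := fun i l => if i = l then 1 else (2 * D i l).natAbs
  set A : ℕ := (∏ i, (α i).natAbs) * ∏ i, ∏ l, D' i l with hA
  have hA0 : 0 < A := by
    refine Nat.mul_pos (Finset.prod_pos fun i _ => Int.natAbs_pos.mpr (hα i).ne')
      (Finset.prod_pos fun i _ => Finset.prod_pos fun l _ => ?_)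
    simp only [D', D]
    split_ifs with h
    · norm_num
    · refine Int.natAbs_pos.mpr ?_
      have := hdet i l h
      intro h0; apply this; linarith
  obtain ⟨Z, n, hZ1, hZ, hn, hncop, hnA⟩ := hC r (fun i => α i / ‖c i‖ ^ 2) A d (T₀ / (ε * p))
    (fun i => by have := hcn i; have := hαR i; positivity) hA0 hd0
  have hnR : ∀ i, (0 : ℝ) < n i := fun i => by
    have := hcn i; have := hαR i
    exact lt_of_lt_of_le (by positivity) (hn i).1
  have hn0 : ∀ i, 0 < n i := fun i => by exact_mod_cast hnR i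
  set K : ℕ := ⌊Z * p / ((1 + ε) * T₀)⌋₊ with hK
  have hK1 : (1 + ε) * ((K : ℝ) * T₀) ≤ Z * p := by
    have := Nat.floor_le (show 0 ≤ Z * p / ((1 + ε) * T₀) by positivity)
    rw [← hK, le_div_iff₀ (by positivity)] at this
    linarith
  have hK2 : (1 - 2 * ε) * (Z * p) ≤ (K : ℝ) * T₀ := by
    have h1 := (Nat.lt_floor_add_one (Z * p / ((1 + ε) * T₀))).le
    rw [← hK, div_le_iff₀ (by positivity)] at h1
    rw [div_le_iff₀ (by positivity)] at hZ1
    have h2 : 0 < Z * p := by positivity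
    have h3 : (1 - ε) * (Z * p) ≤ (K + 1) * T₀ := by
      have : (1 - ε) * (Z * p) * (1 + ε) ≤ (K + 1) * T₀ * (1 + ε) := by
        nlinarith [mul_pos (mul_pos hε hε) h2]
      exact le_of_mul_le_mul_right this (by positivity)
    nlinarith
  obtain ⟨Y, s, hs1, hs2, hs3, hs4⟩ := hL K n hn0 hncop
    (fun i => coprime_of_dvd (hnA i)
      (Dvd.dvd.mul_right (Finset.dvd_prod_of_mem (fun i => (α i).natAbs) (Finset.mem_univ i)) _))
    (fun i => by
      refine le_trans ?_ (hn i).1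
      have h1 := hcn i
      have h2 := hαR i
      have h3 : 2 * (α i : ℝ) * K * ((1 + ε) * T₀ / (2 * ‖c i‖ ^ 2 / E * p))
          = ((1 + ε) * ((K : ℝ) * T₀)) * E * (α i / ‖c i‖ ^ 2) / p := by field_simp
      rw [h3, div_le_iff₀ hpR]
      have h4 : 0 < (α i : ℝ) / ‖c i‖ ^ 2 := by positivity
      have h5 : ((1 + ε) * ((K : ℝ) * T₀)) * E ≤ Z * p := by
        calc _ ≤ ((1 + ε) * ((K : ℝ) * T₀)) * 1 := by gcongr
          _ ≤ _ := by linarith
      nlinarith)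
  let Mi : Fin r → ℕ := fun i => ∏ l ∈ univ.erase i, n l
  set M : ℕ := ∏ l, n l with hM
  have hMi : ∀ i, n i * Mi i = M := fun i => Finset.mul_prod_erase _ _ (Finset.mem_univ i)
  have hMi0 : ∀ i, 0 < Mi i := fun i => Finset.prod_pos fun l _ => hn0 l
  have hMiR : ∀ i, (0 : ℝ) < Mi i := fun i => by exact_mod_cast hMi0 i
  have hM0 : 0 < M := Finset.prod_pos fun l _ => hn0 l
  have hMR : (0 : ℝ) < M := by exact_mod_cast hM0
  have hMiM : ∀ i, (n i : ℝ) * Mi i = M := fun i => by exact_mod_cast hMi i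
  choose a ha1 ha2 using fun i : Fin r => hF r (univ.erase i) n (D i) hn0 hncop (fun l hl => by
    refine coprime_of_dvd (hnA l) (Dvd.dvd.mul_left ?_ _)
    have hil : i ≠ l := (Finset.ne_of_mem_erase hl).symm
    have h1 : (2 * D i l).natAbs = D' i l := by simp only [D', if_neg hil]
    rw [h1]
    exact (Finset.dvd_prod_of_mem (D' i) (Finset.mem_univ l)).trans
      (Finset.dvd_prod_of_mem (fun i => ∏ l, D' i l) (Finset.mem_univ i)))
  choose j hj using hs1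
  choose g hg using fun (i : Fin r) (t : Fin (K * T₀)) => hG (Mi i) (a i) (j i t) (hMi0 i) (ha1 i)
  have hv : ∀ i, ∃ v : ℝ, γ * e v = c i / ‖c i‖ := by
    intro i
    have hγ0 : γ ≠ 0 := by intro h; rw [h] at hγ; simp at hγ
    obtain ⟨v, hv⟩ := exists_e_eq (z := c i / ‖c i‖ / γ) (by
      rw [norm_div, norm_div, hγ, Complex.norm_real, Real.norm_eq_abs, abs_of_pos (hcn i),
        div_self (hcn i).ne', div_one])
    exact ⟨v, by rw [hv]; field_simp⟩
  choose v hv using hv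
  set P : ℝ := p * M with hPdef
  have hP0 : 0 < P := by positivity
  set σ₀ : ℝ := (1 - ε) / (2 * P) with hσ₀
  have hσ0 : 0 < σ₀ := by have : 0 < 1 - ε := by linarith
                          positivity
  have hσ1 : σ₀ < 1 / (2 * P) := by
    rw [hσ₀]; gcongr; linarith
  let ι : Type := Σ i : Fin r, Fin (K * T₀) × Fin (Mi i)
  let u : ι → ℤ := fun l => (s l.1 l.2.1 : ℤ) + p * n l.1 * (l.2.2 : ℕ)
  let θ : ι → ℝ := fun l => ((u l : ℝ) + α l.1 / 2) / P
  have hhi : ∀ l : ι, θ l + α l.1 * σ₀ < ((u l : ℝ) + α l.1) / P :=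
    fun l => hi_lt _ _ _ _ (hαR _) hP0 hσ1
  have hlo : ∀ l : ι, (u l : ℝ) / P < θ l - α l.1 * σ₀ :=
    fun l => lt_lo _ _ _ _ (hαR _) hP0 hσ1
  have hPZ : ((p * (M : ℤ) : ℤ) : ℝ) = P := by rw [hPdef]; push_cast; ring
  refine ⟨ι, inferInstance, K * T₀, fun l => l.2.1, fun l => α l.1, θ,
    fun l => g l.1 l.2.1 l.2.2 + v l.1, σ₀, M / Z, hσ0, by positivity,
    fun l => by
      have h1 : (1 : ℤ) ≤ α l.1 := hα l.1
      show (1 : ℝ) ≤ (α l.1 : ℝ)
      exact_mod_cast h1, ?_, ?_, ?_, ?_, ?_, ?_⟩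
  · intro l
    constructor
    · refine lt_of_le_of_lt ?_ (hlo l)
      have : (0 : ℤ) ≤ u l := by simp only [u]; positivity
      have : (0 : ℝ) ≤ u l := by exact_mod_cast this
      positivity
    · refine (hhi l).trans_le ?_
      rw [div_le_one hP0, ← hPZ]
      have h1 := hs2 l.1 l.2.1
      have h2 : ((l.2.2 : ℕ) : ℤ) + 1 ≤ Mi l.1 := by exact_mod_cast l.2.2.2
      have h3 : (n l.1 : ℤ) * Mi l.1 = M := by exact_mod_cast hMi l.1
      have h4 : u l + α l.1 ≤ p * (M : ℤ) := by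
        simp only [u]
        rw [← h3]
        have : (0 : ℤ) ≤ p * n l.1 := by positivity
        nlinarith
      exact_mod_cast h4
  · intro l l' hll
    have h1 := hs3 l.1 l.2.1 l.2.2 l'.1 l'.2.1 l'.2.2 (by
      intro h
      apply hll
      obtain ⟨i, t, ζ⟩ := l
      obtain ⟨i', t', ζ'⟩ := l'
      simp only [Prod.mk.injEq] at h
      obtain ⟨rfl, rfl, h3⟩ := h
      rw [Fin.ext h3])
    rcases h1 with h | h
    · left
      have h2 : (u l : ℝ) + α l.1 ≤ u l' := by exact_mod_cast h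
      exact (hhi l).trans ((div_le_div_of_nonneg_right h2 hP0.le).trans_lt (hlo l'))
    · right
      have h2 : (u l' : ℝ) + α l'.1 ≤ u l := by exact_mod_cast h
      exact (hhi l').trans ((div_le_div_of_nonneg_right h2 hP0.le).trans_lt (hlo l))
  · intro l l'
    rcases hs4 l.1 l.2.1 l.2.2 l'.1 l'.2.1 l'.2.2 with h | h
    · left
      have h' : u l + α l.1 + (u l' + α l'.1) ≤ p * (M : ℤ) := h
      have h2 : (u l : ℝ) + α l.1 + (u l' + α l'.1) ≤ P := by rw [← hPZ]; exact_mod_cast h'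
      have h3 : ((u l : ℝ) + α l.1) / P + (u l' + α l'.1) / P ≤ 1 := by
        rw [← add_div, div_le_one hP0]; exact h2
      linarith [hhi l, hhi l']
    · right
      have h' : p * (M : ℤ) ≤ u l + u l' := h
      have h2 : P ≤ (u l : ℝ) + u l' := by
        rw [← hPZ, ← Int.cast_add]; exact Int.cast_le.mpr h'
      have h3 : 1 ≤ (u l : ℝ) / P + u l' / P := by
        rw [← add_div, le_div_iff₀ hP0, one_mul]; exact h2
      linarith [hlo l, hlo l']
  · have h1 : ∑ l : ι, 2 * (α l.1 : ℝ) * σ₀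
        = (1 - ε) / p * ((K : ℝ) * T₀) * ∑ i, (α i : ℝ) / n i := by
      rw [Fintype.sum_sigma, Finset.mul_sum]
      refine Finset.sum_congr rfl fun i _ => ?_
      simp only [Finset.sum_const, Finset.card_univ, Fintype.card_prod, Fintype.card_fin,
        nsmul_eq_mul]
      rw [hσ₀, hPdef, ← hMiM i]
      have := hnR i; have := hMiR i
      push_cast; field_simp
    rw [h1]
    refine (cover_num ε d E (K * T₀) Z p hε hε1 hd0.le hd1 hE1 hZ hpR hK2).trans ?_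
    have : 0 < 1 - ε := by linarith
    gcongr
    rw [hE, Finset.sum_div, Finset.sum_div]
    refine Finset.sum_le_sum fun i _ => ?_
    have h2 := (hn i).2
    have h3 := hcn i
    have h4 := hnR i
    rw [div_le_div_iff₀ (by positivity) h4]
    have h5 : ‖c i‖ ^ 2 * n i ≤ ‖c i‖ ^ 2 * ((1 + d) * (Z * (α i / ‖c i‖ ^ 2))) := by gcongr
    have h6 : ‖c i‖ ^ 2 * ((1 + d) * (Z * (α i / ‖c i‖ ^ 2))) = α i * ((1 + d) * Z) := by
      field_simp
    linarith
  · have h1 : 2 * (M / Z) * σ₀ * ((K * T₀ : ℕ) : ℝ) = (1 - ε) * (((K : ℝ) * T₀) / (Z * p)) := by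
      rw [hσ₀, hPdef]; push_cast; field_simp
    rw [h1]
    have h2 : ((K : ℝ) * T₀) / (Z * p) ≤ 1 := by
      rw [div_le_one (by positivity)]
      have : 0 ≤ (K : ℝ) * T₀ := by positivity
      nlinarith
    have : 0 < 1 - ε := by linarith
    nlinarith
  · intro t k Ψ
    let w₁ : ℝ := ((Y t).1 + 1 / 2) / P
    let w₂ : ℝ := (Y t).2 / P
    let V₁ : ℝ := ∑ l, -(β l : ℝ) / n l
    let V₂ : ℝ := ∑ l, (α l : ℝ) / n l
    let c' : Fin r → ℝ := fun i => √(α i * Z / n i)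
    have hθ : ∀ (i : Fin r) (ζ : Fin (Mi i)), θ ⟨i, t, ζ⟩
        = (α i * w₁ + β i * w₂) + j i t / Mi i + ((ζ : ℕ) : ℝ) / Mi i := by
      intro i ζ
      have h1 : (s i t : ℝ) = α i * (Y t).1 + β i * (Y t).2 + p * n i * j i t := by
        have := hj i t
        have h2 : (s i t : ℤ) = α i * (Y t).1 + β i * (Y t).2 + p * n i * j i t := by linarith
        exact_mod_cast h2
      simp only [θ, u, w₁, w₂]
      push_cast
      rw [h1, hPdef, ← hMiM i]
      have := hnR i; have := hMiR i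
      field_simp; ring
    have haV : ∀ i, (a i : ℝ) / Mi i = α i * V₁ + β i * V₂ := by
      intro i
      rw [ha2 i]
      simp only [V₁, V₂]
      rw [Finset.mul_sum, Finset.mul_sum, ← Finset.sum_add_distrib,
        ← Finset.add_sum_erase _ _ (Finset.mem_univ i)]
      have : (α i : ℝ) * (-(β i : ℝ) / n i) + β i * (α i / n i) = 0 := by ring
      rw [this, zero_add]
      refine Finset.sum_congr rfl fun l _ => ?_
      simp only [D]; push_cast; ring
    have hsq : ∀ i, √((α i : ℝ) * Mi i) = √(M / Z) * c' i := by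
      intro i
      simp only [c']
      rw [← Real.sqrt_mul (by positivity), ← hMiM i]
      congr 1
      have := hnR i
      field_simp
    have h1 : ∑ l ∈ univ.filter (fun l : ι => l.2.1 = t),
        2 * (((√(α l.1 : ℝ) : ℝ) : ℂ) * γ *
          e (g l.1 l.2.1 l.2.2 + v l.1 - k * θ l + α l.1 * Ψ)).re
        = √(M / Z) * ∑ i, 2 * ((c' i : ℂ) * (c i / ‖c i‖) *
          e (α i * (V₁ * k ^ 2 - k * w₁ + Ψ) + β i * (V₂ * k ^ 2 - k * w₂))).re := by
      rw [Finset.sum_filter, Fintype.sum_sigma, Finset.mul_sum]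
      refine Finset.sum_congr rfl fun i _ => ?_
      rw [Fintype.sum_prod_type, Finset.sum_comm]
      simp only [Finset.sum_ite_eq', Finset.mem_univ, if_true]
      rw [← Finset.mul_sum, ← Complex.re_sum]
      simp_rw [hθ]
      rw [star_one (Mi i) (a i) (j i t) (g i t) γ _ (v i) (α i) _ Ψ k (hαR i).le (hg i t) (hv i),
        hsq, haV]
      have h2 : (α i * V₁ + β i * V₂) * (k : ℝ) ^ 2 - k * (α i * w₁ + β i * w₂) + α i * Ψ
          = α i * (V₁ * k ^ 2 - k * w₁ + Ψ) + β i * (V₂ * k ^ 2 - k * w₂) := by ring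
      rw [h2, Complex.ofReal_mul, mul_assoc, mul_assoc, Complex.re_ofReal_mul]
      simp only [mul_assoc]; ring
    rw [h1, abs_mul, abs_of_nonneg (Real.sqrt_nonneg _), mul_comm]
    refine mul_le_mul_of_nonneg_right ?_ (Real.sqrt_nonneg _)
    refine (perturb c hc c' d ?_ ?_ _ (hf _ _)).trans (by linarith)
    · intro i
      have h2 := (hn i).2
      have h3 := hcn i
      have h4 := hnR i
      have h5 := hαR i
      refine Real.le_sqrt_of_sq_le ?_
      rw [le_div_iff₀ h4]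
      have h6 : ((1 - d) * ‖c i‖) ^ 2 * n i
          ≤ ((1 - d) * ‖c i‖) ^ 2 * ((1 + d) * (Z * (α i / ‖c i‖ ^ 2))) := by gcongr
      have h7 : ((1 - d) * ‖c i‖) ^ 2 * ((1 + d) * (Z * (α i / ‖c i‖ ^ 2)))
          = ((1 - d) ^ 2 * (1 + d)) * (α i * Z) := by field_simp
      have h8 : (1 - d) ^ 2 * (1 + d) ≤ 1 := by nlinarith [mul_pos hd0 hd0]
      have h9 : 0 < (α i : ℝ) * Z := by positivity
      nlinarith
    · intro i
      have h2 := (hn i).1
      have h3 := hcn i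
      have h4 := hnR i
      refine Real.sqrt_le_iff.mpr ⟨h3.le, ?_⟩
      rw [div_le_iff₀ h4]
      have h6 : ‖c i‖ ^ 2 * (Z * (α i / ‖c i‖ ^ 2)) ≤ ‖c i‖ ^ 2 * n i := by gcongr
      have h7 : ‖c i‖ ^ 2 * (Z * (α i / ‖c i‖ ^ 2)) = α i * Z := by field_simp
      linarith

end Vale.Agent.P110
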