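import Mathlib

/-! # P110: abstract second-moment design lemma -/

namespace Vale.Agent.P110.Design

open Finset

set_option linter.unusedSectionVars false

variable {ι Y : Type} [Fintype ι] [DecidableEq ι] [Fintype Y] [DecidableEq Y]

/-- expectation under the product measure. -/
noncomputable def Ex (ρ : ι → ℝ) (F : (Y → ι) → ℝ) : ℝ := ∑ γ : Y → ι, (∏ y, ρ (γ y)) * F γ

lemma Ex_prod (ρ : ι → ℝ) (f : Y → ι → ℝ) :
    Ex ρ (fun γ : Y → ι => ∏ y, f y (γ y)) = ∏ y, ∑ c, ρ c * f y c := by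
  unfold Ex
  rw [Finset.prod_univ_sum, Fintype.piFinset_univ]
  refine Finset.sum_congr rfl fun γ _ => ?_
  rw [Finset.prod_mul_distrib]

lemma Ex_const (ρ : ι → ℝ) (h1 : ∑ i, ρ i = 1) (c : ℝ) : Ex ρ (fun _ : Y → ι => c) = c := by
  have := Ex_prod (Y := Y) ρ (fun _ _ => 1)
  simp only [Finset.prod_const_one, mul_one, h1] at this
  unfold Ex at this ⊢
  rw [← Finset.sum_mul]
  simp only [mul_one] at this
  rw [this, one_mul]

lemma Ex_mono (ρ : ι → ℝ) (h0 : ∀ i, 0 ≤ ρ i) {F G : (Y → ι) → ℝ} (h : ∀ γ, F γ ≤ G γ) :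
    Ex ρ F ≤ Ex ρ G :=
  Finset.sum_le_sum fun γ _ =>
    mul_le_mul_of_nonneg_left (h γ) (Finset.prod_nonneg fun y _ => h0 (γ y))

lemma Ex_add (ρ : ι → ℝ) (F G : (Y → ι) → ℝ) :
    Ex ρ (fun γ => F γ + G γ) = Ex ρ F + Ex ρ G := by
  unfold Ex; rw [← Finset.sum_add_distrib]; exact Finset.sum_congr rfl fun γ _ => by ring

lemma Ex_sub (ρ : ι → ℝ) (F G : (Y → ι) → ℝ) :
    Ex ρ (fun γ => F γ - G γ) = Ex ρ F - Ex ρ G := by
  unfold Ex; rw [← Finset.sum_sub_distrib]; exact Finset.sum_congr rfl fun γ _ => by ring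

lemma Ex_mul (ρ : ι → ℝ) (c : ℝ) (F : (Y → ι) → ℝ) :
    Ex ρ (fun γ => c * F γ) = c * Ex ρ F := by
  unfold Ex; rw [Finset.mul_sum]; exact Finset.sum_congr rfl fun γ _ => by ring

lemma Ex_sum {σ : Type*} (ρ : ι → ℝ) (S : Finset σ) (F : σ → (Y → ι) → ℝ) :
    Ex ρ (fun γ => ∑ s ∈ S, F s γ) = ∑ s ∈ S, Ex ρ (F s) := by
  unfold Ex
  rw [Finset.sum_comm]
  exact Finset.sum_congr rfl fun γ _ => by rw [Finset.mul_sum]

lemma exists_ge_Ex (ρ : ι → ℝ) (h0 : ∀ i, 0 ≤ ρ i) (h1 : ∑ i, ρ i = 1) (F : (Y → ι) → ℝ) :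
    ∃ γ, Ex ρ F ≤ F γ := by
  have hne : Nonempty ι := by
    by_contra h
    rw [not_nonempty_iff] at h
    simp at h1
  obtain ⟨γ, -, hγ⟩ := Finset.exists_max_image (univ : Finset (Y → ι)) F Finset.univ_nonempty
  refine ⟨γ, ?_⟩
  rw [← Ex_const (Y := Y) ρ h1 (F γ)]
  exact Ex_mono ρ h0 fun γ' => hγ γ' (Finset.mem_univ _)

/-- indicator. -/
noncomputable def ind (P : Prop) [Decidable P] : ℝ := if P then 1 else 0

lemma ind_nonneg (P : Prop) [Decidable P] : 0 ≤ ind P := by unfold ind; split_ifs <;> norm_num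
lemma ind_le_one (P : Prop) [Decidable P] : ind P ≤ 1 := by unfold ind; split_ifs <;> norm_num
lemma ind_pos {P : Prop} [Decidable P] (h : P) : ind P = 1 := by simp [ind, h]
lemma ind_neg {P : Prop} [Decidable P] (h : ¬P) : ind P = 0 := by simp [ind, h]

lemma sum_ind {σ : Type*} (S : Finset σ) (P : σ → Prop) [DecidablePred P] :
    ∑ s ∈ S, ind (P s) = ((S.filter P).card : ℝ) := by
  unfold ind; rw [Finset.sum_boole]

lemma Ex_indep {σ : Type*} (ρ : ι → ℝ) (h1 : ∑ i, ρ i = 1) (S : Finset σ) (yv : σ → Y)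
    (tg : σ → ι) (hinj : Set.InjOn yv S) :
    Ex ρ (fun γ : Y → ι => ∏ s ∈ S, ind (γ (yv s) = tg s)) = ∏ s ∈ S, ρ (tg s) := by
  classical
  have h2 : (fun γ : Y → ι => ∏ s ∈ S, ind (γ (yv s) = tg s))
      = fun γ => ∏ y, ∏ s ∈ S with yv s = y, ind (γ y = tg s) := by
    funext γ
    rw [← Finset.prod_fiberwise (s := S) (g := yv)]
    refine Finset.prod_congr rfl fun y _ => Finset.prod_congr rfl fun s hs => ?_
    rw [(Finset.mem_filter.mp hs).2]
  rw [h2, Ex_prod ρ (fun y c => ∏ s ∈ S with yv s = y, ind (c = tg s)),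
    ← Finset.prod_fiberwise (s := S) (g := yv)]
  refine Finset.prod_congr rfl fun y _ => ?_
  rcases (S.filter fun s => yv s = y).eq_empty_or_nonempty with h | ⟨s, hs⟩
  · simp [h, h1]
  · have : (S.filter fun s => yv s = y) = {s} := by
      refine Finset.eq_singleton_iff_unique_mem.mpr ⟨hs, fun t ht => ?_⟩
      have h3 := Finset.mem_filter.mp hs
      have h4 := Finset.mem_filter.mp ht
      exact hinj h4.1 h3.1 (h4.2.trans h3.2.symm)
    simp [this, ind]

variable {Ω X : Type} [Fintype Ω] [DecidableEq Ω] [Fintype X] [DecidableEq X]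

/-- number of coincidences of blocks inside one point. -/
noncomputable def gz (π : ι → Ω → X) (B : X → Y) (z : Ω) : ℝ :=
  ∑ j, ∑ l ∈ univ.erase j, ind (B (π l z) = B (π j z))

omit [Fintype Y] [Fintype Ω] [DecidableEq Ω] [Fintype X] [DecidableEq X] in
lemma gz_nonneg (π : ι → Ω → X) (B : X → Y) (z : Ω) : 0 ≤ gz π B z :=
  Finset.sum_nonneg fun _ _ => Finset.sum_nonneg fun _ _ => ind_nonneg _

omit [Fintype Y] [Fintype Ω] [DecidableEq Ω] [Fintype X] [DecidableEq X] in
lemma one_le_gz (π : ι → Ω → X) (B : X → Y) (z : Ω) {j l : ι} (h : l ≠ j)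
    (hB : B (π l z) = B (π j z)) : 1 ≤ gz π B z := by
  unfold gz
  refine le_trans ?_ (Finset.single_le_sum
    (f := fun j => ∑ l ∈ univ.erase j, ind (B (π l z) = B (π j z)))
    (fun _ _ => Finset.sum_nonneg fun _ _ => ind_nonneg _) (Finset.mem_univ j))
  refine le_trans ?_ (Finset.single_le_sum (f := fun l => ind (B (π l z) = B (π j z)))
    (fun _ _ => ind_nonneg _) (Finset.mem_erase.mpr ⟨h, Finset.mem_univ l⟩))
  rw [ind_pos hB]

omit [Fintype ι] [DecidableEq ι] [Fintype Y] [DecidableEq Ω] in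
lemma count0 (π : ι → Ω → X) (B : X → Y) (K : ℝ)
    (hinj : ∀ i l, i ≠ l → ∀ z z', π i z = π i z' → π l z = π l z' → z = z')
    (hB : ∀ y, ((univ.filter fun x => B x = y).card : ℝ) ≤ K) {i l : ι} (h : i ≠ l) (a : X)
    (y : Y) : ∑ z ∈ univ.filter (fun z => π i z = a), ind (B (π l z) = y) ≤ K := by
  rw [sum_ind]
  refine le_trans ?_ (hB y)
  have : ((univ.filter (fun z => π i z = a)).filter fun z => B (π l z) = y).card
      ≤ (univ.filter fun x => B x = y).card := by
    refine Finset.card_le_card_of_injOn (π l) (fun z hz => ?_) (fun z hz z' hz' hzz => ?_)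
    · simp only [Finset.coe_filter, Finset.mem_filter, Finset.mem_univ, true_and,
        Set.mem_ofPred_eq] at hz ⊢
      exact hz.2
    · simp only [Finset.coe_filter, Finset.mem_filter, Finset.mem_univ, true_and,
        Set.mem_ofPred_eq] at hz hz'
      exact hinj i l h z z' (hz.1.trans hz'.1.symm) hzz
  exact_mod_cast this

omit [Fintype Y] [DecidableEq Ω] in
lemma sum_gz (π : ι → Ω → X) (B : X → Y) (K p : ℝ) (hK : 0 ≤ K) (hp : (Fintype.card X : ℝ) = p)
    (hinj : ∀ i l, i ≠ l → ∀ z z', π i z = π i z' → π l z = π l z' → z = z')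
    (hB : ∀ y, ((univ.filter fun x => B x = y).card : ℝ) ≤ K) :
    ∑ z, gz π B z ≤ (Fintype.card ι : ℝ) ^ 2 * p * K := by
  have hp0 : 0 ≤ p := hp ▸ Nat.cast_nonneg _
  unfold gz
  rw [Finset.sum_comm]
  have h1 : ∀ j ∈ (univ : Finset ι), ∑ z, ∑ l ∈ univ.erase j, ind (B (π l z) = B (π j z))
      ≤ (Fintype.card ι : ℝ) * (p * K) := by
    intro j _
    rw [Finset.sum_comm]
    have h2 : ∀ l ∈ univ.erase j, ∑ z, ind (B (π l z) = B (π j z)) ≤ p * K := by
      intro l hl
      rw [← Finset.sum_fiberwise (s := univ) (g := π j)]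
      have h3 : ∀ a ∈ (univ : Finset X),
          ∑ z ∈ univ.filter (fun z => π j z = a), ind (B (π l z) = B (π j z)) ≤ K := by
        intro a _
        refine le_trans (le_of_eq (Finset.sum_congr rfl fun z hz => ?_))
          (count0 π B K hinj hB (Finset.ne_of_mem_erase hl).symm a (B a))
        rw [(Finset.mem_filter.mp hz).2]
      refine (Finset.sum_le_sum h3).trans ?_
      simp [hp]
    refine (Finset.sum_le_sum h2).trans ?_
    rw [Finset.sum_const, nsmul_eq_mul]
    have : ((univ.erase j).card : ℝ) ≤ Fintype.card ι := by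
      exact_mod_cast Finset.card_le_univ _
    exact mul_le_mul_of_nonneg_right this (by positivity)
  refine (Finset.sum_le_sum h1).trans (le_of_eq ?_)
  simp; ring

/-- all colours except the `i`-th are right. -/
noncomputable def Iz (π : ι → Ω → X) (B : X → Y) (i : ι) (z : Ω) (γ : Y → ι) : ℝ :=
  ∏ j ∈ univ.erase i, ind (γ (B (π j z)) = j)

omit [Fintype Y] [DecidableEq Y] [Fintype Ω] [DecidableEq Ω] [Fintype X] [DecidableEq X] in
lemma Iz_nonneg (π : ι → Ω → X) (B : X → Y) (i : ι) (z : Ω) (γ : Y → ι) : 0 ≤ Iz π B i z γ :=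
  Finset.prod_nonneg fun _ _ => ind_nonneg _

omit [Fintype Y] [DecidableEq Y] [Fintype Ω] [DecidableEq Ω] [Fintype X] [DecidableEq X] in
lemma Iz_le_one (π : ι → Ω → X) (B : X → Y) (i : ι) (z : Ω) (γ : Y → ι) : Iz π B i z γ ≤ 1 :=
  Finset.prod_le_one (fun _ _ => ind_nonneg _) fun _ _ => ind_le_one _

omit [Fintype Ω] [DecidableEq Ω] [Fintype X] [DecidableEq X] in
lemma Ex_prod_ge (ρ : ι → ℝ) (h0 : ∀ i, 0 ≤ ρ i) (h1 : ∑ i, ρ i = 1) (π : ι → Ω → X) (B : X → Y)
    (S : Finset ι) (z : Ω) :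
    (∏ j ∈ S, ρ j) * (1 - gz π B z) ≤ Ex ρ (fun γ : Y → ι => ∏ j ∈ S, ind (γ (B (π j z)) = j)) := by
  have hρ : 0 ≤ ∏ j ∈ S, ρ j := Finset.prod_nonneg fun j _ => h0 j
  by_cases h : Set.InjOn (fun j => B (π j z)) S
  · rw [Ex_indep ρ h1 S (fun j => B (π j z)) (fun j => j) h]
    have := gz_nonneg π B z
    nlinarith
  · simp only [Set.InjOn, not_forall] at h
    obtain ⟨j, _, l, _, hB, hjl⟩ := h
    have h2 := one_le_gz π B z hjl hB
    have h3 : (0 : ℝ) ≤ Ex ρ (fun γ : Y → ι => ∏ j ∈ S, ind (γ (B (π j z)) = j)) := by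
      rw [← Ex_const (Y := Y) ρ h1 0]
      exact Ex_mono ρ h0 fun γ => Finset.prod_nonneg fun _ _ => ind_nonneg _
    nlinarith

omit [Fintype Ω] [DecidableEq Ω] [Fintype X] [DecidableEq X] in
lemma Ex_pair_le (ρ : ι → ℝ) (h0 : ∀ i, 0 ≤ ρ i) (h1 : ∑ i, ρ i = 1) (π : ι → Ω → X) (B : X → Y)
    (i : ι) (z z' : Ω) :
    Ex ρ (fun γ => Iz π B i z γ * Iz π B i z' γ) ≤ (∏ j ∈ univ.erase i, ρ j) ^ 2 + gz π B z
      + gz π B z' + ∑ j ∈ univ.erase i, ∑ l ∈ univ.erase i, ind (B (π l z') = B (π j z)) := by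
  have hg := gz_nonneg π B z
  have hg' := gz_nonneg π B z'
  have hh : 0 ≤ ∑ j ∈ univ.erase i, ∑ l ∈ univ.erase i, ind (B (π l z') = B (π j z)) :=
    Finset.sum_nonneg fun _ _ => Finset.sum_nonneg fun _ _ => ind_nonneg _
  have hone : ∀ j ∈ univ.erase i, ∀ l ∈ univ.erase i, B (π l z') = B (π j z) →
      1 ≤ ∑ j ∈ univ.erase i, ∑ l ∈ univ.erase i, ind (B (π l z') = B (π j z)) := by
    intro j hj l hl hB
    refine le_trans ?_ (Finset.single_le_sum
      (f := fun j => ∑ l ∈ univ.erase i, ind (B (π l z') = B (π j z)))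
      (fun _ _ => Finset.sum_nonneg fun _ _ => ind_nonneg _) hj)
    refine le_trans ?_ (Finset.single_le_sum (f := fun l => ind (B (π l z') = B (π j z)))
      (fun _ _ => ind_nonneg _) hl)
    rw [ind_pos hB]
  by_cases h : Set.InjOn (Sum.elim (fun j => B (π j z)) (fun j => B (π j z')))
      ((univ.erase i).disjSum (univ.erase i) : Finset (ι ⊕ ι))
  · have h2 := Ex_indep ρ h1 _ _ (Sum.elim (fun j => j) (fun j => j)) h
    simp only [Finset.prod_disjSum, Sum.elim_inl, Sum.elim_inr] at h2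
    refine (le_of_eq h2).trans ?_
    nlinarith
  · have h3 : Ex ρ (fun γ => Iz π B i z γ * Iz π B i z' γ) ≤ 1 := by
      rw [← Ex_const (Y := Y) ρ h1 1]
      exact Ex_mono ρ h0 fun γ =>
        mul_le_one₀ (Iz_le_one _ _ _ _ _) (Iz_nonneg _ _ _ _ _) (Iz_le_one _ _ _ _ _)
    simp only [Set.InjOn, not_forall] at h
    obtain ⟨j, hj, l, hl, hB, hjl⟩ := h
    have hsq := sq_nonneg (∏ j ∈ univ.erase i, ρ j)
    rcases j with j | j <;> rcases l with l | l
    · have := one_le_gz π B z (fun h => hjl (by rw [h])) hB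
      linarith
    · have := hone j (by simpa using hj) l (by simpa using hl) hB.symm
      linarith
    · have := hone l (by simpa using hl) j (by simpa using hj) hB
      linarith
    · have := one_le_gz π B z' (fun h => hjl (by rw [h])) hB
      linarith

/-- the count `N_i(a)`. -/
noncomputable def Nia (π : ι → Ω → X) (B : X → Y) (i : ι) (a : X) (γ : Y → ι) : ℝ :=
  ∑ z ∈ univ.filter (fun z => π i z = a), Iz π B i z γ

omit [DecidableEq Ω] in
lemma var_le (ρ : ι → ℝ) (h0 : ∀ i, 0 ≤ ρ i) (h1 : ∑ i, ρ i = 1) (π : ι → Ω → X) (B : X → Y)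
    (K p : ℝ) (hK : 0 ≤ K) (hp : (Fintype.card X : ℝ) = p)
    (hfib : ∀ i a, ((univ.filter fun z => π i z = a).card : ℝ) = p)
    (hinj : ∀ i l, i ≠ l → ∀ z z', π i z = π i z' → π l z = π l z' → z = z')
    (hB : ∀ y, ((univ.filter fun x => B x = y).card : ℝ) ≤ K) (i : ι) :
    Ex ρ (fun γ => ∑ a, (Nia π B i a γ - p * ∏ j ∈ univ.erase i, ρ j) ^ 2)
      ≤ 5 * (Fintype.card ι : ℝ) ^ 2 * K * p ^ 2 := by
  have hp0 : 0 ≤ p := hp ▸ Nat.cast_nonneg _
  set ρ' := ∏ j ∈ univ.erase i, ρ j with hρ'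
  set r : ℝ := (Fintype.card ι : ℝ) with hr
  have hρ0 : 0 ≤ ρ' := Finset.prod_nonneg fun j _ => h0 j
  have hρ1 : ρ' ≤ 1 := Finset.prod_le_one (fun j _ => h0 j) fun j _ => by
    rw [← h1]; exact Finset.single_le_sum (fun j _ => h0 j) (Finset.mem_univ j)
  have hΩ : (Fintype.card Ω : ℝ) = p ^ 2 := by
    have := Finset.card_eq_sum_card_fiberwise (s := (univ : Finset Ω)) (t := (univ : Finset X))
      (f := π i) (fun _ _ => Finset.mem_univ _)
    rw [← Finset.card_univ, this]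
    push_cast
    simp [hfib, hp]; ring
  have hg := sum_gz π B K p hK hp hinj hB
  rw [← hr] at hg
  have e1 : (fun γ => ∑ a, (Nia π B i a γ - p * ρ') ^ 2) = fun γ =>
      (∑ z, ∑ z' ∈ univ.filter (fun z' => π i z' = π i z), Iz π B i z γ * Iz π B i z' γ)
        - 2 * p * ρ' * ∑ z, Iz π B i z γ + p * (p * ρ') ^ 2 := by
    funext γ
    have a1 : ∑ a, Nia π B i a γ = ∑ z, Iz π B i z γ := by
      unfold Nia; exact Finset.sum_fiberwise _ _ _
    have a2 : ∑ a, Nia π B i a γ ^ 2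
        = ∑ z, ∑ z' ∈ univ.filter (fun z' => π i z' = π i z), Iz π B i z γ * Iz π B i z' γ := by
      rw [← Finset.sum_fiberwise (s := univ) (g := π i)]
      refine Finset.sum_congr rfl fun a _ => ?_
      unfold Nia
      rw [sq, Finset.sum_mul_sum]
      refine Finset.sum_congr rfl fun z hz => ?_
      rw [(Finset.mem_filter.mp hz).2]
    rw [← a1, ← a2, Finset.mul_sum, ← Finset.sum_sub_distrib]
    have a3 : p * (p * ρ') ^ 2 = ∑ _a : X, (p * ρ') ^ 2 := by simp [hp]
    rw [a3, ← Finset.sum_add_distrib]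
    exact Finset.sum_congr rfl fun a _ => by ring
  rw [e1, Ex_add, Ex_sub, Ex_mul, Ex_const ρ h1, Ex_sum, Ex_sum]
  have e2 : ρ' * (p ^ 2 - r ^ 2 * p * K) ≤ ∑ z, Ex ρ (Iz π B i z) := by
    refine le_trans ?_ (Finset.sum_le_sum fun z _ => Ex_prod_ge ρ h0 h1 π B (univ.erase i) z)
    rw [← Finset.mul_sum, Finset.sum_sub_distrib]
    simp only [Finset.sum_const, Finset.card_univ, nsmul_eq_mul, mul_one, hΩ]
    exact mul_le_mul_of_nonneg_left (by linarith) hρ0
  have e3 : ∑ z, Ex ρ (fun γ => ∑ z' ∈ univ.filter (fun z' => π i z' = π i z),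
      Iz π B i z γ * Iz π B i z' γ) ≤ p ^ 3 * ρ' ^ 2 + 3 * r ^ 2 * K * p ^ 2 := by
    have b1 : ∀ z ∈ (univ : Finset Ω), Ex ρ (fun γ => ∑ z' ∈ univ.filter (fun z' => π i z' = π i z),
        Iz π B i z γ * Iz π B i z' γ) ≤ p * ρ' ^ 2 + p * gz π B z
          + ∑ z' ∈ univ.filter (fun z' => π i z' = π i z), gz π B z' + r ^ 2 * K := by
      intro z _
      rw [Ex_sum]
      refine (Finset.sum_le_sum fun z' _ => Ex_pair_le ρ h0 h1 π B i z z').trans ?_
      rw [Finset.sum_add_distrib, Finset.sum_add_distrib, Finset.sum_add_distrib]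
      simp only [Finset.sum_const, nsmul_eq_mul, hfib]
      gcongr
      rw [Finset.sum_comm]
      have hc : ((univ.erase i).card : ℝ) ≤ r := by
        rw [hr]; exact_mod_cast Finset.card_le_univ _
      have b2 : ∀ j ∈ univ.erase i, ∑ z' ∈ univ.filter (fun z' => π i z' = π i z),
          ∑ l ∈ univ.erase i, ind (B (π l z') = B (π j z)) ≤ r * K := by
        intro j _
        rw [Finset.sum_comm]
        refine (Finset.sum_le_sum fun l hl =>
          count0 π B K hinj hB (Finset.ne_of_mem_erase hl).symm _ _).trans ?_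
        rw [Finset.sum_const, nsmul_eq_mul]
        exact mul_le_mul_of_nonneg_right hc hK
      refine (Finset.sum_le_sum b2).trans ?_
      rw [Finset.sum_const, nsmul_eq_mul, sq, mul_assoc]
      exact mul_le_mul_of_nonneg_right hc (mul_nonneg (Nat.cast_nonneg _) hK)
    refine (Finset.sum_le_sum b1).trans ?_
    rw [Finset.sum_add_distrib, Finset.sum_add_distrib, Finset.sum_add_distrib,
      ← Finset.mul_sum (a := p) (f := gz π B)]
    have b3 : ∑ z, ∑ z' ∈ univ.filter (fun z' => π i z' = π i z), gz π B z'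
        = p * ∑ z, gz π B z := by
      simp_rw [Finset.sum_filter]
      rw [Finset.sum_comm, Finset.mul_sum]
      refine Finset.sum_congr rfl fun z' _ => ?_
      rw [← Finset.sum_filter, Finset.sum_const, nsmul_eq_mul, ← hfib i (π i z')]
      congr 3
      ext z; simp [eq_comm]
    rw [b3]
    simp only [Finset.sum_const, Finset.card_univ, nsmul_eq_mul, hΩ]
    have := mul_le_mul_of_nonneg_left hg hp0
    nlinarith
  have e4 := mul_le_mul_of_nonneg_left e2 (show 0 ≤ 2 * p * ρ' by positivity)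
  have e5 : ρ' ^ 2 * (r ^ 2 * K * p ^ 2) ≤ 1 * (r ^ 2 * K * p ^ 2) :=
    mul_le_mul_of_nonneg_right (by nlinarith) (by positivity)
  nlinarith

theorem abstract_design (ρ : ι → ℝ) (h0 : ∀ i, 0 < ρ i) (h1 : ∑ i, ρ i = 1) (π : ι → Ω → X)
    (B : X → Y) (G : Finset X) (K p g d : ℝ) (hK : 0 ≤ K) (hp0 : 0 < p) (hd : 0 < d)
    (hp : (Fintype.card X : ℝ) = p)
    (hfib : ∀ i a, ((univ.filter fun z => π i z = a).card : ℝ) = p)
    (hinj : ∀ i l, i ≠ l → ∀ z z', π i z = π i z' → π l z = π l z' → z = z')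
    (hB : ∀ y, ((univ.filter fun x => B x = y).card : ℝ) ≤ K)
    (hG : ((univ.filter fun x => x ∉ G).card : ℝ) ≤ g) :
    ∃ (γ : Y → ι) (Z : Finset Ω), (∀ z ∈ Z, ∀ j, γ (B (π j z)) = j ∧ π j z ∈ G) ∧
      (∀ i a, ((Z.filter fun z => π i z = a).card : ℝ) ≤ (1 + d) * (p * (∏ j, ρ j) / ρ i)) ∧
      (∏ j, ρ j) * (p ^ 2 - Fintype.card ι * g * p) - p * ((Fintype.card ι : ℝ) ^ 2 * K *
        (1 + 5 * Fintype.card ι * (1 + d) / (d ^ 2 * ∏ j, ρ j))) ≤ Z.card := by
  classical
  have h0' : ∀ i, 0 ≤ ρ i := fun i => (h0 i).le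
  set ρA := ∏ j, ρ j with hρA
  set r : ℝ := (Fintype.card ι : ℝ) with hr
  have hr0 : 0 ≤ r := Nat.cast_nonneg _
  have hle1 : ∀ j, ρ j ≤ 1 := fun j => by
    rw [← h1]; exact Finset.single_le_sum (fun j _ => h0' j) (Finset.mem_univ j)
  have hρ0 : 0 < ρA := Finset.prod_pos fun j _ => h0 j
  have hρ1 : ρA ≤ 1 := Finset.prod_le_one (fun j _ => h0' j) fun j _ => hle1 j
  let ν : ι → ℝ := fun i => p * ∏ j ∈ univ.erase i, ρ j
  have hν : ∀ i, ν i = p * ρA / ρ i := by
    intro i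
    have := (h0 i).ne'
    simp only [ν]
    rw [hρA, ← Finset.mul_prod_erase _ _ (Finset.mem_univ i)]; field_simp
  have hν1 : ∀ i, p * ρA ≤ ν i := by
    intro i; rw [hν]; exact le_div_self (by positivity) (h0 i) (hle1 i)
  have hν0 : ∀ i, 0 < ν i := fun i => lt_of_lt_of_le (by positivity) (hν1 i)
  have hne : Nonempty ι := by
    by_contra h
    rw [not_nonempty_iff] at h
    simp at h1
  obtain ⟨i₀⟩ := hne
  have hΩ : (Fintype.card Ω : ℝ) = p ^ 2 := by
    have := Finset.card_eq_sum_card_fiberwise (s := (univ : Finset Ω)) (t := (univ : Finset X))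
      (f := π i₀) (fun _ _ => Finset.mem_univ _)
    rw [← Finset.card_univ, this]
    push_cast
    simp [hfib, hp]; ring
  let c : ℝ := (1 + d) / (d ^ 2 * (p * ρA))
  have hc0 : 0 ≤ c := by positivity
  let Φ : (Y → ι) → ℝ := fun γ =>
    ∑ z, ind (∀ j, π j z ∈ G) * ∏ j, ind (γ (B (π j z)) = j)
      - c * ∑ i, ∑ a, (Nia π B i a γ - ν i) ^ 2
  obtain ⟨γ, hγ⟩ := exists_ge_Ex ρ h0' h1 Φ
  let Z₀ : Finset Ω := univ.filter fun z => ∀ j, γ (B (π j z)) = j ∧ π j z ∈ G
  let Z : Finset Ω := Z₀.filter fun z => ∀ i, Nia π B i (π i z) γ ≤ (1 + d) * ν i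
  have hZ₀N : ∀ i a, ((Z₀.filter fun z => π i z = a).card : ℝ) ≤ Nia π B i a γ := by
    intro i a
    have : (Z₀.filter fun z => π i z = a) = (univ.filter fun z => π i z = a).filter
        fun z => ∀ j, γ (B (π j z)) = j ∧ π j z ∈ G := by
      ext z; simp [Z₀, and_comm]
    rw [this, ← sum_ind]
    refine Finset.sum_le_sum fun z _ => ?_
    by_cases hz : ∀ j, γ (B (π j z)) = j ∧ π j z ∈ G
    · rw [ind_pos hz]
      unfold Iz
      rw [Finset.prod_eq_one fun j _ => ind_pos (hz j).1]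
    · rw [ind_neg hz]; exact Iz_nonneg _ _ _ _ _
  refine ⟨γ, Z, fun z hz => ?_, fun i a => ?_, ?_⟩
  · exact (Finset.mem_filter.mp (Finset.mem_filter.mp hz).1).2
  · rcases (Z.filter fun z => π i z = a).eq_empty_or_nonempty with h | ⟨z, hz⟩
    · rw [h, ← hν]; have := hν0 i; simp; positivity
    · have h2 := Finset.mem_filter.mp hz
      have h3 := (Finset.mem_filter.mp h2.1).2 i
      rw [h2.2] at h3
      rw [← hν]
      refine le_trans ?_ ((hZ₀N i a).trans h3)
      exact_mod_cast Finset.card_le_card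
        (Finset.filter_subset_filter _ (Finset.filter_subset _ _))
  · have e1 : Φ γ ≤ Z.card := by
      have a1 : ∑ z, ind (∀ j, π j z ∈ G) * ∏ j, ind (γ (B (π j z)) = j) ≤ Z₀.card := by
        rw [← sum_ind]
        refine Finset.sum_le_sum fun z _ => ?_
        by_cases hz : ∀ j, γ (B (π j z)) = j ∧ π j z ∈ G
        · rw [ind_pos hz]
          exact mul_le_one₀ (ind_le_one _) (Finset.prod_nonneg fun _ _ => ind_nonneg _)
            (Finset.prod_le_one (fun _ _ => ind_nonneg _) fun _ _ => ind_le_one _)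
        · rw [ind_neg hz]
          push Not at hz
          obtain ⟨j, hj⟩ := hz
          by_cases hj' : γ (B (π j z)) = j
          · rw [ind_neg (fun h => hj hj' (h j)), zero_mul]
          · rw [Finset.prod_eq_zero (Finset.mem_univ j) (ind_neg hj'), mul_zero]
      have a2 : (Z₀.card : ℝ) ≤ Z.card + ∑ i, ∑ z ∈ Z₀, ind ((1 + d) * ν i < Nia π B i (π i z) γ) := by
        rw [Finset.sum_comm, ← sum_ind Z₀, ← Finset.sum_add_distrib, Finset.card_eq_sum_ones]
        push_cast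
        refine Finset.sum_le_sum fun z _ => ?_
        have hs : 0 ≤ ∑ i, ind ((1 + d) * ν i < Nia π B i (π i z) γ) :=
          Finset.sum_nonneg fun _ _ => ind_nonneg _
        by_cases hz : ∀ i, Nia π B i (π i z) γ ≤ (1 + d) * ν i
        · rw [ind_pos hz]; linarith
        · rw [ind_neg hz, zero_add]
          push Not at hz
          obtain ⟨i, hi⟩ := hz
          refine le_trans ?_ (Finset.single_le_sum
            (f := fun i => ind ((1 + d) * ν i < Nia π B i (π i z) γ))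
            (fun _ _ => ind_nonneg _) (Finset.mem_univ i))
          rw [ind_pos hi]
      have a3 : ∀ i ∈ (univ : Finset ι), ∑ z ∈ Z₀, ind ((1 + d) * ν i < Nia π B i (π i z) γ)
          ≤ c * ∑ a, (Nia π B i a γ - ν i) ^ 2 := by
        intro i _
        rw [← Finset.sum_fiberwise (s := Z₀) (g := π i), Finset.mul_sum]
        refine Finset.sum_le_sum fun a _ => ?_
        have b1 : ∑ z ∈ Z₀.filter (fun z => π i z = a), ind ((1 + d) * ν i < Nia π B i (π i z) γ)
            = (Z₀.filter fun z => π i z = a).card * ind ((1 + d) * ν i < Nia π B i a γ) := by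
          rw [← nsmul_eq_mul, ← Finset.sum_const]
          refine Finset.sum_congr rfl fun z hz => ?_
          rw [(Finset.mem_filter.mp hz).2]
        rw [b1]
        by_cases hb : (1 + d) * ν i < Nia π B i a γ
        · rw [ind_pos hb, mul_one]
          refine (hZ₀N i a).trans ?_
          set n := Nia π B i a γ
          have b2 := hν0 i
          have b3 := hν1 i
          simp only [c]
          rw [div_mul_eq_mul_div, le_div_iff₀ (by positivity)]
          have b4 : d * ν i ≤ n - ν i := by linarith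
          have b5 : d * n ≤ (1 + d) * (n - ν i) := by nlinarith
          have b6 : 0 ≤ n := by nlinarith
          have b7 : d * n * (d * ν i) ≤ (1 + d) * (n - ν i) * (n - ν i) :=
            mul_le_mul b5 b4 (by positivity) (le_trans (by positivity) b5)
          have b8 : n * (d ^ 2 * (p * ρA)) ≤ n * (d ^ 2 * ν i) := by gcongr
          nlinarith
        · rw [ind_neg hb, mul_zero]; positivity
      have a4 := Finset.sum_le_sum a3
      rw [← Finset.mul_sum] at a4
      simp only [Φ]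
      linarith
    refine le_trans ?_ (hγ.trans e1)
    simp only [Φ]
    rw [Ex_sub, Ex_mul, Ex_sum, Ex_sum]
    have e2 : ∑ i, Ex ρ (fun γ => ∑ a, (Nia π B i a γ - ν i) ^ 2) ≤ r * (5 * r ^ 2 * K * p ^ 2) := by
      refine (Finset.sum_le_sum fun i _ => var_le ρ h0' h1 π B K p hK hp hfib hinj hB i).trans ?_
      simp [hr]
    have e3 : ρA * (p ^ 2 - r ^ 2 * p * K - r * g * p)
        ≤ ∑ z, Ex ρ (fun γ => ind (∀ j, π j z ∈ G) * ∏ j, ind (γ (B (π j z)) = j)) := by
      have a1 : ∀ z ∈ (univ : Finset Ω), ρA * (1 - gz π B z - ∑ j, ind (π j z ∉ G))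
          ≤ Ex ρ (fun γ => ind (∀ j, π j z ∈ G) * ∏ j, ind (γ (B (π j z)) = j)) := by
        intro z _
        rw [Ex_mul]
        have hs : 0 ≤ ∑ j, ind (π j z ∉ G) := Finset.sum_nonneg fun _ _ => ind_nonneg _
        by_cases hz : ∀ j, π j z ∈ G
        · rw [ind_pos hz, one_mul]
          refine le_trans ?_ (Ex_prod_ge ρ h0' h1 π B univ z)
          exact mul_le_mul_of_nonneg_left (by linarith) hρ0.le
        · rw [ind_neg hz, zero_mul]
          push Not at hz
          obtain ⟨j, hj⟩ := hz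
          have b1 : 1 ≤ ∑ j, ind (π j z ∉ G) := by
            refine le_trans ?_ (Finset.single_le_sum (f := fun j => ind (π j z ∉ G))
              (fun _ _ => ind_nonneg _) (Finset.mem_univ j))
            rw [ind_pos hj]
          have := gz_nonneg π B z
          nlinarith
      refine le_trans ?_ (Finset.sum_le_sum a1)
      rw [← Finset.mul_sum, Finset.sum_sub_distrib, Finset.sum_sub_distrib]
      simp only [Finset.sum_const, Finset.card_univ, nsmul_eq_mul, mul_one, hΩ]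
      have a2 := sum_gz π B K p hK hp hinj hB
      have a3 : ∑ z, ∑ j, ind (π j z ∉ G) ≤ r * g * p := by
        rw [Finset.sum_comm]
        have b1 : ∀ j ∈ (univ : Finset ι), ∑ z, ind (π j z ∉ G) ≤ g * p := by
          intro j _
          rw [← Finset.sum_fiberwise (s := univ) (g := π j)]
          have b2 : ∀ a ∈ (univ : Finset X), ∑ z ∈ univ.filter (fun z => π j z = a),
              ind (π j z ∉ G) = ind (a ∉ G) * p := by
            intro a _
            rw [← hfib j a, mul_comm, ← nsmul_eq_mul, ← Finset.sum_const]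
            refine Finset.sum_congr rfl fun z hz => ?_
            rw [(Finset.mem_filter.mp hz).2]
          rw [Finset.sum_congr rfl b2, ← Finset.sum_mul, sum_ind]
          exact mul_le_mul_of_nonneg_right hG hp0.le
        refine (Finset.sum_le_sum b1).trans (le_of_eq ?_)
        simp [hr]; ring
      exact mul_le_mul_of_nonneg_left (by linarith) hρ0.le
    have e4 := mul_le_mul_of_nonneg_left e2 hc0
    have e5 : c * (r * (5 * r ^ 2 * K * p ^ 2))
        = p * (r ^ 2 * K * (5 * r * (1 + d) / (d ^ 2 * ρA))) := by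
      simp only [c]; field_simp
    have e6 : ρA * (r ^ 2 * p * K) ≤ 1 * (r ^ 2 * p * K) :=
      mul_le_mul_of_nonneg_right hρ1 (by positivity)
    nlinarith

end Vale.Agent.P110.Design
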