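import Vale.Agent.P110.Stmts
import Vale.Agent.P110.DesignAbs

/-! # P110: the colouring design -/

namespace Vale.Agent.P110

open Finset

namespace Design

lemma count_mod {σ : Type*} (S : Finset σ) (f : σ → ℕ) (q A m : ℕ) (hf : Set.InjOn f S)
    (h : ∀ x ∈ S, f x < q ∧ f x % A < m) : S.card ≤ (q / A + 1) * m := by
  have : S.card ≤ (range (q / A + 1) ×ˢ range m).card := by
    refine Finset.card_le_card_of_injOn (fun x => (f x / A, f x % A)) (fun x hx => ?_)
      (fun x hx y hy hxy => ?_)
    · have := h x hx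
      simp only [Finset.coe_product, Finset.coe_range, Set.mem_prod, Set.mem_Iio]
      exact ⟨Nat.lt_succ_of_le (Nat.div_le_div_right this.1.le), this.2⟩
    · simp only [Prod.mk.injEq] at hxy
      apply hf hx hy
      rw [← Nat.div_add_mod (f x) A, ← Nat.div_add_mod (f y) A, hxy.1, hxy.2]
  simpa using this

/-- symmetric block index of a cell. -/
def Bn (p A x : ℕ) : ℕ := min x (p - 1 - x) / A

lemma Bn_symm (p A x : ℕ) (hx : x < p) : Bn p A (p - 1 - x) = Bn p A x := by
  unfold Bn; congr 1; omega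

lemma Bn_lt (p A x : ℕ) (hx : x < p) : Bn p A x < p :=
  lt_of_le_of_lt ((Nat.div_le_self _ _).trans (min_le_left _ _)) hx

lemma div_add_eq (x s A : ℕ) (h : x % A + s < A) : (x + s) / A = x / A := by
  have hA : 0 < A := by omega
  have h1 := Nat.div_add_mod x A
  have : x + s = A * (x / A) + (x % A + s) := by omega
  rw [this, Nat.mul_add_div hA, Nat.div_eq_of_lt h, add_zero]

lemma good_of (p A m x : ℕ) (hm : m ≤ A) (hA : 0 < A) (hx : x < p) (h1 : ¬ (x + m) % A < m)
    (h2 : ¬ (p - 1 - x) % A < m) (h3 : ¬ (p - 1 < 2 * x + 2 * m ∧ 2 * x < p - 1)) :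
    x + m ≤ p ∧ ∀ s < m, Bn p A (x + s) = Bn p A x := by
  have h4 : m ≤ p - 1 - x := le_trans (not_lt.mp h2) (Nat.mod_le _ _)
  refine ⟨by omega, fun s hs => ?_⟩
  unfold Bn
  by_cases h : 2 * x < p - 1
  · have e1 : min (x + s) (p - 1 - (x + s)) = x + s := by omega
    have e2 : min x (p - 1 - x) = x := by omega
    rw [e1, e2]
    apply div_add_eq
    by_contra h5
    apply h1
    have h6 := Nat.mod_lt x hA
    have h7 := Nat.div_add_mod x A
    have : x + m = A * (x / A + 1) + (x % A + m - A) := by rw [mul_add]; omega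
    rw [this, Nat.mul_add_mod, Nat.mod_eq_of_lt (by omega)]
    omega
  · have e1 : min (x + s) (p - 1 - (x + s)) = p - 1 - x - s := by omega
    have e2 : min x (p - 1 - x) = p - 1 - x := by omega
    rw [e1, e2]
    set w := p - 1 - x with hw
    have h6 := Nat.mod_lt w hA
    have h7 := Nat.div_add_mod w A
    have : w - s = A * (w / A) + (w % A - s) := by omega
    rw [this, Nat.mul_add_div hA, Nat.div_eq_of_lt (show w % A - s < A by omega), add_zero]

lemma card_bad (p A m : ℕ) [NeZero p] (hm : m ≤ A) (hA : 0 < A) :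
    (univ.filter fun x : ZMod p =>
      ¬ (x.val + m ≤ p ∧ ∀ s < m, Bn p A (x.val + s) = Bn p A x.val)).card
      ≤ 2 * (((p + m) / A + 1) * m) + m := by
  let S1 := univ.filter fun x : ZMod p => (x.val + m) % A < m
  let S2 := univ.filter fun x : ZMod p => (p - 1 - x.val) % A < m
  let S3 := univ.filter fun x : ZMod p => p - 1 < 2 * x.val + 2 * m ∧ 2 * x.val < p - 1
  have hsub : (univ.filter fun x : ZMod p =>
      ¬ (x.val + m ≤ p ∧ ∀ s < m, Bn p A (x.val + s) = Bn p A x.val)) ⊆ S1 ∪ S2 ∪ S3 := by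
    intro x hx
    by_contra h
    simp only [S1, S2, S3, Finset.mem_union, Finset.mem_filter, Finset.mem_univ, true_and,
      not_or] at h hx
    exact hx (good_of p A m x.val hm hA (ZMod.val_lt x) h.1.1 h.1.2 h.2)
  have h1 : S1.card ≤ ((p + m) / A + 1) * m := by
    refine count_mod S1 (fun x => x.val + m) _ _ _ (fun x _ y _ h => ?_) (fun x hx => ?_)
    · exact ZMod.val_injective p (by simpa using h)
    · exact ⟨by have := ZMod.val_lt x; omega, (Finset.mem_filter.mp hx).2⟩
  have h2 : S2.card ≤ ((p + m) / A + 1) * m := by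
    refine count_mod S2 (fun x => p - 1 - x.val) _ _ _ (fun x _ y _ h => ?_) (fun x hx => ?_)
    · have := ZMod.val_lt x
      have := ZMod.val_lt y
      exact ZMod.val_injective p (by simp only at h; omega)
    · exact ⟨by have := ZMod.val_lt x; omega, (Finset.mem_filter.mp hx).2⟩
  have h3 : S3.card ≤ m := by
    have : S3.card ≤ (range m).card := by
      refine Finset.card_le_card_of_injOn (fun x => (p - 2 - 2 * x.val) / 2) (fun x hx => ?_)
        (fun x hx y hy h => ?_)
      · have := (Finset.mem_filter.mp hx).2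
        simp only [Finset.coe_range, Set.mem_Iio]; omega
      · have := (Finset.mem_filter.mp hx).2
        have := (Finset.mem_filter.mp hy).2
        exact ZMod.val_injective p (by simp only at h; omega)
    simpa using this
  have := (Finset.card_le_card hsub).trans
    ((Finset.card_union_le _ _).trans (Nat.add_le_add_right (Finset.card_union_le _ _) _))
  omega

lemma card_fiber (p A y : ℕ) [NeZero p] (hA : 0 < A) :
    (univ.filter fun x : ZMod p => Bn p A x.val = y).card ≤ 2 * A := by
  have : (univ.filter fun x : ZMod p => Bn p A x.val = y).card ≤ (range 2 ×ˢ range A).card := by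
    refine Finset.card_le_card_of_injOn
      (fun x => (if x.val ≤ p - 1 - x.val then 0 else 1, min x.val (p - 1 - x.val) % A))
      (fun x _ => ?_) (fun x hx x' hx' h => ?_)
    · simp only [Finset.coe_product, Finset.coe_range, Set.mem_prod, Set.mem_Iio]
      exact ⟨by split_ifs <;> norm_num, Nat.mod_lt _ hA⟩
    · have h1 := (Finset.mem_filter.mp hx).2
      have h2 := (Finset.mem_filter.mp hx').2
      simp only [Prod.mk.injEq] at h
      unfold Bn at h1 h2
      have h3 : min x.val (p - 1 - x.val) = min x'.val (p - 1 - x'.val) := by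
        rw [← Nat.div_add_mod (min x.val (p - 1 - x.val)) A,
          ← Nat.div_add_mod (min x'.val (p - 1 - x'.val)) A, h1, h2, h.2]
      have := ZMod.val_lt x
      have := ZMod.val_lt x'
      have h4 := h.1
      refine ZMod.val_injective p ?_
      split_ifs at h4 <;> omega
  simpa using this

lemma cast_ne_zero (p : ℕ) (x : ℤ) (h0 : x ≠ 0) (h : x.natAbs < p) : (x : ZMod p) ≠ 0 := by
  rw [Ne, ZMod.intCast_zmod_eq_zero_iff_dvd]
  intro hd
  have := Nat.le_of_dvd (Int.natAbs_pos.mpr h0) (Int.natCast_dvd.mp hd)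
  omega

lemma numerics (ρA r m A C d p g T : ℝ) (hρ : 0 < ρA) (hr : 0 ≤ r) (_hm : 0 ≤ m) (hA : 0 < A)
    (hp : 0 < p) (hAd : 4 * m * r ≤ d * A)
    (hg : g ≤ 2 * (((p + m) / A + 1) * m) + m)
    (hpl : 2 * (ρA * r * (2 * m ^ 2 / A + 3 * m) + C) ≤ d * ρA * p)
    (hT : ρA * (p ^ 2 - r * g * p) - p * C ≤ T) : (1 - d) * ρA * p ^ 2 ≤ T := by
  have h1 : r * g ≤ d / 2 * p + r * (2 * m ^ 2 / A + 3 * m) := by
    have h2 : 2 * (((p + m) / A + 1) * m) + m = 2 * m / A * p + (2 * m ^ 2 / A + 3 * m) := by
      field_simp; ring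
    have h3 : r * (2 * m / A) ≤ d / 2 := by
      rw [← mul_div_assoc, div_le_iff₀ hA]; linarith
    have h4 := mul_le_mul_of_nonneg_left hg hr
    rw [h2] at h4
    nlinarith
  have h5 := mul_le_mul_of_nonneg_left h1 (show 0 ≤ ρA * p by positivity)
  nlinarith

end Design

open Design in
theorem design : DesignStmt := by
  classical
  intro r α β ρ δ hα hdet hρ hρ1 hδ
  set d : ℝ := δ / (2 + δ) with hd
  have hd0 : 0 < d := by positivity
  have hd1 : d < 1 := by rw [hd, div_lt_one (by positivity)]; linarith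
  have hd2 : (1 + δ) * (1 - d) = 1 + d := by rw [hd]; field_simp; ring
  set m : ℕ := ∑ i, (α i).natAbs with hm
  have hαm : ∀ i, α i ≤ m := by
    intro i
    have h1 : (α i).natAbs ≤ m :=
      Finset.single_le_sum (f := fun i => (α i).natAbs) (fun _ _ => Nat.zero_le _)
        (Finset.mem_univ i)
    have h2 := hα i
    omega
  set A : ℕ := ⌈4 * (m : ℝ) * r / d⌉₊ + m + 1 with hA
  have hA0 : 0 < A := by omega
  have hAR : (0 : ℝ) < A := by exact_mod_cast hA0
  have hAm : m ≤ A := by omega
  have hAd : 4 * (m : ℝ) * r ≤ d * A := by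
    have h1 := Nat.le_ceil (4 * (m : ℝ) * r / d)
    have h2 : (⌈4 * (m : ℝ) * r / d⌉₊ : ℝ) ≤ A := Nat.cast_le.mpr (by omega)
    have h3 := h1.trans h2
    rwa [div_le_iff₀ hd0, mul_comm (A : ℝ)] at h3
  set ρA : ℝ := ∏ j, ρ j with hρA
  have hρA0 : 0 < ρA := Finset.prod_pos fun j _ => hρ j
  set C : ℝ := (r : ℝ) ^ 2 * (2 * A) * (1 + 5 * r * (1 + d) / (d ^ 2 * ρA)) with hC
  set D : ℕ := ∑ i, ∑ j, (α i * β j - α j * β i).natAbs with hD
  obtain ⟨p, hpge, hp⟩ := Nat.exists_infinite_primes
    (⌈2 * (ρA * r * (2 * (m : ℝ) ^ 2 / A + 3 * m) + C) / (d * ρA)⌉₊ + m + D + 1)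
  have : Fact p.Prime := ⟨hp⟩
  have hp0 : 0 < p := hp.pos
  have hpR : (0 : ℝ) < p := by exact_mod_cast hp0
  have hpl : 2 * (ρA * r * (2 * (m : ℝ) ^ 2 / A + 3 * m) + C) ≤ d * ρA * p := by
    have h1 := Nat.le_ceil (2 * (ρA * r * (2 * (m : ℝ) ^ 2 / A + 3 * m) + C) / (d * ρA))
    have h2 : (⌈2 * (ρA * r * (2 * (m : ℝ) ^ 2 / A + 3 * m) + C) / (d * ρA)⌉₊ : ℝ) ≤ p :=
      Nat.cast_le.mpr (by omega)
    have h3 := h1.trans h2
    rwa [div_le_iff₀ (by positivity), mul_comm (p : ℝ)] at h3
  have hα0 : ∀ i, (α i : ZMod p) ≠ 0 := fun i =>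
    cast_ne_zero p _ (hα i).ne' (by have := hαm i; have := hα i; omega)
  have hdet0 : ∀ i j, i ≠ j → ((α i * β j - α j * β i : ℤ) : ZMod p) ≠ 0 := by
    intro i j hij
    refine cast_ne_zero p _ (sub_ne_zero.mpr (hdet i j hij)) ?_
    have h1 : (α i * β j - α j * β i).natAbs ≤ ∑ j, (α i * β j - α j * β i).natAbs :=
      Finset.single_le_sum (f := fun j => (α i * β j - α j * β i).natAbs)
        (fun _ _ => Nat.zero_le _) (Finset.mem_univ j)
    have h2 : ∑ j, (α i * β j - α j * β i).natAbs ≤ D :=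
      Finset.single_le_sum (f := fun i => ∑ j, (α i * β j - α j * β i).natAbs)
        (fun _ _ => Nat.zero_le _) (Finset.mem_univ i)
    omega
  let π : Fin r → ZMod p × ZMod p → ZMod p := fun i z => α i * z.1 + β i * z.2
  let toY : ℕ → Fin p := fun n => ⟨n % p, Nat.mod_lt _ hp0⟩
  let B : ZMod p → Fin p := fun x => toY (Bn p A x.val)
  let G : Finset (ZMod p) :=
    univ.filter fun x => x.val + m ≤ p ∧ ∀ s < m, Bn p A (x.val + s) = Bn p A x.val
  obtain ⟨γ, Z, hZ1, hZ2, hZ3⟩ := abstract_design ρ hρ hρ1 π B G (2 * A) p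
    (2 * (((p + m) / A + 1) * m) + m) d (by positivity) hpR hd0 (by simp)
    (by
      intro i a
      have : (univ.filter fun z => π i z = a).card = (univ : Finset (ZMod p)).card := by
        refine Finset.card_bij (fun z _ => z.2) (fun _ _ => Finset.mem_univ _) ?_ ?_
        · intro z hz z' hz' h
          have h1 := (Finset.mem_filter.mp hz).2
          have h2 := (Finset.mem_filter.mp hz').2
          simp only [π] at h1 h2
          refine Prod.ext (mul_left_cancel₀ (hα0 i) ?_) h
          rw [h] at h1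
          linear_combination h1 - h2
        · intro y _
          refine ⟨((a - β i * y) / α i, y), Finset.mem_filter.mpr ⟨Finset.mem_univ _, ?_⟩, rfl⟩
          have := hα0 i
          simp only [π]; field_simp; ring
      rw [this]; simp)
    (by
      intro i l hil z z' h1 h2
      simp only [π] at h1 h2
      have h3 := hdet0 i l hil
      push_cast at h3
      refine Prod.ext (mul_left_cancel₀ h3 ?_) (mul_left_cancel₀ h3 ?_)
      · linear_combination (β l : ZMod p) * h1 - (β i : ZMod p) * h2
      · linear_combination (α i : ZMod p) * h2 - (α l : ZMod p) * h1)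
    (by
      intro y
      have h1 : (univ.filter fun x => B x = y) = univ.filter fun x : ZMod p =>
          Bn p A x.val = y.val := by
        ext x
        simp only [B, toY, Finset.mem_filter, Finset.mem_univ, true_and, Fin.ext_iff,
          Nat.mod_eq_of_lt (Bn_lt p A x.val (ZMod.val_lt x))]
      rw [h1]
      exact_mod_cast card_fiber p A y.val hA0)
    (by
      have h1 := card_bad p A m hAm hA0
      have h2 : (univ.filter fun x => x ∉ G) = univ.filter fun x : ZMod p =>
          ¬ (x.val + m ≤ p ∧ ∀ s < m, Bn p A (x.val + s) = Bn p A x.val) := by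
        ext x; simp only [G, Finset.mem_filter, Finset.mem_univ, true_and]
      rw [h2]
      have h3 : (((p + m) / A : ℕ) : ℝ) ≤ ((p : ℝ) + m) / A := by
        have := Nat.cast_div_le (α := ℝ) (m := p + m) (n := A)
        simpa using this
      have h4 : (((univ.filter fun x : ZMod p =>
          ¬ (x.val + m ≤ p ∧ ∀ s < m, Bn p A (x.val + s) = Bn p A x.val)).card : ℕ) : ℝ)
          ≤ 2 * (((((p + m) / A : ℕ) : ℝ) + 1) * m) + m := by exact_mod_cast h1
      refine h4.trans ?_
      gcongr)
  simp only [Fintype.card_fin] at hZ3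
  have hT := numerics ρA r m A C d p _ Z.card hρA0 (Nat.cast_nonneg _) (Nat.cast_nonneg _) hAR
    hpR hAd le_rfl hpl hZ3
  have hT0 : 0 < Z.card := by
    have : (0 : ℝ) < Z.card := lt_of_lt_of_le (by have : 0 < 1 - d := by linarith
                                                  positivity) hT
    exact_mod_cast this
  let zz : Fin Z.card → ZMod p × ZMod p := fun t => (Z.equivFin.symm t).1
  have hzz : ∀ t, zz t ∈ Z := fun t => (Z.equivFin.symm t).2
  have hzi : Function.Injective zz := fun t t' h =>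
    Z.equivFin.symm.injective (Subtype.ext h)
  refine ⟨p, Z.card, fun t => (((zz t).1.val : ℤ), ((zz t).2.val : ℤ)),
    fun x => γ (toY (Bn p A x)), fun i t => (π i (zz t)).val, hp0, hT0, ?_, ?_, ?_, ?_, ?_⟩
  · intro i t
    have h1 := (Finset.mem_filter.mp (hZ1 _ (hzz t) i).2).2.1
    have h2 := hαm i
    simp only
    omega
  · intro i t
    rw [← ZMod.intCast_zmod_eq_zero_iff_dvd]
    simp [π]
  · intro i t s hs
    have h1 := (Finset.mem_filter.mp (hZ1 _ (hzz t) i).2).2.2 s (by have := hαm i; omega)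
    simp only [h1]
    exact (hZ1 _ (hzz t) i).1
  · intro x hx
    simp only [Bn_symm p A x hx]
  · intro i x
    have h1 : (univ.filter fun t => (π i (zz t)).val = x).card
        ≤ (Z.filter fun z => π i z = (x : ZMod p)).card := by
      refine Finset.card_le_card_of_injOn zz (fun t ht => ?_) hzi.injOn
      have h2 := (Finset.mem_filter.mp ht).2
      refine Finset.mem_filter.mpr ⟨hzz t, ?_⟩
      rw [← h2]; simp
    have h2 : ((univ.filter fun t => (π i (zz t)).val = x).card : ℝ)
        ≤ (Z.filter fun z => π i z = (x : ZMod p)).card := by exact_mod_cast h1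
    refine h2.trans ((hZ2 i x).trans ?_)
    have h3 := hρ i
    rw [le_div_iff₀ (by positivity)]
    have h4 : (1 + d) * (p * ρA / ρ i) * (ρ i * p) = (1 + δ) * ((1 - d) * ρA * p ^ 2) := by
      rw [← mul_assoc (1 + δ), ← mul_assoc (1 + δ), hd2]; field_simp
    rw [h4]
    gcongr

end Vale.Agent.P110
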