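import Vale.Agent.P110.Stmts

/-! # P110: from almost-ultraflat real polynomials to sign polynomials -/

namespace Vale.Agent.P110

open Finset

theorem signs_of (hA : ApproxStmt) (hR : RoundingStmt) (c : ℝ) (hc : 0 < c) :
    ∃ N₀ : ℕ, ∀ N ≥ N₀, ∃ ε : ℕ → ℝ, (∀ k, ε k = 1 ∨ ε k = -1) ∧
      ∀ θ : ℝ, |‖∑ k ∈ range N, (ε k : ℂ) * e (k * θ)‖ - √N| ≤ c * √N := by
  obtain ⟨C, hC, hR⟩ := hR
  set δ : ℝ := min (min (c / 4) (1 / 4)) ((c / (2 * C)) ^ 4 / 5) with hδ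
  have hδ0 : 0 < δ := by positivity
  have hδ1 : δ ≤ c / 4 := (min_le_left _ _).trans (min_le_left _ _)
  have hδ2 : δ ≤ 1 / 4 := (min_le_left _ _).trans (min_le_right _ _)
  have hδ3 : δ ≤ (c / (2 * C)) ^ 4 / 5 := min_le_right _ _
  obtain ⟨N₀, hN₀⟩ := hA δ hδ0
  refine ⟨max N₀ ⌈1 / δ⌉₊, fun N hN => ?_⟩
  obtain ⟨u, hu, hu2⟩ := hN₀ N (le_trans (le_max_left _ _) hN)
  have hN1 : 1 / δ ≤ N := (Nat.le_ceil _).trans (by exact_mod_cast le_trans (le_max_right _ _) hN)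
  have hN2 : 1 ≤ δ * N := by rwa [div_le_iff₀ hδ0, mul_comm] at hN1
  have hNpos : (0 : ℝ) < N := by
    by_contra h
    have : (N : ℝ) = 0 := le_antisymm (not_lt.mp h) (Nat.cast_nonneg N)
    rw [this] at hN2; linarith
  set x : ℕ → ℝ := fun k => u k / (1 + δ) with hx
  have hx1 : ∀ k, |x k| ≤ 1 := by
    intro k
    simp only [hx]
    rw [abs_div, abs_of_pos (by linarith : (0 : ℝ) < 1 + δ), div_le_one (by linarith)]
    exact hu k
  obtain ⟨ε, hε, hε2⟩ := hR N x hx1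
  have hs : 0 < √(N : ℝ) := Real.sqrt_pos.mpr hNpos
  have hxs : ∀ θ : ℝ, ‖∑ k ∈ range N, (x k : ℂ) * e (k * θ)‖
      = ‖∑ k ∈ range N, (u k : ℂ) * e (k * θ)‖ / (1 + δ) := by
    intro θ
    have : ∑ k ∈ range N, (x k : ℂ) * e (k * θ)
        = (∑ k ∈ range N, (u k : ℂ) * e (k * θ)) / ((1 + δ : ℝ) : ℂ) := by
      rw [Finset.sum_div]
      refine Finset.sum_congr rfl fun k _ => ?_
      simp only [hx]; push_cast; ring
    rw [this, norm_div, Complex.norm_real, Real.norm_eq_abs, abs_of_pos (by linarith)]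
  have hlo : ∀ θ : ℝ, (1 - 2 * δ) * √N ≤ ‖∑ k ∈ range N, (x k : ℂ) * e (k * θ)‖ := by
    intro θ
    rw [hxs, le_div_iff₀ (by linarith)]
    have := (abs_le.mp (hu2 θ)).1
    nlinarith [mul_pos hδ0 hs, mul_pos hδ0 (mul_pos hδ0 hs)]
  have hhi : ∀ θ : ℝ, ‖∑ k ∈ range N, (x k : ℂ) * e (k * θ)‖ ≤ √N := by
    intro θ
    rw [hxs, div_le_iff₀ (by linarith)]
    have := (abs_le.mp (hu2 θ)).2
    nlinarith
  have hpar := parseval (range N) (fun k : ℕ => (k : ℤ))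
    (fun a _ b _ h => by simpa using h) (fun k => (x k : ℂ)) 0
  have hsq : (1 - 2 * δ) ^ 2 * N ≤ ∑ k ∈ range N, x k ^ 2 := by
    have h1 : ∑ k ∈ range N, ‖(x k : ℂ)‖ ^ 2 = ∑ k ∈ range N, x k ^ 2 := by
      refine Finset.sum_congr rfl fun k _ => ?_
      rw [Complex.norm_real, Real.norm_eq_abs, sq_abs]
    rw [← h1, ← hpar]
    have h2 : ∫ _ in (0 : ℝ)..0 + 1, (1 - 2 * δ) ^ 2 * (N : ℝ) = (1 - 2 * δ) ^ 2 * N := by simp
    rw [← h2]
    apply intervalIntegral.integral_mono_on (by norm_num)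
    · exact intervalIntegrable_const
    · apply Continuous.intervalIntegrable; fun_prop
    · intro θ _
      have h3 := hlo θ
      have h4 : 0 ≤ (1 - 2 * δ) * √N := mul_nonneg (by linarith) hs.le
      have h5 := pow_le_pow_left₀ h4 h3 2
      rw [mul_pow, Real.sq_sqrt hNpos.le] at h5
      simpa using h5
  have hV : ∑ k ∈ range N, (1 - x k ^ 2) + 1 ≤ 5 * δ * N := by
    rw [Finset.sum_sub_distrib]
    simp only [Finset.sum_const, Finset.card_range, nsmul_eq_mul, mul_one]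
    nlinarith [mul_pos (mul_pos hδ0 hδ0) hNpos]
  have herr : C * √(√((∑ k ∈ range N, (1 - x k ^ 2) + 1) * N)) ≤ c / 2 * √N := by
    have h1 : (∑ k ∈ range N, (1 - x k ^ 2) + 1) * N ≤ (((c / (2 * C)) ^ 2 * N)) ^ 2 := by
      calc _ ≤ 5 * δ * N * N := mul_le_mul_of_nonneg_right hV hNpos.le
        _ ≤ (c / (2 * C)) ^ 4 * N * N := by gcongr; linarith
        _ = _ := by ring
    have h2 : √((∑ k ∈ range N, (1 - x k ^ 2) + 1) * N) ≤ (c / (2 * C)) ^ 2 * N :=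
      Real.sqrt_le_iff.mpr ⟨by positivity, h1⟩
    have h3 : √(√((∑ k ∈ range N, (1 - x k ^ 2) + 1) * N)) ≤ c / (2 * C) * √N := by
      refine Real.sqrt_le_iff.mpr ⟨by positivity, ?_⟩
      rw [mul_pow, Real.sq_sqrt hNpos.le]; exact h2
    calc _ ≤ C * (c / (2 * C) * √N) := by gcongr
      _ = _ := by field_simp
  refine ⟨ε, hε, fun θ => ?_⟩
  have hsplit : ∑ k ∈ range N, (ε k : ℂ) * e (k * θ)
      = ∑ k ∈ range N, (x k : ℂ) * e (k * θ)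
        + ∑ k ∈ range N, ((ε k - x k : ℝ) : ℂ) * e (k * θ) := by
    rw [← Finset.sum_add_distrib]
    refine Finset.sum_congr rfl fun k _ => ?_
    push_cast; ring
  have h6 := (hε2 θ).trans herr
  have h7 := abs_norm_sub_norm_le (∑ k ∈ range N, (ε k : ℂ) * e (k * θ))
    (∑ k ∈ range N, (x k : ℂ) * e (k * θ))
  have h8 : ∑ k ∈ range N, (ε k : ℂ) * e (k * θ) - ∑ k ∈ range N, (x k : ℂ) * e (k * θ)
      = ∑ k ∈ range N, ((ε k - x k : ℝ) : ℂ) * e (k * θ) := by rw [hsplit]; ring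
  rw [h8] at h7
  have h9 := abs_le.mp (h7.trans h6)
  have h10 := hlo θ
  have h11 := hhi θ
  rw [abs_le]
  constructor <;> nlinarith

/-- one polynomial of length `N` within relative error `c`. -/
def Good (N : ℕ) (c : ℝ) (ε : Fin N → ℤ) : Prop :=
  (∀ k, ε k = 1 ∨ ε k = -1) ∧
    ∀ z : ℂ, ‖z‖ = 1 → |‖∑ k, (ε k : ℂ) * z ^ (k : ℕ)‖ / √N - 1| ≤ c

theorem good_of (hA : ApproxStmt) (hR : RoundingStmt) (c : ℝ) (hc : 0 < c) :
    ∃ N₀ : ℕ, ∀ N ≥ N₀, ∃ ε : Fin N → ℤ, Good N c ε := by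
  obtain ⟨N₀, h⟩ := signs_of hA hR c hc
  refine ⟨max N₀ 1, fun N hN => ?_⟩
  obtain ⟨ε, hε, h2⟩ := h N (le_trans (le_max_left _ _) hN)
  have hN1 : 1 ≤ N := le_trans (le_max_right _ _) hN
  have hs : 0 < √(N : ℝ) := Real.sqrt_pos.mpr (by exact_mod_cast hN1)
  classical
  refine ⟨fun k => if ε k = 1 then 1 else -1, fun k => by dsimp only; split_ifs <;> simp, fun z hz => ?_⟩
  obtain ⟨θ, rfl⟩ := exists_e_eq hz
  have h3 : ∑ k : Fin N, (((if ε k = 1 then 1 else -1 : ℤ)) : ℂ) * e θ ^ (k : ℕ)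
      = ∑ k ∈ range N, (ε k : ℂ) * e (k * θ) := by
    rw [← Fin.sum_univ_eq_sum_range (fun k => (ε k : ℂ) * e (k * θ)) N]
    refine Finset.sum_congr rfl fun k _ => ?_
    rw [e_nat_mul]
    rcases hε k with h | h
    · simp [h]
    · have : ε k ≠ 1 := by rw [h]; norm_num
      simp [h]; norm_num
  rw [h3]
  have h4 := h2 θ
  have h5 : ‖∑ k ∈ range N, (ε k : ℂ) * e (k * θ)‖ / √N - 1
      = (‖∑ k ∈ range N, (ε k : ℂ) * e (k * θ)‖ - √N) / √N := by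
    rw [sub_div, div_self hs.ne']
  rw [h5, abs_div, abs_of_pos hs, div_le_iff₀ hs]
  exact h4

theorem ultraflat_of (hA : ApproxStmt) (hR : RoundingStmt) :
    ∃ ε : (N : ℕ) → Fin N → ℤ, (∀ N k, ε N k = 1 ∨ ε N k = -1) ∧
      ∀ c : ℝ, 0 < c → ∃ N₀ : ℕ, ∀ N ≥ N₀, ∀ z : ℂ, ‖z‖ = 1 →
        |‖∑ k, (ε N k : ℂ) * z ^ (k : ℕ)‖ / √N - 1| ≤ c := by
  classical
  let P : ℕ → ℕ → Prop := fun N j => ∃ ε : Fin N → ℤ, Good N (1 / ((j : ℝ) + 1)) ε
  have key : ∀ N : ℕ, ∃ ε : Fin N → ℤ, (∀ k, ε k = 1 ∨ ε k = -1) ∧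
      ∀ j ≤ N, P N j → Good N (1 / ((j : ℝ) + 1)) ε := by
    intro N
    by_cases h : ∃ j ≤ N, P N j
    · obtain ⟨j₀, hj₀, hP⟩ := h
      have h1 : P N (Nat.findGreatest (P N) N) := Nat.findGreatest_spec hj₀ hP
      obtain ⟨ε, hε⟩ := h1
      refine ⟨ε, hε.1, fun j hj hPj => ⟨hε.1, fun z hz => (hε.2 z hz).trans ?_⟩⟩
      have h2 : j ≤ Nat.findGreatest (P N) N := Nat.le_findGreatest hj hPj
      have h3 : (j : ℝ) ≤ (Nat.findGreatest (P N) N : ℕ) := by exact_mod_cast h2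
      apply one_div_le_one_div_of_le (by positivity); linarith
    · refine ⟨fun _ => 1, fun _ => Or.inl rfl, fun j hj hPj => absurd ⟨j, hj, hPj⟩ h⟩
  choose ε hε using key
  refine ⟨ε, fun N => (hε N).1, fun c hc => ?_⟩
  obtain ⟨j, hj⟩ := exists_nat_one_div_lt hc
  obtain ⟨N₀, hN₀⟩ := good_of hA hR (1 / ((j : ℝ) + 1)) (by positivity)
  refine ⟨max N₀ j, fun N hN z hz => ?_⟩
  have h1 := (hε N).2 j (le_trans (le_max_right _ _) hN) (hN₀ N (le_trans (le_max_left _ _) hN))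
  exact (h1.2 z hz).trans hj.le

end Vale.Agent.P110
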