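import Vale.Agent.P110.Stmts

/-! # P110: the windowed Fourier kernel -/

namespace Vale.Agent.P110

open Finset

namespace Kernel

/-- The window. -/
noncomputable def W (N m k : ℕ) : ℝ :=
  (∑ b₁ ∈ range m, ∑ b₂ ∈ range m, ∑ b₃ ∈ range m,
    if 3 * m ≤ k + (b₁ + b₂ + b₃) ∧ k + (b₁ + b₂ + b₃) < N then (1 : ℝ) else 0) / (m : ℝ) ^ 3

noncomputable def D1 (N m : ℕ) (t : ℝ) : ℂ := ∑ a ∈ Ico (3 * m) N, e (a * t)

noncomputable def D2 (m : ℕ) (t : ℝ) : ℂ := ∑ b ∈ range m, e (b * (-t))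

noncomputable def K (N m : ℕ) (t : ℝ) : ℂ := ∑ k ∈ range N, (W N m k : ℂ) * e (k * t)

lemma W_nonneg (N m k : ℕ) : 0 ≤ W N m k := by
  unfold W
  refine div_nonneg (sum_nonneg fun _ _ => sum_nonneg fun _ _ => sum_nonneg fun _ _ => ?_)
    (by positivity)
  split_ifs <;> norm_num

lemma W_le_one (N m k : ℕ) (hm : 0 < m) : W N m k ≤ 1 := by
  unfold W
  have hm' : (0 : ℝ) < m := by exact_mod_cast hm
  rw [div_le_one (by positivity)]
  calc _ ≤ ∑ _b₁ ∈ range m, ∑ _b₂ ∈ range m, ∑ _b₃ ∈ range m, (1 : ℝ) := by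
        refine sum_le_sum fun _ _ => sum_le_sum fun _ _ => sum_le_sum fun _ _ => ?_
        split_ifs <;> norm_num
    _ = (m : ℝ) ^ 3 := by simp; ring

lemma W_eq_one (N m k : ℕ) (hm : 0 < m) (h1 : 3 * m ≤ k) (h2 : k + 3 * m ≤ N) : W N m k = 1 := by
  unfold W
  have hm' : (0 : ℝ) < m := by exact_mod_cast hm
  rw [div_eq_one_iff_eq (by positivity)]
  calc _ = ∑ _b₁ ∈ range m, ∑ _b₂ ∈ range m, ∑ _b₃ ∈ range m, (1 : ℝ) := by
        refine sum_congr rfl fun _ h₁ => sum_congr rfl fun _ h₂ => sum_congr rfl fun _ h₃ => ?_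
        rw [mem_range] at h₁ h₂ h₃
        rw [if_pos (by omega)]
    _ = (m : ℝ) ^ 3 := by simp; ring

lemma inner (N m B : ℕ) (hB : B ≤ 3 * m) (t : ℝ) :
    ∑ k ∈ range N, (((if 3 * m ≤ k + B ∧ k + B < N then (1 : ℝ) else 0 : ℝ)) : ℂ) * e (k * t)
      = D1 N m t * e (B * (-t)) := by
  have h1 : ∀ k : ℕ, (((if 3 * m ≤ k + B ∧ k + B < N then (1 : ℝ) else 0 : ℝ)) : ℂ) * e (k * t)
      = if 3 * m ≤ k + B ∧ k + B < N then e (k * t) else 0 := by
    intro k; split_ifs <;> simp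
  simp_rw [h1]
  rw [← sum_filter, D1, sum_mul]
  refine sum_nbij' (fun k => k + B) (fun a => a - B) ?_ ?_ ?_ ?_ ?_
  · intro k hk
    simp only [mem_filter, mem_range] at hk
    simp only [mem_Ico]; omega
  · intro a ha
    simp only [mem_Ico] at ha
    simp only [mem_filter, mem_range]; omega
  · intro k _; simp
  · intro a ha
    simp only [mem_Ico] at ha
    show a - B + B = a
    omega
  · intro k _
    rw [← e_add]; congr 1; push_cast; ring

lemma K_eq (N m : ℕ) (t : ℝ) : K N m t = D1 N m t * D2 m t ^ 3 / (m : ℂ) ^ 3 := by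
  have h1 : D2 m t ^ 3 = ∑ b₁ ∈ range m, ∑ b₂ ∈ range m, ∑ b₃ ∈ range m,
      e (((b₁ + b₂ + b₃ : ℕ) : ℝ) * (-t)) := by
    have : D2 m t ^ 3 = D2 m t * (D2 m t * D2 m t) := by ring
    rw [this, D2, sum_mul]
    refine sum_congr rfl fun b₁ _ => ?_
    rw [sum_mul, mul_sum]
    refine sum_congr rfl fun b₂ _ => ?_
    rw [mul_sum, mul_sum]
    refine sum_congr rfl fun b₃ _ => ?_
    rw [← e_add, ← e_add]; congr 1; push_cast; ring
  have h2 : K N m t = (∑ b₁ ∈ range m, ∑ b₂ ∈ range m, ∑ b₃ ∈ range m, ∑ k ∈ range N,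
      (((if 3 * m ≤ k + (b₁ + b₂ + b₃) ∧ k + (b₁ + b₂ + b₃) < N then (1 : ℝ) else 0 : ℝ)) : ℂ)
        * e (k * t)) / (m : ℂ) ^ 3 := by
    rw [K]
    simp_rw [sum_comm (t := range N)]
    rw [sum_div]
    refine sum_congr rfl fun k _ => ?_
    rw [W]
    simp_rw [← sum_mul]
    push_cast
    ring
  rw [h2, h1, mul_sum]
  refine congrArg (· / (m : ℂ) ^ 3) (sum_congr rfl fun b₁ h₁ => ?_)
  rw [mul_sum]
  refine sum_congr rfl fun b₂ h₂ => ?_
  rw [mul_sum]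
  refine sum_congr rfl fun b₃ h₃ => ?_
  rw [mem_range] at h₁ h₂ h₃
  exact inner N m _ (by omega) t

@[fun_prop] lemma continuous_K (N m : ℕ) : Continuous (K N m) := by
  unfold K; fun_prop

@[fun_prop] lemma continuous_D1 (N m : ℕ) : Continuous (D1 N m) := by
  unfold D1; fun_prop

@[fun_prop] lemma continuous_D2 (m : ℕ) : Continuous (D2 m) := by
  unfold D2; fun_prop

lemma K_periodic (N m : ℕ) (t : ℝ) : K N m (t + 1) = K N m t := by
  unfold K
  refine sum_congr rfl fun k _ => ?_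
  rw [mul_add, mul_one, e_add_nat]

lemma norm_D2_le (m : ℕ) (t : ℝ) : ‖D2 m t‖ ≤ m := by
  unfold D2
  refine (norm_sum_le _ _).trans ?_
  simp

lemma norm_D2_mul_le (m : ℕ) (t : ℝ) (ht : |t| ≤ 1 / 2) : ‖D2 m t‖ * |t| ≤ 1 / 2 := by
  have := norm_geom_mul_le m (-t) (by rwa [abs_neg])
  rwa [abs_neg] at this

lemma integral_D1 (N m : ℕ) (a : ℝ) : ∫ t in a..a + 1, ‖D1 N m t‖ ^ 2 ≤ N := by
  have h := parseval (Ico (3 * m) N) (fun k : ℕ => (k : ℤ))
    (fun a _ b _ h => by simpa using h) (fun _ => (1 : ℂ)) a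
  simp only [one_mul, Int.cast_natCast, norm_one, one_pow, sum_const, Nat.card_Ico,
    nsmul_eq_mul, mul_one] at h
  unfold D1
  rw [h]
  exact_mod_cast Nat.sub_le _ _

lemma integral_D2 (m : ℕ) (a : ℝ) : ∫ t in a..a + 1, ‖D2 m t‖ ^ 2 = m := by
  have h := parseval (range m) (fun k : ℕ => -(k : ℤ))
    (fun a _ b _ h => by simpa using h) (fun _ => (1 : ℂ)) a
  simp only [one_mul, Int.cast_neg, Int.cast_natCast, norm_one, one_pow, sum_const, card_range,
    nsmul_eq_mul, mul_one] at h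
  unfold D2
  rw [← h]
  simp only [neg_mul, mul_neg]

lemma integral_K (N m l : ℕ) (hl : l < N) (a : ℝ) :
    ∫ t in a..a + 1, K N m t * e (-(l * t)) = (W N m l : ℂ) := by
  have h1 : ∀ t : ℝ, K N m t * e (-(l * t))
      = ∑ k ∈ range N, (W N m k : ℂ) * e ((((k : ℤ) - l : ℤ) : ℝ) * t) := by
    intro t
    rw [K, sum_mul]
    refine sum_congr rfl fun k _ => ?_
    rw [mul_assoc, ← e_add]; congr 2; push_cast; ring
  simp_rw [h1]
  rw [intervalIntegral.integral_finsetSum (fun j _ => by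
    apply Continuous.intervalIntegrable; fun_prop)]
  simp_rw [intervalIntegral.integral_const_mul, integral_e_int]
  rw [sum_eq_single l]
  · simp
  · intro k _ hk
    rw [if_neg (by omega), mul_zero]
  · intro h; exact absurd (mem_range.mpr hl) h

lemma conv (N m : ℕ) (ψ : ℝ → ℝ) (hc : Continuous ψ) (hp : ∀ x, e (ψ (x + 1)) = e (ψ x))
    (θ : ℝ) :
    ∑ k ∈ range N, ((W N m k : ℂ) * ∫ s in (0 : ℝ)..1, e (ψ s - k * s)) * e (k * θ)
      = ∫ t in (-1 / 2 : ℝ)..(-1 / 2) + 1, K N m t * e (ψ (θ - t)) := by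
  have h1 : ∑ k ∈ range N, ((W N m k : ℂ) * ∫ s in (0 : ℝ)..1, e (ψ s - k * s)) * e (k * θ)
      = ∫ s in (0 : ℝ)..1, K N m (θ - s) * e (ψ s) := by
    simp_rw [K, sum_mul]
    rw [intervalIntegral.integral_finsetSum (fun j _ => by
      apply Continuous.intervalIntegrable; fun_prop)]
    refine sum_congr rfl fun k _ => ?_
    rw [← intervalIntegral.integral_const_mul, ← intervalIntegral.integral_mul_const]
    refine intervalIntegral.integral_congr fun s _ => ?_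
    simp only [mul_assoc, ← e_add]
    congr 2; ring
  have h2 : ∫ s in (0 : ℝ)..1, K N m (θ - s) * e (ψ s)
      = ∫ t in θ - 1..θ - 0, K N m t * e (ψ (θ - t)) := by
    rw [← intervalIntegral.integral_comp_sub_left (fun t => K N m t * e (ψ (θ - t))) θ]
    simp
  have h3 : Function.Periodic (fun t => K N m t * e (ψ (θ - t))) 1 := by
    intro t
    simp only
    rw [K_periodic, ← hp (θ - (t + 1))]
    congr 3; ring
  rw [h1, h2, ← h3.intervalIntegral_add_eq (θ - 1) (-1 / 2)]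
  congr 1; ring

lemma taylor (ψ h : ℝ → ℝ) (L : ℝ) (hL : 0 ≤ L) (hd : ∀ x, HasDerivAt ψ (h x) x)
    (hl : ∀ x y, |h x - h y| ≤ L * |x - y|) (θ t : ℝ) :
    |ψ (θ - t) - ψ θ + h θ * t| ≤ L * t ^ 2 := by
  have h1 : ∀ s ∈ Set.uIcc 0 t, HasDerivWithinAt (fun s => ψ (θ - s) + h θ * s)
      (h θ - h (θ - s)) (Set.uIcc 0 t) s := by
    intro s _
    have h2 : HasDerivAt (fun s => θ - s) (-1) s := by
      simpa using (hasDerivAt_id s).const_sub θ
    have h3 := (hd (θ - s)).comp s h2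
    have h4 : HasDerivAt (fun s => h θ * s) (h θ) s := by
      simpa using (hasDerivAt_id s).const_mul (h θ)
    have h5 := h3.add h4
    refine (HasDerivAt.congr_deriv h5 (by ring)).hasDerivWithinAt
  have h2 : ∀ s ∈ Set.uIcc 0 t, ‖h θ - h (θ - s)‖ ≤ L * |t| := by
    intro s hs
    rw [Real.norm_eq_abs]
    refine (hl _ _).trans (mul_le_mul_of_nonneg_left ?_ hL)
    have := Set.abs_sub_left_of_mem_uIcc hs
    simpa using this
  have h3 := (convex_uIcc 0 t).norm_image_sub_le_of_norm_hasDerivWithin_le h1 h2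
    Set.left_mem_uIcc Set.right_mem_uIcc
  simp only [sub_zero, mul_zero, add_zero, Real.norm_eq_abs] at h3
  calc _ = |ψ (θ - t) + h θ * t - ψ θ| := by congr 1; ring
    _ ≤ L * |t| * |t| := h3
    _ = L * t ^ 2 := by rw [mul_assoc, abs_mul_abs_self]; ring

lemma pointwise (N m : ℕ) (hm : 0 < m) (L t : ℝ) (hL : 0 ≤ L) (ht : |t| ≤ 1 / 2) :
    ‖K N m t‖ * (L * t ^ 2 + |t|)
      ≤ (L / (8 * m ^ 3) + 1 / (4 * m ^ 2)) * (‖D1 N m t‖ ^ 2 + ‖D2 m t‖ ^ 2) := by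
  have hm' : (0 : ℝ) < m := by exact_mod_cast hm
  rw [K_eq, norm_div, norm_mul, norm_pow, norm_pow, Complex.norm_natCast]
  have h1 := norm_D2_le m t
  have h2 := norm_D2_mul_le m t ht
  set x := ‖D1 N m t‖
  set y := ‖D2 m t‖
  have hx : 0 ≤ x := norm_nonneg _
  have hy : 0 ≤ y := norm_nonneg _
  have ha : 0 ≤ |t| := abs_nonneg t
  have h3 : y ^ 2 * t ^ 2 ≤ 1 / 4 := by
    have : y ^ 2 * t ^ 2 = (y * |t|) ^ 2 := by rw [mul_pow, sq_abs]
    rw [this]
    have := mul_nonneg hy ha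
    nlinarith
  have h4 : y ^ 2 * |t| ≤ m / 2 := by
    have : y ^ 2 * |t| = y * (y * |t|) := by ring
    rw [this]
    have := mul_le_mul h1 h2 (mul_nonneg hy ha) hm'.le
    linarith
  have h5 : x * y ≤ (x ^ 2 + y ^ 2) / 2 := by nlinarith [sq_nonneg (x - y)]
  have h6 : y ^ 2 * (L * t ^ 2 + |t|) ≤ L / 4 + m / 2 := by
    have := mul_le_mul_of_nonneg_left h3 hL
    nlinarith
  calc x * y ^ 3 / (m : ℝ) ^ 3 * (L * t ^ 2 + |t|)
      = (x * y) * (y ^ 2 * (L * t ^ 2 + |t|)) / (m : ℝ) ^ 3 := by ring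
    _ ≤ ((x ^ 2 + y ^ 2) / 2) * (L / 4 + m / 2) / (m : ℝ) ^ 3 := by
        gcongr
    _ = _ := by field_simp; ring

lemma main (N m l : ℕ) (hm : 0 < m) (hmN : m ≤ N) (h1 : 3 * m ≤ l) (h2 : l + 3 * m ≤ N)
    (ψ h : ℝ → ℝ) (L : ℝ) (hL : 0 ≤ L) (hd : ∀ x, HasDerivAt ψ (h x) x)
    (hl : ∀ x y, |h x - h y| ≤ L * |x - y|) (hp : ∀ x, e (ψ (x + 1)) = e (ψ x)) (θ : ℝ)
    (hθ : |h θ - l| ≤ 1) :
    ‖∑ k ∈ range N, ((W N m k : ℂ) * ∫ s in (0 : ℝ)..1, e (ψ s - k * s)) * e (k * θ) - e (ψ θ)‖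
      ≤ 2 * Real.pi * ((L / (8 * m ^ 3) + 1 / (4 * m ^ 2)) * (2 * N)) := by
  have hm' : (0 : ℝ) < m := by exact_mod_cast hm
  have hc : Continuous ψ := continuous_iff_continuousAt.mpr fun x => (hd x).continuousAt
  have h3 : e (ψ θ) = ∫ t in (-1 / 2 : ℝ)..(-1 / 2) + 1, K N m t * e (ψ θ - l * t) := by
    have : ∀ t : ℝ, K N m t * e (ψ θ - l * t) = e (ψ θ) * (K N m t * e (-(l * t))) := by
      intro t; rw [sub_eq_add_neg, e_add]; ring
    simp_rw [this]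
    rw [intervalIntegral.integral_const_mul, integral_K N m l (by omega), W_eq_one N m l hm h1 h2]
    simp
  rw [conv N m ψ hc hp θ]
  conv_lhs => rw [h3]
  rw [← intervalIntegral.integral_sub (by apply Continuous.intervalIntegrable; fun_prop)
    (by apply Continuous.intervalIntegrable; fun_prop)]
  set A : ℝ := L / (8 * m ^ 3) + 1 / (4 * m ^ 2) with hA
  have hA0 : 0 ≤ A := by positivity
  have h4 : ∀ t ∈ Set.Icc (-1 / 2 : ℝ) (-1 / 2 + 1),
      ‖K N m t * e (ψ (θ - t)) - K N m t * e (ψ θ - l * t)‖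
        ≤ 2 * Real.pi * (A * (‖D1 N m t‖ ^ 2 + ‖D2 m t‖ ^ 2)) := by
    intro t ht
    have ht' : |t| ≤ 1 / 2 := abs_le.mpr ⟨by linarith [ht.1], by linarith [ht.2]⟩
    have h5 : |ψ (θ - t) - (ψ θ - l * t)| ≤ L * t ^ 2 + |t| := by
      have h6 := taylor ψ h L hL hd hl θ t
      have h7 : ψ (θ - t) - (ψ θ - l * t) = (ψ (θ - t) - ψ θ + h θ * t) - (h θ - l) * t := by ring
      rw [h7]
      refine (abs_sub _ _).trans (add_le_add h6 ?_)
      rw [abs_mul]
      exact mul_le_of_le_one_left (abs_nonneg t) hθ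
    rw [← mul_sub, norm_mul]
    have h8 := pointwise N m hm L t hL ht'
    calc _ ≤ ‖K N m t‖ * (2 * Real.pi * (L * t ^ 2 + |t|)) := by
          refine mul_le_mul_of_nonneg_left ((norm_e_sub_e_le _ _).trans ?_) (norm_nonneg _)
          gcongr
      _ = 2 * Real.pi * (‖K N m t‖ * (L * t ^ 2 + |t|)) := by ring
      _ ≤ _ := by gcongr
  refine (intervalIntegral.norm_integral_le_integral_norm (by norm_num)).trans ?_
  refine (intervalIntegral.integral_mono_on (by norm_num)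
    (by apply Continuous.intervalIntegrable; fun_prop)
    (by apply Continuous.intervalIntegrable; fun_prop) h4).trans ?_
  rw [intervalIntegral.integral_const_mul, intervalIntegral.integral_const_mul,
    intervalIntegral.integral_add (by apply Continuous.intervalIntegrable; fun_prop)
    (by apply Continuous.intervalIntegrable; fun_prop), integral_D2]
  have h9 := integral_D1 N m (-1 / 2)
  have h10 : (m : ℝ) ≤ N := by exact_mod_cast hmN
  gcongr
  linarith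

end Kernel

theorem kernel : KernelStmt := by
  intro c hc hc2
  refine ⟨2 * Real.pi * (128 / c ^ 3 + 32 / c ^ 2), ⌈8 / c⌉₊, by positivity, ?_⟩
  intro N hN ψ h L hL hd hb hl hp
  have hN1 : 8 / c ≤ N := (Nat.le_ceil _).trans (by exact_mod_cast hN)
  have hN2 : 8 ≤ c * N := by rwa [div_le_iff₀ hc, mul_comm] at hN1
  have hN0 : (0 : ℝ) < N := by
    by_contra h0
    have : (N : ℝ) = 0 := le_antisymm (not_lt.mp h0) (Nat.cast_nonneg N)
    rw [this] at hN2; linarith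
  set m : ℕ := ⌊c * N / 4⌋₊ with hm
  have hm1 : (m : ℝ) ≤ c * N / 4 := Nat.floor_le (by positivity)
  have hm2 : c * N / 4 < m + 1 := Nat.lt_floor_add_one _
  have hm3 : c * N / 8 ≤ m := by linarith
  have hm0 : (0 : ℝ) < m := by linarith
  have hm0' : 0 < m := by exact_mod_cast hm0
  refine ⟨Kernel.W N m, fun k => ⟨Kernel.W_nonneg N m k, Kernel.W_le_one N m k hm0'⟩, fun θ => ?_⟩
  have hθ := hb θ
  have hθ0 : 0 ≤ h θ := by linarith [hθ.1]
  have hl1 : (⌊h θ⌋₊ : ℝ) ≤ h θ := Nat.floor_le hθ0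
  have hl2 : h θ < ⌊h θ⌋₊ + 1 := Nat.lt_floor_add_one _
  have hmN : m ≤ N := by
    have : (m : ℝ) ≤ N := by nlinarith
    exact_mod_cast this
  have h1 : 3 * m ≤ ⌊h θ⌋₊ := by
    have : 3 * (m : ℝ) ≤ ⌊h θ⌋₊ := by linarith [hθ.1]
    exact_mod_cast this
  have h2 : ⌊h θ⌋₊ + 3 * m ≤ N := by
    have : (⌊h θ⌋₊ : ℝ) + 3 * (m : ℝ) ≤ N := by linarith [hθ.2]
    exact_mod_cast this
  refine (Kernel.main N m _ hm0' hmN h1 h2 ψ h L hL hd hl hp θ
    (abs_le.mpr ⟨by linarith, by linarith⟩)).trans ?_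
  rw [mul_assoc (2 * Real.pi)]
  refine mul_le_mul_of_nonneg_left ?_ (by positivity)
  calc (L / (8 * (m : ℝ) ^ 3) + 1 / (4 * (m : ℝ) ^ 2)) * (2 * N)
      ≤ (L / (8 * (c * N / 8) ^ 3) + 1 / (4 * (c * N / 8) ^ 2)) * (2 * N) := by gcongr
    _ = 128 / c ^ 3 * (L / (N : ℝ) ^ 2) + 32 / c ^ 2 * (1 / N) := by field_simp; ring
    _ ≤ _ := by
        have : 0 ≤ 128 / c ^ 3 * (1 / (N : ℝ)) := by positivity
        have : 0 ≤ 32 / c ^ 2 * (L / (N : ℝ) ^ 2) := by positivity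
        nlinarith

end Vale.Agent.P110
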