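import Vale.Agent.P110.Stmts

/-! # P110: layout of the frequency intervals -/

namespace Vale.Agent.P110

open Finset

namespace Layout

lemma cell_eq {p a al w a' al' w' : ℕ} (h : a + al ≤ p) (h' : a' + al' ≤ p)
    (h1 : a' + p * w' < a + p * w + al) (h2 : a + p * w < a' + p * w' + al') : w = w' := by
  rcases lt_trichotomy w w' with h3 | h3 | h3
  · have := Nat.mul_le_mul_left p (Nat.succ_le_of_lt h3)
    rw [Nat.mul_succ] at this
    omega
  · exact h3
  · have := Nat.mul_le_mul_left p (Nat.succ_le_of_lt h3)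
    rw [Nat.mul_succ] at this
    omega

lemma mirror_eq {p a al w a' al' w' M : ℕ} (h : a + al ≤ p) (h' : a' + al' ≤ p)
    (h1 : p * M < a + p * w + al + (a' + p * w' + al')) (h2 : a + p * w + (a' + p * w') < p * M) :
    M = w + w' + 1 := by
  rcases lt_trichotomy M (w + w' + 1) with h3 | h3 | h3
  · have := Nat.mul_le_mul_left p (Nat.lt_succ_iff.1 h3)
    rw [Nat.mul_add] at this
    omega
  · exact h3
  · have := Nat.mul_le_mul_left p (Nat.succ_le_of_lt h3)
    rw [Nat.mul_succ, Nat.mul_succ, Nat.mul_add] at this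
    omega

lemma crt {r : ℕ} (n : Fin r → ℕ) (hn : ∀ i, 0 < n i)
    (hc : ∀ i j, i ≠ j → Nat.Coprime (n i) (n j)) (v : Fin r → ℤ) :
    ∃ W : ℤ, ∀ i, (n i : ℤ) ∣ W - v i := by
  obtain ⟨k, hk⟩ := Nat.chineseRemainderOfFinset (fun i => (v i % n i).toNat) n univ
    (fun i _ => (hn i).ne') (fun i _ j _ hij => hc i j hij)
  refine ⟨k, fun i => ?_⟩
  have h1 := (Nat.modEq_iff_dvd.1 (hk i (mem_univ i)).symm)
  have h0 : (n i : ℤ) ≠ 0 := by exact_mod_cast (hn i).ne'
  rw [Int.toNat_of_nonneg (Int.emod_nonneg _ h0)] at h1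
  have h2 : (k : ℤ) - v i = (k - v i % n i) - n i * (v i / n i) := by
    linear_combination Int.emod_add_mul_ediv (v i) (n i)
  rw [h2]
  exact dvd_sub h1 (dvd_mul_right _ _)

end Layout

open Layout in
theorem layout_of (hD : DesignStmt) : LayoutStmt := by
  classical
  intro r α β ρ δ hα hαβ hρ hρ1 hδ
  obtain ⟨p, T, z, col, a, hp, hT, h1, h2, h3, h4, h5⟩ := hD r α β ρ δ hα hαβ hρ hρ1 hδ
  refine ⟨p, T, hp, hT, fun K n hn hcop hαn hK => ?_⟩
  obtain ⟨al, hal⟩ : ∃ al : Fin r → ℕ, ∀ i, (al i : ℤ) = α i :=
    ⟨fun i => (α i).toNat, fun i => Int.toNat_of_nonneg (hα i).le⟩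
  have hal0 : ∀ i, 0 < al i := fun i => by have := hα i; have := hal i; omega
  let b : Fin r → Fin (K * T) → ℕ := fun i t => a i t.modNat
  have hb1 : ∀ i t, b i t + al i ≤ p := fun i t => by
    have := h1 i t.modNat; have := hal i; simp only [b]; omega
  have hb3 : ∀ i t x, b i t ≤ x → x < b i t + al i → col x = i := by
    intro i t x hx1 hx2
    have := h3 i t.modNat (x - b i t) (by have := hal i; omega)
    rwa [show a i t.modNat + (x - b i t) = x by simp only [b] at hx1 ⊢; omega] at this
  let rk : Fin r → Fin (K * T) → ℕ := fun i t =>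
    (univ.filter (fun t' => t' < t ∧ b i t' = b i t)).card
  have hrk1 : ∀ i t, rk i t + 1 ≤ K * (univ.filter (fun t0 => a i t0 = b i t)).card := by
    intro i t
    have e1 : rk i t < (univ.filter (fun t' => b i t' = b i t)).card := by
      apply Finset.card_lt_card
      refine Finset.ssubset_iff_subset_ne.2 ⟨fun t' ht' => ?_, fun h => ?_⟩
      · exact mem_filter.2 ⟨mem_univ _, (mem_filter.1 ht').2.2⟩
      · have : t ∈ univ.filter (fun t' => t' < t ∧ b i t' = b i t) := by
          rw [h]; exact mem_filter.2 ⟨mem_univ _, rfl⟩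
        exact lt_irrefl _ (mem_filter.1 this).2.1
    have e2 : (univ.filter (fun t' => b i t' = b i t)).card ≤
        ((univ : Finset (Fin K)) ×ˢ univ.filter (fun t0 => a i t0 = b i t)).card := by
      apply Finset.card_le_card_of_injOn (fun t' => finProdFinEquiv.symm t')
      · intro t' ht'
        have := (mem_filter.1 (Finset.mem_coe.1 ht')).2
        exact Finset.mem_coe.2 (mem_product.2 ⟨mem_univ _, mem_filter.2 ⟨mem_univ _, this⟩⟩)
      · exact (Equiv.injective _).injOn
    rw [card_product, card_univ, Fintype.card_fin] at e2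
    omega
  have hrk2 : ∀ i t t', b i t = b i t' → t < t' → rk i t < rk i t' := by
    intro i t t' hb htt
    apply Finset.card_lt_card
    refine Finset.ssubset_iff_subset_ne.2 ⟨fun u hu => ?_, fun h => ?_⟩
    · have := (mem_filter.1 hu).2
      exact mem_filter.2 ⟨mem_univ _, this.1.trans htt, this.2.trans hb⟩
    · have : t ∈ univ.filter (fun u => u < t ∧ b i u = b i t) := by
        rw [h]; exact mem_filter.2 ⟨mem_univ _, htt, hb⟩
      exact lt_irrefl _ (mem_filter.1 this).2.1
  have hrk3 : ∀ i t, 2 * (al i * (rk i t + 1)) ≤ n i := by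
    intro i t
    have e1 : ((rk i t + 1 : ℕ) : ℝ) ≤ K * ((1 + δ) * T / (ρ i * p)) := by
      have e2 : ((rk i t + 1 : ℕ) : ℝ) ≤
          K * ((univ.filter (fun t0 => a i t0 = b i t)).card : ℝ) := by exact_mod_cast hrk1 i t
      exact e2.trans (mul_le_mul_of_nonneg_left (h5 i _) (by positivity))
    have e3 : ((al i : ℕ) : ℝ) = (α i : ℝ) := by exact_mod_cast hal i
    have e4 : ((2 * (al i * (rk i t + 1)) : ℕ) : ℝ) ≤ n i := by
      refine le_trans ?_ (hK i)
      rw [← e3, Nat.cast_mul, Nat.cast_mul, mul_assoc, mul_assoc]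
      gcongr
      simp
    exact_mod_cast e4
  let y : Fin r → Fin (K * T) → ℕ := fun i t => b i t % al i + al i * rk i t
  have hy1 : ∀ i t, 2 * (y i t + 1) ≤ n i := by
    intro i t
    have e1 := hrk3 i t
    have e2 := Nat.mod_lt (b i t) (hal0 i)
    simp only [y]
    rw [Nat.mul_succ] at e1
    omega
  choose c hc using h2
  have hW : ∀ t : Fin (K * T), ∃ W : ℤ, ∀ i, (n i : ℤ) ∣ (y i t + c i t.modNat) - α i * W := by
    intro t
    choose u v huv using hαn
    obtain ⟨W, hW⟩ := crt n hn hcop (fun i => u i * (y i t + c i t.modNat))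
    refine ⟨W, fun i => ?_⟩
    have e1 : (y i t + c i t.modNat : ℤ) - α i * W =
        n i * (v i * (y i t + c i t.modNat)) - α i * (W - u i * (y i t + c i t.modNat)) := by
      linear_combination (-(y i t + c i t.modNat : ℤ)) * huv i
    rw [e1]
    exact dvd_sub (dvd_mul_right _ _) ((hW i).mul_left _)
  choose W hW using hW
  refine ⟨fun t => ((z t.modNat).1 + p * W t, (z t.modNat).2), fun i t => b i t + p * y i t,
    fun i t => ?_, fun i t => ?_, fun i t ζ i' t' ζ' hne => ?_, fun i t ζ i' t' ζ' => ?_⟩
  · have e1 : ((b i t + p * y i t : ℕ) : ℤ) -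
        (α i * ((z t.modNat).1 + p * W t) + β i * (z t.modNat).2) =
        p * ((y i t + c i t.modNat) - α i * W t) := by
      have := hc i t.modNat
      simp only [b]
      push_cast
      linear_combination this
    rw [e1]
    exact mul_dvd_mul_left _ (hW t i)
  · have e1 := hb1 i t
    have e2 := hy1 i t
    have e3 : p * (y i t + 1) ≤ p * n i := Nat.mul_le_mul_left p (by omega)
    rw [← hal i]
    have e4 : b i t + p * y i t + al i ≤ p * n i := by rw [Nat.mul_succ] at e3; omega
    exact_mod_cast e4
  · by_contra hcon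
    rw [not_or, not_le, not_le, ← hal i, ← hal i'] at hcon
    have e1 : b i' t' + p * (y i' t' + n i' * ζ') < b i t + p * (y i t + n i * ζ) + al i := by
      have := hcon.1
      zify
      push_cast at this
      linarith
    have e2 : b i t + p * (y i t + n i * ζ) < b i' t' + p * (y i' t' + n i' * ζ') + al i' := by
      have := hcon.2
      zify
      push_cast at this
      linarith
    have e3 := cell_eq (hb1 i t) (hb1 i' t') e1 e2
    rw [e3] at e1 e2
    have e4 : i = i' := by
      have f1 := hal0 i
      have f2 := hal0 i'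
      exact (hb3 i t (max (b i t) (b i' t')) (le_max_left _ _) (by omega)).symm.trans
        (hb3 i' t' (max (b i t) (b i' t')) (le_max_right _ _) (by omega))
    subst e4
    have f1 := hy1 i t
    have f2 := hy1 i t'
    have e5 : y i t = y i t' := by
      have := congrArg (· % n i) e3
      simp only [Nat.add_mul_mod_self_left] at this
      rwa [Nat.mod_eq_of_lt (by omega), Nat.mod_eq_of_lt (by omega)] at this
    have e6 : ζ = ζ' := by
      rw [e5] at e3
      exact Nat.eq_of_mul_eq_mul_left (hn i) (Nat.add_left_cancel e3)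
    have e7 : b i t % al i = b i t' % al i := by
      have := congrArg (· % al i) e5
      simpa only [y, Nat.add_mul_mod_self_left, Nat.mod_mod] using this
    have e8 : rk i t = rk i t' := by
      simp only [y] at e5
      rw [e7] at e5
      exact Nat.eq_of_mul_eq_mul_left (hal0 i) (Nat.add_left_cancel e5)
    have e9 : b i t = b i t' := by
      have g1 : ((al i : ℕ) : ℤ) ∣ (b i t' : ℤ) - b i t := Nat.modEq_iff_dvd.1 e7
      have g2 : (b i t' : ℤ) - b i t = 0 := by
        apply Int.eq_zero_of_abs_lt_dvd g1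
        rw [abs_lt]; constructor <;> omega
      omega
    apply hne
    rcases lt_trichotomy t t' with h | h | h
    · exact absurd e8 (hrk2 i t t' e9 h).ne
    · rw [h, e6]
    · exact absurd e8 (hrk2 i t' t e9.symm h).ne'
  · by_contra hcon
    rw [not_or, not_le, not_le, ← hal i, ← hal i'] at hcon
    set M : ℕ := ∏ l, n l with hM
    have e1 : p * M < b i t + p * (y i t + n i * ζ) + al i +
        (b i' t' + p * (y i' t' + n i' * ζ') + al i') := by
      have := hcon.1
      zify
      push_cast at this
      linarith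
    have e2 : b i t + p * (y i t + n i * ζ) + (b i' t' + p * (y i' t' + n i' * ζ')) < p * M := by
      have := hcon.2
      zify
      push_cast at this
      linarith
    have e3 := mirror_eq (hb1 i t) (hb1 i' t') e1 e2
    rw [e3, Nat.mul_succ, Nat.mul_add p (y i t + n i * ζ)] at e1 e2
    have f1 := hal0 i
    have f2 := hal0 i'
    have f3 := hb1 i t
    have f4 := hb1 i' t'
    have e4 : i = i' := by
      set x := max (b i t) (p - b i' t' - al i') with hx
      exact (hb3 i t x (le_max_left _ _) (by omega)).symm.trans ((h4 x (by omega)).symm.trans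
        (hb3 i' t' (p - 1 - x) (by omega) (by omega)))
    subst e4
    have g1 : n i ∣ M := Finset.dvd_prod_of_mem n (mem_univ i)
    have g2 : n i ∣ y i t + y i t' + 1 := by
      have : M = n i * (ζ + ζ') + (y i t + y i t' + 1) := by rw [e3]; ring
      rw [this] at g1
      exact (Nat.dvd_add_right (dvd_mul_right _ _)).1 g1
    have g3 := Nat.le_of_dvd (Nat.succ_pos _) g2
    have g4 := hy1 i t
    have g5 := hy1 i t'
    omega

end Vale.Agent.P110
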