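import Vale.Agent.P110.Vdc

/-! # P110: Fresnel integral and stationary phase for a tapered chirp -/

namespace Vale.Agent.P110

open Set Filter Topology

namespace Line

lemma tail_le (b : ℂ) (hb : 0 ≤ b.re) (hb2 : 3 / 2 ≤ ‖b‖) (R R' : ℝ) (hR : 0 < R) (hRR : R ≤ R') :
    ‖∫ s in R..R', Complex.exp (-b * (s : ℂ) ^ 2)‖ ≤ 1 / R := by
  have hb0 : b ≠ 0 := by
    intro h; rw [h, norm_zero] at hb2; norm_num at hb2
  have hbn : 0 < ‖b‖ := by linarith
  have huIcc : uIcc R R' = Icc R R' := uIcc_of_le hRR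
  have hexp : ∀ s : ℝ, ‖Complex.exp (-b * (s : ℂ) ^ 2)‖ ≤ 1 := by
    intro s
    rw [norm_cexp_neg_mul_sq b s]
    exact Real.exp_le_one_iff.2 (by nlinarith [sq_nonneg s])
  have hq : ContinuousOn (fun s : ℝ => (s ^ 2)⁻¹) (Icc R R') :=
    (continuous_pow 2).continuousOn.inv₀ (fun x hx => pow_ne_zero 2 (by linarith [hx.1]))
  have hqi : IntervalIntegrable (fun s : ℝ => (s ^ 2)⁻¹) MeasureTheory.volume R R' :=
    ContinuousOn.intervalIntegrable (by rw [huIcc]; exact hq)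
  have hw : ContinuousOn (fun s : ℝ => Complex.exp (-b * (s : ℂ) ^ 2) *
      ((((s ^ 2)⁻¹ : ℝ) : ℂ) / (2 * b))) (Icc R R') := by
    refine ContinuousOn.mul (by fun_prop) (ContinuousOn.div_const ?_ _)
    exact Complex.continuous_ofReal.comp_continuousOn hq
  have hwi : IntervalIntegrable (fun s : ℝ => Complex.exp (-b * (s : ℂ) ^ 2) *
      ((((s ^ 2)⁻¹ : ℝ) : ℂ) / (2 * b))) MeasureTheory.volume R R' :=
    ContinuousOn.intervalIntegrable (by rw [huIcc]; exact hw)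
  have hei : IntervalIntegrable (fun s : ℝ => Complex.exp (-b * (s : ℂ) ^ 2))
      MeasureTheory.volume R R' := Continuous.intervalIntegrable (by fun_prop) _ _
  have hinv : ∀ x ∈ uIcc R R', HasDerivAt (fun y : ℝ => -y⁻¹) ((x ^ 2)⁻¹) x := by
    intro x hx
    rw [huIcc] at hx
    have := (hasDerivAt_inv (x := x) (by linarith [hx.1])).neg
    refine HasDerivAt.congr_deriv this ?_
    ring
  have hu : ∀ x ∈ uIcc R R', HasDerivAt
      (fun y : ℝ => Complex.exp (-b * (y : ℂ) ^ 2) * (((-y⁻¹ : ℝ) : ℂ) / (2 * b)))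
      (Complex.exp (-b * (x : ℂ) ^ 2) +
        Complex.exp (-b * (x : ℂ) ^ 2) * ((((x ^ 2)⁻¹ : ℝ) : ℂ) / (2 * b))) x := by
    intro x hx
    have h0 : HasDerivAt (fun y : ℝ => (y : ℂ)) 1 x := Complex.ofRealCLM.hasDerivAt
    have h1 := ((h0.pow 2).const_mul (-b)).cexp
    have h2 := ((hinv x hx).ofReal_comp).div_const (2 * b)
    have h3 := h1.mul h2
    refine HasDerivAt.congr_deriv h3 ?_
    rw [huIcc] at hx
    have h4 : (x : ℂ) ≠ 0 := by
      have : x ≠ 0 := by linarith [hx.1]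
      exact_mod_cast this
    simp only [Pi.pow_apply]
    push_cast
    field_simp
  have h1 := intervalIntegral.integral_eq_sub_of_hasDerivAt hu (hei.add hwi)
  rw [intervalIntegral.integral_add hei hwi] at h1
  have h2 := intervalIntegral.integral_eq_sub_of_hasDerivAt hinv hqi
  have hbd : ∀ x ∈ Icc R R',
      ‖Complex.exp (-b * (x : ℂ) ^ 2) * (((-x⁻¹ : ℝ) : ℂ) / (2 * b))‖ ≤ 1 / R / 3 := by
    intro x hx
    have hx0 : 0 < x := by linarith [hx.1]
    rw [norm_mul, norm_div, Complex.norm_real, Real.norm_eq_abs, abs_neg, abs_inv, abs_of_pos hx0,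
      norm_mul, Complex.norm_two, one_div]
    calc _ ≤ 1 * (R⁻¹ / 3) := by
          gcongr
          · exact hexp x
          · exact hx.1
          · linarith
      _ = _ := one_mul _
  have h3 : ‖∫ s in R..R', Complex.exp (-b * (s : ℂ) ^ 2) * ((((s ^ 2)⁻¹ : ℝ) : ℂ) / (2 * b))‖ ≤
      1 / R / 3 := by
    have h4 : ‖∫ s in R..R', Complex.exp (-b * (s : ℂ) ^ 2) * ((((s ^ 2)⁻¹ : ℝ) : ℂ) / (2 * b))‖ ≤
        ∫ s in R..R', (s ^ 2)⁻¹ / 3 := by
      refine intervalIntegral.norm_integral_le_of_norm_le hRR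
        (Filter.Eventually.of_forall fun x hx => ?_) (hqi.div_const _)
      rw [norm_mul, norm_div, Complex.norm_real, Real.norm_eq_abs, abs_of_nonneg (by positivity),
        norm_mul, Complex.norm_two]
      calc _ ≤ 1 * ((x ^ 2)⁻¹ / 3) := by
            gcongr
            · exact hexp x
            · linarith
        _ = _ := one_mul _
    refine h4.trans ?_
    rw [intervalIntegral.integral_div, h2, one_div]
    have : 0 < R'⁻¹ := inv_pos.2 (by linarith)
    linarith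
  have h5 : ∫ s in R..R', Complex.exp (-b * (s : ℂ) ^ 2) =
      (Complex.exp (-b * (R' : ℂ) ^ 2) * (((-R'⁻¹ : ℝ) : ℂ) / (2 * b)) -
        Complex.exp (-b * (R : ℂ) ^ 2) * (((-R⁻¹ : ℝ) : ℂ) / (2 * b))) -
      ∫ s in R..R', Complex.exp (-b * (s : ℂ) ^ 2) * ((((s ^ 2)⁻¹ : ℝ) : ℂ) / (2 * b)) := by
    rw [← h1]; ring
  rw [h5]
  refine (norm_sub_le _ _).trans ?_
  have h6 := norm_sub_le (Complex.exp (-b * (R' : ℂ) ^ 2) * (((-R'⁻¹ : ℝ) : ℂ) / (2 * b)))
    (Complex.exp (-b * (R : ℂ) ^ 2) * (((-R⁻¹ : ℝ) : ℂ) / (2 * b)))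
  have h7 := hbd R (left_mem_Icc.2 hRR)
  have h8 := hbd R' (right_mem_Icc.2 hRR)
  linarith

lemma damped_le (b : ℂ) (hb : 0 < b.re) (hb2 : 3 / 2 ≤ ‖b‖) (R : ℝ) (hR : 0 < R) :
    ‖(∫ s in (-R)..R, Complex.exp (-b * (s : ℂ) ^ 2)) - ((Real.pi : ℂ) / b) ^ (1 / 2 : ℂ)‖ ≤
      2 / R := by
  have hint := integrable_cexp_neg_mul_sq hb
  have hlim := MeasureTheory.intervalIntegral_tendsto_integral (l := atTop) (a := fun x : ℝ => -x)
    (b := fun x : ℝ => x) hint tendsto_neg_atTop_atBot tendsto_id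
  rw [integral_gaussian_complex hb] at hlim
  have hlim2 := (hlim.const_sub (∫ s in (-R)..R, Complex.exp (-b * (s : ℂ) ^ 2))).norm
  refine le_of_tendsto hlim2 ?_
  filter_upwards [eventually_ge_atTop R] with R' hR'
  have hei : ∀ u v : ℝ, IntervalIntegrable (fun s : ℝ => Complex.exp (-b * (s : ℂ) ^ 2))
      MeasureTheory.volume u v := fun u v => Continuous.intervalIntegrable (by fun_prop) _ _
  have h1 := tail_le b hb.le hb2 R R' hR hR'
  have h2 : ∫ s in (-R')..(-R), Complex.exp (-b * (s : ℂ) ^ 2) =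
      ∫ s in R..R', Complex.exp (-b * (s : ℂ) ^ 2) := by
    rw [← intervalIntegral.integral_comp_neg]
    simp
  rw [← intervalIntegral.integral_add_adjacent_intervals (hei (-R') (-R)) (hei (-R) R'),
    ← intervalIntegral.integral_add_adjacent_intervals (hei (-R) R) (hei R R'), h2]
  set X := ∫ s in R..R', Complex.exp (-b * (s : ℂ) ^ 2)
  set Y := ∫ s in (-R)..R, Complex.exp (-b * (s : ℂ) ^ 2)
  have : Y - (X + (Y + X)) = -(2 * X) := by ring
  rw [this, norm_neg, norm_mul, Complex.norm_two]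
  have h3 : 2 / R = 2 * (1 / R) := by ring
  rw [h3]
  gcongr

lemma fresnel : ∃ γ : ℂ, ‖γ‖ = 1 ∧ ∀ R : ℝ, 0 < R →
    ‖(∫ s in (-R)..R, e (s ^ 2 / 2)) - γ‖ ≤ 2 / R := by
  have hpi : (Real.pi : ℂ) ≠ 0 := by exact_mod_cast Real.pi_ne_zero
  refine ⟨Complex.I ^ (1 / 2 : ℂ), ?_, fun R hR => ?_⟩
  · have h1 := Complex.cpow_nat_inv_pow Complex.I (n := 2) (by norm_num)
    have h2 : (((2 : ℕ) : ℂ))⁻¹ = 1 / 2 := by norm_num
    rw [h2] at h1
    have h3 := congrArg norm h1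
    rw [norm_pow, Complex.norm_I] at h3
    exact (pow_eq_one_iff_of_nonneg (norm_nonneg _) (by norm_num)).1 h3
  · let b : ℝ → ℂ := fun ε => (ε : ℂ) - Real.pi * Complex.I
    have hb0 : (Real.pi : ℂ) / b 0 = Complex.I := by
      simp only [b]
      rw [div_eq_iff (by simp [Real.pi_ne_zero])]
      push_cast
      linear_combination (Real.pi : ℂ) * Complex.I_mul_I
    have hc1 : Continuous fun ε : ℝ => ∫ s in (-R)..R, Complex.exp (-b ε * (s : ℂ) ^ 2) := by
      apply intervalIntegral.continuous_parametric_intervalIntegral_of_continuous'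
      simp only [b]
      fun_prop
    have hc2 : ContinuousAt (fun ε : ℝ => ((Real.pi : ℂ) / b ε) ^ (1 / 2 : ℂ)) 0 := by
      refine ContinuousAt.cpow ?_ continuousAt_const ?_
      · refine continuousAt_const.div (by simp only [b]; fun_prop) ?_
        simp [b, Real.pi_ne_zero]
      · rw [hb0]; exact Or.inr (by simp)
    have hlim := ((hc1.continuousAt (x := 0)).sub hc2).norm.tendsto.mono_left
      (nhdsWithin_le_nhds (s := Ioi 0))
    have h1 : ‖(∫ s in (-R)..R, Complex.exp (-b 0 * (s : ℂ) ^ 2)) -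
        ((Real.pi : ℂ) / b 0) ^ (1 / 2 : ℂ)‖ ≤ 2 / R := by
      refine le_of_tendsto hlim ?_
      filter_upwards [self_mem_nhdsWithin] with ε hε
      refine damped_le (b ε) (by simpa [b] using hε) ?_ R hR
      have h2 := Complex.abs_im_le_norm (b ε)
      have h3 : (b ε).im = -Real.pi := by simp [b]
      rw [h3, abs_neg, abs_of_pos Real.pi_pos] at h2
      linarith [Real.pi_gt_three]
    rw [hb0] at h1
    convert h1 using 4 with s
    funext s
    unfold e
    congr 1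
    simp only [b]
    push_cast
    ring

lemma taylor_le {G G1 G2 : ℝ → ℝ} (hG : ∀ x, HasDerivAt G (G1 x) x)
    (hG1 : ∀ x, HasDerivAt G1 (G2 x) x) {σ r K : ℝ} (hr : 0 < r) (hK : 0 ≤ K)
    (hL : ∀ x ∈ Icc (σ - r) (σ + r), |G2 x - G2 σ| ≤ K * |x - σ|) :
    ∀ x ∈ Icc (σ - r) (σ + r),
      |G x - G σ - G1 σ * (x - σ) - G2 σ * (x - σ) ^ 2 / 2| ≤ K * r ^ 3 := by
  have hσ : σ ∈ Icc (σ - r) (σ + r) := ⟨by linarith, by linarith⟩
  have habs : ∀ x ∈ Icc (σ - r) (σ + r), |x - σ| ≤ r := fun x hx =>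
    abs_le.2 ⟨by linarith [hx.1], by linarith [hx.2]⟩
  have h1 : ∀ x ∈ Icc (σ - r) (σ + r), |G1 x - G1 σ - G2 σ * (x - σ)| ≤ K * r ^ 2 := by
    intro x hx
    have hd : ∀ y ∈ Icc (σ - r) (σ + r), HasDerivWithinAt (fun y => G1 y - G2 σ * (y - σ))
        (G2 y - G2 σ) (Icc (σ - r) (σ + r)) y := by
      intro y _
      have := (hG1 y).sub (((hasDerivAt_id y).sub_const σ).const_mul (G2 σ))
      exact (HasDerivAt.congr_deriv this (by simp)).hasDerivWithinAt
    have := (convex_Icc _ _).norm_image_sub_le_of_norm_hasDerivWithin_le (C := K * r) hd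
      (fun y hy => (hL y hy).trans (mul_le_mul_of_nonneg_left (habs y hy) hK)) hσ hx
    simp only [Real.norm_eq_abs, sub_self, mul_zero, sub_zero] at this
    have h2 : G1 x - G1 σ - G2 σ * (x - σ) = G1 x - G2 σ * (x - σ) - G1 σ := by ring
    rw [h2]
    refine this.trans ?_
    calc K * r * |x - σ| ≤ K * r * r := by gcongr; exact habs x hx
      _ = _ := by ring
  intro x hx
  have hd : ∀ y ∈ Icc (σ - r) (σ + r),
      HasDerivWithinAt (fun y => G y - G1 σ * (y - σ) - G2 σ * (y - σ) ^ 2 / 2)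
      (G1 y - G1 σ - G2 σ * (y - σ)) (Icc (σ - r) (σ + r)) y := by
    intro y _
    have h0 := (hasDerivAt_id y).sub_const σ
    have := ((hG y).sub (h0.const_mul (G1 σ))).sub (((h0.pow 2).const_mul (G2 σ)).div_const 2)
    exact (HasDerivAt.congr_deriv this (by simp; ring)).hasDerivWithinAt
  have := (convex_Icc _ _).norm_image_sub_le_of_norm_hasDerivWithin_le (C := K * r ^ 2) hd
    h1 hσ hx
  simp only [Real.norm_eq_abs, sub_self, mul_zero, sub_zero] at this
  have h2 : G x - G σ - G1 σ * (x - σ) - G2 σ * (x - σ) ^ 2 / 2 =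
      G x - G1 σ * (x - σ) - G2 σ * (x - σ) ^ 2 / 2 - (G σ - G2 σ * 0 ^ 2 / 2) := by ring
  rw [h2]
  refine this.trans ?_
  calc K * r ^ 2 * |x - σ| ≤ K * r ^ 2 * r := by gcongr; exact habs x hx
    _ = _ := by ring

lemma phase_deriv {G G1 : ℝ → ℝ} (hG : ∀ x, HasDerivAt G (G1 x) x) (lam κ x : ℝ) :
    HasDerivAt (fun x => lam * (G x - κ * x)) (lam * (G1 x - κ)) x := by
  have := ((hG x).sub ((hasDerivAt_id x).const_mul κ)).const_mul lam
  exact HasDerivAt.congr_deriv this (by simp)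

lemma phase_deriv2 {G1 G2 : ℝ → ℝ} (hG1 : ∀ x, HasDerivAt G1 (G2 x) x) (lam κ x : ℝ) :
    HasDerivAt (fun x => lam * (G1 x - κ)) (lam * G2 x) x :=
  ((hG1 x).sub_const κ).const_mul lam

lemma stationary {γ : ℂ} (hγ : ∀ R : ℝ, 0 < R → ‖(∫ s in (-R)..R, e (s ^ 2 / 2)) - γ‖ ≤ 2 / R)
    {G G1 G2 : ℝ → ℝ} (hG : ∀ x, HasDerivAt G (G1 x) x) (hG1 : ∀ x, HasDerivAt G1 (G2 x) x)
    (hG2 : Continuous G2) {a b mu K σ R T : ℝ} (hmu : 0 < mu) (hK : 0 ≤ K)
    (hge : ∀ x ∈ Icc a b, mu ≤ G2 x)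
    (hL : ∀ x ∈ Icc a b, ∀ y ∈ Icc a b, |G2 x - G2 y| ≤ K * |x - y|)
    (hR : 0 < R) (hT : 0 < T) (ha : a ≤ σ - R / T) (hb : σ + R / T ≤ b) :
    ‖(T : ℂ) * (∫ x in a..b, e (T ^ 2 * (G x - G1 σ * x))) -
      γ * ((1 / √(G2 σ) : ℝ) : ℂ) * e (T ^ 2 * (G σ - G1 σ * σ))‖ ≤
      4 / (mu * R) + 4 * Real.pi * K * R ^ 4 / T := by
  set r := R / T with hr
  have hr0 : 0 < r := by positivity
  have hGc : Continuous G := continuous_iff_continuousAt.2 fun x => (hG x).continuousAt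
  have hσ : σ ∈ Icc a b := ⟨by linarith, by linarith⟩
  have hg := hge σ hσ
  have hg0 : 0 < G2 σ := by linarith
  have hei : ∀ u v : ℝ, IntervalIntegrable (fun x => e (T ^ 2 * (G x - G1 σ * x)))
      MeasureTheory.volume u v := fun u v => Continuous.intervalIntegrable (by fun_prop) _ _
  have hlam : 0 < T ^ 2 * (mu * r) := by positivity
  have h1 : ‖∫ x in a..(σ - r), e (T ^ 2 * (G x - G1 σ * x))‖ ≤ 1 / (T ^ 2 * (mu * r)) := by
    have hsub : ∀ x ∈ Icc a (σ - r), x ∈ Icc a b := fun x hx => ⟨hx.1, by linarith [hx.2]⟩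
    refine vdc1 _ _ _ a (σ - r) _ ha hlam (phase_deriv hG _ _) (phase_deriv2 hG1 _ _)
      (by fun_prop) (fun x hx => mul_nonneg (by positivity) (hmu.le.trans (hge x (hsub x hx))))
      (Or.inr fun x hx => ?_)
    have h2 := Vdc.slope_le hG1 hge (hsub x hx) hσ (by linarith [hx.2])
    have h3 : mu * r ≤ mu * (σ - x) := by gcongr; linarith [hx.2]
    rw [← mul_neg]
    gcongr
    linarith
  have h2 : ‖∫ x in (σ + r)..b, e (T ^ 2 * (G x - G1 σ * x))‖ ≤ 1 / (T ^ 2 * (mu * r)) := by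
    have hsub : ∀ x ∈ Icc (σ + r) b, x ∈ Icc a b := fun x hx => ⟨by linarith [hx.1], hx.2⟩
    refine vdc1 _ _ _ (σ + r) b _ hb hlam (phase_deriv hG _ _) (phase_deriv2 hG1 _ _)
      (by fun_prop) (fun x hx => mul_nonneg (by positivity) (hmu.le.trans (hge x (hsub x hx))))
      (Or.inl fun x hx => ?_)
    have h2 := Vdc.slope_le hG1 hge hσ (hsub x hx) (by linarith [hx.1])
    have h3 : mu * r ≤ mu * (x - σ) := by gcongr; linarith [hx.1]
    gcongr
    linarith
  set c : ℝ := T * √(G2 σ) with hc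
  have hsq : 0 < √(G2 σ) := Real.sqrt_pos.2 hg0
  have hsq2 : √(G2 σ) ^ 2 = G2 σ := Real.sq_sqrt hg0.le
  have hc0 : 0 < c := by positivity
  set E : ℂ := e (T ^ 2 * (G σ - G1 σ * σ)) with hE
  have hsub : ∀ x ∈ Icc (σ - r) (σ + r), x ∈ Icc a b := fun x hx =>
    ⟨by linarith [hx.1], by linarith [hx.2]⟩
  have h3 : ‖(∫ x in (σ - r)..(σ + r), e (T ^ 2 * (G x - G1 σ * x))) -
      ∫ x in (σ - r)..(σ + r), E * e ((c * (x - σ)) ^ 2 / 2)‖ ≤
      2 * Real.pi * (T ^ 2 * (K * r ^ 3)) * (2 * r) := by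
    rw [← intervalIntegral.integral_sub (hei _ _)
      (Continuous.intervalIntegrable (by fun_prop) _ _)]
    have h4 := intervalIntegral.norm_integral_le_of_norm_le_const (a := σ - r) (b := σ + r)
      (f := fun x => e (T ^ 2 * (G x - G1 σ * x)) - E * e ((c * (x - σ)) ^ 2 / 2))
      (C := 2 * Real.pi * (T ^ 2 * (K * r ^ 3))) (fun x hx => by
        have hx' : x ∈ Icc (σ - r) (σ + r) := by
          rw [uIoc_of_le (by linarith)] at hx
          exact Ioc_subset_Icc_self hx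
        rw [hE, ← e_add]
        refine (norm_e_sub_e_le _ _).trans ?_
        have h5 := taylor_le hG hG1 hr0 hK (fun y hy => hL y (hsub y hy) σ hσ) x hx'
        have h6 : T ^ 2 * (G x - G1 σ * x) - (T ^ 2 * (G σ - G1 σ * σ) + (c * (x - σ)) ^ 2 / 2) =
            T ^ 2 * (G x - G σ - G1 σ * (x - σ) - G2 σ * (x - σ) ^ 2 / 2) := by
          rw [hc, mul_pow, mul_pow, hsq2]; ring
        rw [h6, abs_mul, abs_of_nonneg (sq_nonneg T)]
        gcongr)
    have h7 : |σ + r - (σ - r)| = 2 * r := by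
      rw [abs_of_nonneg (by linarith)]; ring
    rwa [h7] at h4
  have h4 : ∫ x in (σ - r)..(σ + r), E * e ((c * (x - σ)) ^ 2 / 2) =
      E * (((c⁻¹ : ℝ) : ℂ) * ∫ s in (-(c * r))..(c * r), e (s ^ 2 / 2)) := by
    rw [intervalIntegral.integral_const_mul,
      intervalIntegral.integral_comp_sub_right (fun y => e ((c * y) ^ 2 / 2)) σ,
      intervalIntegral.integral_comp_mul_left (fun s => e (s ^ 2 / 2)) hc0.ne', Complex.real_smul]
    congr 3 <;> ring
  have h5 := hγ (c * r) (by positivity)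
  rw [← intervalIntegral.integral_add_adjacent_intervals (hei a (σ - r)) (hei (σ - r) b),
    ← intervalIntegral.integral_add_adjacent_intervals (hei (σ - r) (σ + r)) (hei (σ + r) b)]
  rw [h4] at h3
  set X1 := ∫ x in a..(σ - r), e (T ^ 2 * (G x - G1 σ * x))
  set X2 := ∫ x in (σ - r)..(σ + r), e (T ^ 2 * (G x - G1 σ * x))
  set X3 := ∫ x in (σ + r)..b, e (T ^ 2 * (G x - G1 σ * x))
  set F := ∫ s in (-(c * r))..(c * r), e (s ^ 2 / 2)
  have hT' : (T : ℂ) ≠ 0 := by exact_mod_cast hT.ne'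
  have hs' : ((√(G2 σ) : ℝ) : ℂ) ≠ 0 := by exact_mod_cast hsq.ne'
  have h6 : (T : ℂ) * (X1 + (X2 + X3)) - γ * ((1 / √(G2 σ) : ℝ) : ℂ) * E =
      (T : ℂ) * X1 + (T : ℂ) * X3 + (T : ℂ) * (X2 - E * (((c⁻¹ : ℝ) : ℂ) * F)) +
        ((1 / √(G2 σ) : ℝ) : ℂ) * E * (F - γ) := by
    rw [hc]
    push_cast
    field_simp
    ring
  have hTn : ‖(T : ℂ)‖ = T := by rw [Complex.norm_real, Real.norm_eq_abs, abs_of_pos hT]
  have hEn : ‖E‖ = 1 := norm_e _
  rw [h6]
  have e1 : T * (1 / (T ^ 2 * (mu * r))) = 1 / (mu * R) := by rw [hr]; field_simp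
  have e2 : T * (2 * Real.pi * (T ^ 2 * (K * r ^ 3)) * (2 * r)) = 4 * Real.pi * K * R ^ 4 / T := by
    rw [hr]; field_simp; ring
  have e3 : 1 / √(G2 σ) * (2 / (c * r)) ≤ 2 / (mu * R) := by
    have : 1 / √(G2 σ) * (2 / (c * r)) = 2 / (√(G2 σ) ^ 2 * R) := by
      rw [hc, hr]; field_simp
    rw [this, hsq2]
    gcongr
  have b1 : ‖(T : ℂ) * X1‖ ≤ 1 / (mu * R) := by rw [norm_mul, hTn, ← e1]; gcongr
  have b3 : ‖(T : ℂ) * X3‖ ≤ 1 / (mu * R) := by rw [norm_mul, hTn, ← e1]; gcongr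
  have b2 : ‖(T : ℂ) * (X2 - E * (((c⁻¹ : ℝ) : ℂ) * F))‖ ≤ 4 * Real.pi * K * R ^ 4 / T := by
    rw [norm_mul, hTn, ← e2]; gcongr
  have b4 : ‖((1 / √(G2 σ) : ℝ) : ℂ) * E * (F - γ)‖ ≤ 2 / (mu * R) := by
    rw [norm_mul, norm_mul, hEn, mul_one, Complex.norm_real, Real.norm_eq_abs,
      abs_of_pos (by positivity)]
    refine le_trans ?_ e3
    gcongr
  have e4 : 4 / (mu * R) = 1 / (mu * R) + 1 / (mu * R) + 2 / (mu * R) := by ring
  refine (norm_add_le _ _).trans ?_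
  have b5 := norm_add₃_le (a := (T : ℂ) * X1) (b := (T : ℂ) * X3)
    (c := (T : ℂ) * (X2 - E * (((c⁻¹ : ℝ) : ℂ) * F)))
  linarith

end Line

open Line in
theorem line : LineStmt := by
  obtain ⟨γ, hγ1, hγ⟩ := fresnel
  refine ⟨γ, hγ1, fun s0 Γ δ η hs0 hΓ hδ hη => ?_⟩
  set B : ℝ := 128 / (Γ * η ^ 2) with hB
  have hB0 : 0 < B := by positivity
  obtain ⟨D, hD⟩ := exists_nat_ge (B / δ)
  have hBD : B / (2 * D + 1) ≤ δ := by
    rw [div_le_iff₀ hδ] at hD
    rw [div_le_iff₀ (by positivity)]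
    have : (0 : ℝ) ≤ D * δ := by positivity
    nlinarith
  let G2 : ℝ → ℝ := fun x => Γ * (1 + B * (x / s0) ^ (2 * D))
  let G1 : ℝ → ℝ := fun x => Γ * (x + B * s0 / (2 * D + 1) * (x / s0) ^ (2 * D + 1))
  let G : ℝ → ℝ := fun x => Γ * (x ^ 2 / 2 +
    B * s0 / (2 * D + 1) * (s0 / (2 * D + 2)) * (x / s0) ^ (2 * D + 2))
  have hG1 : ∀ x, HasDerivAt G1 (G2 x) x := by
    intro x
    have h0 := (((hasDerivAt_id x).div_const s0).pow (2 * D + 1)).const_mul (B * s0 / (2 * D + 1))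
    have := ((hasDerivAt_id x).add h0).const_mul Γ
    refine HasDerivAt.congr_deriv this ?_
    simp only [G2, id, Nat.add_sub_cancel]
    push_cast
    field_simp
  have hG : ∀ x, HasDerivAt G (G1 x) x := by
    intro x
    have h0 := (((hasDerivAt_id x).div_const s0).pow (2 * D + 2)).const_mul
      (B * s0 / (2 * D + 1) * (s0 / (2 * D + 2)))
    have := ((((hasDerivAt_id x).pow 2).div_const 2).add h0).const_mul Γ
    refine HasDerivAt.congr_deriv this ?_
    have e1 : 2 * D + 2 - 1 = 2 * D + 1 := by omega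
    simp only [G1, id, e1]
    push_cast
    field_simp
  have hG2 : Continuous G2 := by simp only [G2]; fun_prop
  have hGc : Continuous G := continuous_iff_continuousAt.2 fun x => (hG x).continuousAt
  have hG1c : Continuous G1 := continuous_iff_continuousAt.2 fun x => (hG1 x).continuousAt
  have hev : ∀ x : ℝ, 0 ≤ (x / s0) ^ (2 * D) := fun x => (even_two_mul D).pow_nonneg _
  have hge : ∀ x, Γ ≤ G2 x := by
    intro x
    have : 0 ≤ Γ * (B * (x / s0) ^ (2 * D)) := by have := hev x; positivity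
    simp only [G2]
    linarith
  obtain ⟨C, hC⟩ := ContDiffOn.exists_lipschitzOnWith (n := 1) (s := Icc (-s0) s0) (f := G1)
    (ContDiff.contDiffOn (by simp only [G1]; fun_prop)) one_ne_zero (convex_Icc _ _) isCompact_Icc
  obtain ⟨K, hK⟩ := ContDiffOn.exists_lipschitzOnWith (n := 1) (s := Icc (-s0) s0) (f := G2)
    (ContDiff.contDiffOn (by simp only [G2]; fun_prop)) one_ne_zero (convex_Icc _ _) isCompact_Icc
  have hbd : ∀ x ∈ Icc (-s0) s0, |G1 x| ≤ (1 + δ) * Γ * s0 := by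
    intro x hx
    have h1 : |x| ≤ s0 := abs_le.2 hx
    have h2 : |x / s0| ≤ 1 := by rw [abs_div, abs_of_pos hs0, div_le_one hs0]; exact h1
    have h3 : |(x / s0) ^ (2 * D + 1)| ≤ 1 := by rw [abs_pow]; exact pow_le_one₀ (abs_nonneg _) h2
    simp only [G1]
    rw [abs_mul, abs_of_pos hΓ]
    have h4 : |x + B * s0 / (2 * D + 1) * (x / s0) ^ (2 * D + 1)| ≤ s0 + δ * s0 := by
      refine (abs_add_le _ _).trans (add_le_add h1 ?_)
      rw [abs_mul, abs_of_nonneg (by positivity)]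
      calc _ ≤ B * s0 / (2 * D + 1) * 1 := by gcongr
        _ = B / (2 * D + 1) * s0 := by ring
        _ ≤ _ := by gcongr
    calc _ ≤ Γ * (s0 + δ * s0) := by gcongr
      _ = _ := by ring
  set t : ℝ := 1 / (4 * D + 4) with ht
  have ht0 : 0 < t := by positivity
  have ht1 : t ≤ 1 / 4 := by
    rw [ht]
    apply one_div_le_one_div_of_le (by norm_num)
    have : (0 : ℝ) ≤ D := by positivity
    linarith
  have hy : 1 / 2 ≤ (1 - t) ^ (2 * D) := by
    have h1 := one_add_mul_le_pow (a := -t) (by linarith) (2 * D)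
    have h2 : ((2 * D : ℕ) : ℝ) * t ≤ 1 / 2 := by
      rw [ht]; push_cast
      rw [mul_one_div, div_le_iff₀ (by positivity)]
      linarith
    rw [← sub_eq_add_neg] at h1
    linarith
  set ρ : ℝ := t * s0 / 2 with hρ
  have hρ0 : 0 < ρ := by positivity
  have hρ1 : 2 * ρ ≤ s0 := by rw [hρ]; nlinarith
  have hbig : ∀ x, s0 - 2 * ρ ≤ |x| → Γ * B / 2 ≤ G2 x := by
    intro x hx
    have h1 : 1 - t ≤ |x / s0| := by
      rw [abs_div, abs_of_pos hs0, le_div_iff₀ hs0]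
      rw [hρ] at hx; linarith
    have h2 : (1 - t) ^ (2 * D) ≤ (x / s0) ^ (2 * D) := by
      rw [← (even_two_mul D).pow_abs (x / s0)]
      exact pow_le_pow_left₀ (by linarith) h1 _
    have h3 : B * (1 / 2) ≤ B * (x / s0) ^ (2 * D) := by gcongr; linarith
    simp only [G2]
    nlinarith
  set R : ℝ := 8 / (Γ * η) with hR
  have hR0 : 0 < R := by positivity
  set T0 : ℝ := R / ρ + 8 * Real.pi * K * R ^ 4 / η + 2 / (η * Γ * ρ) with hT0
  have hT00 : 0 < T0 := by positivity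
  refine ⟨G, G1, C, T0 ^ 2, hG, hbd, fun x hx y hy => ?_, fun κ => ?_⟩
  · have := hC.dist_le_mul x hx y hy
    rwa [Real.dist_eq, Real.dist_eq] at this
  have hsq : ∀ lam ≥ T0 ^ 2, T0 ≤ √lam ∧ lam = √lam ^ 2 := fun lam hlam =>
    ⟨Real.le_sqrt_of_sq_le hlam, (Real.sq_sqrt (le_trans (by positivity) hlam)).symm⟩
  have p1 : 0 ≤ R / ρ := by positivity
  have p2 : 0 ≤ 8 * Real.pi * K * R ^ 4 / η := by positivity
  have p3 : 0 ≤ 2 / (η * Γ * ρ) := by positivity
  have hei : ∀ lam u v : ℝ, IntervalIntegrable (fun x => e (lam * (G x - κ * x)))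
      MeasureTheory.volume u v := fun lam u v => Continuous.intervalIntegrable (by fun_prop) _ _
  have hgeI : ∀ x ∈ Icc (-s0) s0, Γ ≤ G2 x := fun x _ => hge x
  have hfin : ∀ T : ℝ, T0 ≤ T → ∀ X Y : ℂ, ‖X‖ ≤ 1 / (T ^ 2 * (Γ * ρ)) →
      ‖Y‖ ≤ 4 / √(T ^ 2 * (Γ * B / 2)) → ‖(T : ℂ) * (X + Y)‖ ≤ η := by
    intro T hT X Y hX hY
    have hTp : 0 < T := by linarith
    have e1 : √(T ^ 2 * (Γ * B / 2)) = T * (8 / η) := by
      have : T ^ 2 * (Γ * B / 2) = (T * (8 / η)) ^ 2 := by rw [hB]; field_simp; norm_num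
      rw [this, Real.sqrt_sq (by positivity)]
    rw [e1] at hY
    rw [norm_mul, Complex.norm_real, Real.norm_eq_abs, abs_of_pos hTp]
    have e2 : T * (1 / (T ^ 2 * (Γ * ρ))) ≤ η / 2 := by
      have h1 : 2 / (η * Γ * ρ) ≤ T := by linarith
      rw [div_le_iff₀ (by positivity)] at h1
      have : T * (1 / (T ^ 2 * (Γ * ρ))) = 1 / (T * (Γ * ρ)) := by field_simp
      rw [this, div_le_iff₀ (by positivity)]
      nlinarith
    have e3 : T * (4 / (T * (8 / η))) = η / 2 := by field_simp; norm_num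
    calc T * ‖X + Y‖ ≤ T * (1 / (T ^ 2 * (Γ * ρ)) + 4 / (T * (8 / η))) := by
          gcongr
          exact (norm_add_le _ _).trans (add_le_add hX hY)
      _ ≤ η := by rw [mul_add, e3]; linarith
  rcases lt_or_ge (G1 (s0 - ρ)) κ with hκ | hκ
  · refine ⟨0, 0, le_rfl, zero_le_one, fun h => absurd rfl h, fun lam hlam => ?_⟩
    obtain ⟨hT, hl⟩ := hsq lam hlam
    set T := √lam
    have hTp : 0 < T := by linarith
    simp only [zero_div, Complex.ofReal_zero, mul_zero, zero_mul, sub_zero]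
    rw [hl, ← intervalIntegral.integral_add_adjacent_intervals (hei _ (-s0) (s0 - 2 * ρ))
      (hei _ (s0 - 2 * ρ) s0)]
    refine hfin T hT _ _ ?_ ?_
    · refine vdc1 _ _ _ _ _ _ (by linarith) (by positivity) (phase_deriv hG _ _)
        (phase_deriv2 hG1 _ _) (by fun_prop)
        (fun x _ => mul_nonneg (by positivity) (hΓ.le.trans (hge x))) (Or.inr fun x hx => ?_)
      have h2 := Vdc.slope_le hG1 hgeI (x := x) (y := s0 - ρ) ⟨hx.1, by linarith [hx.2]⟩
        ⟨by linarith, by linarith⟩ (by linarith [hx.2])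
      have h3 : Γ * ρ ≤ Γ * (s0 - ρ - x) := by gcongr; linarith [hx.2]
      rw [← mul_neg]
      gcongr
      linarith
    · refine vdc2 _ _ _ _ _ _ (by linarith) (by positivity) (phase_deriv hG _ _)
        (phase_deriv2 hG1 _ _) (by fun_prop) (fun x hx => ?_)
      have := hbig x (hx.1.trans (le_abs_self x))
      gcongr
  rcases lt_or_ge κ (G1 (-(s0 - ρ))) with hκ' | hκ'
  · refine ⟨0, 0, le_rfl, zero_le_one, fun h => absurd rfl h, fun lam hlam => ?_⟩
    obtain ⟨hT, hl⟩ := hsq lam hlam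
    set T := √lam
    have hTp : 0 < T := by linarith
    simp only [zero_div, Complex.ofReal_zero, mul_zero, zero_mul, sub_zero]
    rw [hl, ← intervalIntegral.integral_add_adjacent_intervals (hei _ (-s0) (-(s0 - 2 * ρ)))
      (hei _ (-(s0 - 2 * ρ)) s0), add_comm]
    refine hfin T hT _ _ ?_ ?_
    · refine vdc1 _ _ _ _ _ _ (by linarith) (by positivity) (phase_deriv hG _ _)
        (phase_deriv2 hG1 _ _) (by fun_prop)
        (fun x _ => mul_nonneg (by positivity) (hΓ.le.trans (hge x))) (Or.inl fun x hx => ?_)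
      have h2 := Vdc.slope_le hG1 hgeI (x := -(s0 - ρ)) (y := x) ⟨by linarith, by linarith⟩
        ⟨by linarith [hx.1], hx.2⟩ (by linarith [hx.1])
      have h3 : Γ * ρ ≤ Γ * (x - -(s0 - ρ)) := by gcongr; linarith [hx.1]
      gcongr
      linarith
    · refine vdc2 _ _ _ _ _ _ (by linarith) (by positivity) (phase_deriv hG _ _)
        (phase_deriv2 hG1 _ _) (by fun_prop) (fun x hx => ?_)
      have := hbig x (le_trans (by linarith [hx.2]) (neg_le_abs x))
      gcongr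
  obtain ⟨σ, hσ, hσκ⟩ := intermediate_value_Icc (a := -(s0 - ρ)) (b := s0 - ρ) (by linarith)
    hG1c.continuousOn ⟨hκ', hκ⟩
  have hg := hge σ
  have hg0 : 0 < G2 σ := by linarith
  refine ⟨√(Γ / G2 σ), G σ - κ * σ, Real.sqrt_nonneg _, ?_, fun _ => ?_, fun lam hlam => ?_⟩
  · exact Real.sqrt_le_one.2 ((div_le_one hg0).2 hg)
  · rw [← hσκ]
    exact hbd σ ⟨by linarith [hσ.1], by linarith [hσ.2]⟩
  · obtain ⟨hT, hl⟩ := hsq lam hlam
    set T := √lam
    have hTp : 0 < T := by linarith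
    have hRT : R / T ≤ ρ := by
      have h1 : R / ρ ≤ T := by linarith
      rw [div_le_iff₀ hρ0] at h1
      rw [div_le_iff₀ hTp]
      linarith
    have hst := stationary hγ hG hG1 hG2 (a := -s0) (b := s0) (mu := Γ) (K := K) (σ := σ) (R := R)
      (T := T) hΓ K.2 hgeI (fun x hx y hy => by
        have := hK.dist_le_mul x hx y hy
        rwa [Real.dist_eq, Real.dist_eq] at this) hR0 hTp (by linarith [hσ.1]) (by linarith [hσ.2])
    have e1 : √(Γ / G2 σ) / √Γ = 1 / √(G2 σ) := by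
      have : 0 < √Γ := Real.sqrt_pos.2 hΓ
      rw [Real.sqrt_div hΓ.le]
      field_simp
    rw [e1, hl, ← hσκ]
    refine hst.trans ?_
    have e2 : 4 / (Γ * R) = η / 2 := by rw [hR]; field_simp; norm_num
    have e3 : 4 * Real.pi * K * R ^ 4 / T ≤ η / 2 := by
      have h1 : 8 * Real.pi * K * R ^ 4 / η ≤ T := by linarith
      rw [div_le_iff₀ hη] at h1
      rw [div_le_iff₀ hTp]
      linarith
    linarith

end Vale.Agent.P110
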