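import Vale.Agent.P110.Stmts

namespace Vale.Agent.P110

open Finset

namespace Profile

lemma sum_neg_Icc (J : ℤ) (f : ℤ → ℂ) : ∑ j ∈ Icc (-J) J, f (-j) = ∑ j ∈ Icc (-J) J, f j :=
  Finset.sum_equiv (Equiv.neg ℤ) (fun j => by simp only [mem_Icc, Equiv.neg_apply]; omega)
    (fun j _ => rfl)

lemma approx (h : ℝ → ℝ) (hh : Continuous h) {κ : ℝ} (hκ : 0 < κ) :
    ∃ (J : ℤ) (s : ℤ → ℂ), 1 ≤ J ∧ (∀ j, s (-j) = (starRingEnd ℂ) (s j)) ∧
      ∀ x : ℝ, ‖∑ j ∈ Icc (-J) J, s j * e (j * x) - (h (Real.cos (2 * Real.pi * x)) : ℂ)‖ ≤ κ := by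
  have hf : ∀ (n : ℤ) (x : ℝ), fourier n (x : AddCircle (1 : ℝ)) = e (n * x) := by
    intro n x
    rw [fourier_coe_apply]
    unfold e
    congr 1
    push_cast
    ring
  set G : C(AddCircle (1 : ℝ), ℂ) :=
    ⟨fun z => (h (fourier 1 z).re : ℂ), by fun_prop⟩ with hG
  have hmem : G ∈ (Submodule.span ℂ (Set.range (@fourier 1))).topologicalClosure := by
    rw [span_fourier_closure_eq_top]; trivial
  obtain ⟨g, hg, hdist⟩ := Metric.mem_closure_iff.1 hmem κ hκ
  obtain ⟨c, rfl⟩ := Finsupp.mem_span_range_iff_exists_finsupp.1 hg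
  set J : ℤ := (c.support.sup Int.natAbs : ℕ) + 1 with hJ
  have hsub : c.support ⊆ Icc (-J) J := by
    intro j hj
    have : j.natAbs ≤ c.support.sup Int.natAbs := le_sup (f := Int.natAbs) hj
    rw [mem_Icc]
    omega
  have hx : ∀ x : ℝ, ‖∑ j ∈ Icc (-J) J, c j * e (j * x) -
      (h (Real.cos (2 * Real.pi * x)) : ℂ)‖ ≤ κ := by
    intro x
    have h1 := (ContinuousMap.dist_apply_le_dist (f := G)
      (g := c.sum fun i a => a • fourier i) (x : AddCircle (1 : ℝ))).trans hdist.le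
    rw [dist_comm, dist_eq_norm, Finsupp.sum_of_support_subset c hsub
      (fun i (a : ℂ) => a • (fourier i : C(AddCircle (1 : ℝ), ℂ))) (fun i _ => by ext z; simp)] at h1
    simp only [hG, ContinuousMap.coe_mk, ContinuousMap.coe_sum, Finset.sum_apply,
      ContinuousMap.coe_smul, Pi.smul_apply, smul_eq_mul, hf, e_re, Int.cast_one, one_mul] at h1
    exact h1
  refine ⟨J, fun j => (c j + (starRingEnd ℂ) (c (-j))) / 2, by omega, fun j => ?_, fun x => ?_⟩
  · simp [add_comm, map_ofNat]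
  · have h1 : ∑ j ∈ Icc (-J) J, (c j + (starRingEnd ℂ) (c (-j))) / 2 * e (j * x) =
        (∑ j ∈ Icc (-J) J, c j * e (j * x) +
          (starRingEnd ℂ) (∑ j ∈ Icc (-J) J, c j * e (j * x))) / 2 := by
      rw [map_sum, ← sum_neg_Icc J (fun j => (starRingEnd ℂ) (c j * e (j * x))),
        ← sum_add_distrib, sum_div]
      refine sum_congr rfl fun j _ => ?_
      rw [map_mul, ← e_neg]
      push_cast
      rw [show -(-(j : ℝ) * x) = j * x by ring]
      ring
    rw [h1]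
    have h2 := hx x
    generalize ∑ j ∈ Icc (-J) J, c j * e (j * x) = z at *
    generalize h (Real.cos (2 * Real.pi * x)) = y at *
    have h3 : (z + (starRingEnd ℂ) z) / 2 - y = ((z - y).re : ℂ) := by
      rw [Complex.add_conj]; simp
    rw [h3, Complex.norm_real, Real.norm_eq_abs]
    exact (Complex.abs_re_le_norm _).trans h2

/-- Clipping to `[-1, 1]`. -/
noncomputable def cl (t : ℝ) : ℝ := max (-1) (min 1 t)

lemma cl_cont : Continuous cl := by unfold cl; fun_prop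

lemma cl_cases (t : ℝ) : (t ≤ -1 ∧ cl t = -1) ∨ (-1 ≤ t ∧ t ≤ 1 ∧ cl t = t) ∨ (1 ≤ t ∧ cl t = 1) := by
  unfold cl
  rcases le_total t (-1) with h | h
  · left; exact ⟨h, max_eq_left ((min_le_right _ _).trans h)⟩
  rcases le_total t 1 with h' | h'
  · right; left; exact ⟨h, h', by rw [min_eq_right h', max_eq_right h]⟩
  · right; right; exact ⟨h', by rw [min_eq_left h', max_eq_right (by norm_num)]⟩

lemma cl_abs (t : ℝ) : |cl t| ≤ 1 := by
  rw [abs_le]
  rcases cl_cases t with h | h | h <;> constructor <;> linarith [h.1, h.2]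

lemma cos_lower {x a : ℝ} (hx : x ∈ Set.Icc (0 : ℝ) 1) (h : |Real.cos (2 * Real.pi * x)| < a) :
    x ∈ Set.Icc (1 / 4 - a / 4) (1 / 4 + a / 4) ∨ x ∈ Set.Icc (3 / 4 - a / 4) (3 / 4 + a / 4) := by
  have key : ∀ t : ℝ, |t| ≤ 1 / 4 → 4 * |t| ≤ |Real.sin (2 * Real.pi * t)| := by
    intro t ht
    have hpi := Real.pi_pos
    have e1 : |2 * Real.pi * t| = 2 * Real.pi * |t| := by
      rw [abs_mul, abs_of_pos (by positivity)]
    have := Real.mul_abs_le_abs_sin (x := 2 * Real.pi * t) (by rw [e1]; nlinarith)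
    rw [e1] at this
    refine le_trans (le_of_eq ?_) this
    field_simp
    ring
  rcases le_total x (1 / 2) with h2 | h2
  · left
    have := key (x - 1 / 4) (abs_le.2 ⟨by linarith [hx.1], by linarith⟩)
    rw [show 2 * Real.pi * (x - 1 / 4) = 2 * Real.pi * x - Real.pi / 2 by ring,
      Real.sin_sub_pi_div_two, abs_neg] at this
    have h3 := abs_lt.1 (show |x - 1 / 4| < a / 4 by linarith)
    constructor <;> linarith [h3.1, h3.2]
  · right
    have := key (x - 3 / 4) (abs_le.2 ⟨by linarith, by linarith [hx.2]⟩)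
    rw [show 2 * Real.pi * (x - 3 / 4) = (2 * Real.pi * x + Real.pi / 2) - 2 * Real.pi by ring,
      Real.sin_sub_two_pi, Real.sin_add_pi_div_two] at this
    have h3 := abs_lt.1 (show |x - 3 / 4| < a / 4 by linarith)
    constructor <;> linarith [h3.1, h3.2]

/-- Indicator of an interval. -/
noncomputable def bump (p q x : ℝ) : ℝ := (Set.Icc p q).indicator (fun _ => (1 : ℝ)) x

lemma bump_integrable (p q : ℝ) : MeasureTheory.Integrable (bump p q) :=
  (MeasureTheory.integrable_indicator_iff measurableSet_Icc).2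
    (MeasureTheory.integrableOn_const (by simp))

lemma bump_nonneg (p q x : ℝ) : 0 ≤ bump p q x := Set.indicator_nonneg (fun _ _ => zero_le_one) _

lemma bump_one {p q x : ℝ} (h : x ∈ Set.Icc p q) : bump p q x = 1 := Set.indicator_of_mem h _

lemma bump_integral {p q : ℝ} (h : p ≤ q) : ∫ x in (0 : ℝ)..1, bump p q x ≤ q - p := by
  rw [intervalIntegral.integral_of_le zero_le_one]
  refine (MeasureTheory.setIntegral_le_integral (bump_integrable p q)
    (Filter.Eventually.of_forall (bump_nonneg p q))).trans (le_of_eq ?_)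
  unfold bump
  rw [MeasureTheory.integral_indicator measurableSet_Icc]
  simp [h]

lemma oneDim {η : ℝ} (h0 : 0 < η) (h1 : η ≤ 1 / 4) :
    ∃ (J : ℤ) (s : ℤ → ℂ), 1 ≤ J ∧ (∀ j, s (-j) = (starRingEnd ℂ) (s j)) ∧
      (∀ x : ℝ, ‖∑ j ∈ Icc (-J) J, s j * e (j * x)‖ ≤ 1) ∧
      (∀ x : ℝ, ‖∑ j ∈ Icc (-J) J, s j * e (j * x) - (Real.cos (2 * Real.pi * x) : ℂ)‖ ≤ 1 - η) ∧
      1 - 13 * η ^ 2 ≤ ∑ j ∈ Icc (-J) J, ‖s j‖ ^ 2 := by
  have hκ : 0 < η ^ 2 := by positivity
  set h : ℝ → ℝ := fun y => cl (y + (1 - 2 * η) * cl (y / η ^ 2)) with hh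
  have hcont : Continuous h := by
    have := cl_cont
    simp only [hh]
    fun_prop
  obtain ⟨J, s, hJ, hsym, hs⟩ := approx h hcont hκ
  have hsum : ∀ x : ℝ, ∑ j ∈ Icc (-J) J, s j / ((1 + η ^ 2 : ℝ) : ℂ) * e (j * x) =
      (∑ j ∈ Icc (-J) J, s j * e (j * x)) / ((1 + η ^ 2 : ℝ) : ℂ) := by
    intro x
    rw [sum_div]
    refine sum_congr rfl fun j _ => by ring
  have hb : ∀ x : ℝ, ‖∑ j ∈ Icc (-J) J, s j / ((1 + η ^ 2 : ℝ) : ℂ) * e (j * x)‖ ≤ 1 := by
    intro x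
    rw [hsum, norm_div, Complex.norm_real, Real.norm_eq_abs, abs_of_pos (by positivity),
      div_le_one (by positivity)]
    have a1 := norm_le_insert' (∑ j ∈ Icc (-J) J, s j * e (j * x))
      (h (Real.cos (2 * Real.pi * x)) : ℂ)
    have a2 : ‖(h (Real.cos (2 * Real.pi * x)) : ℂ)‖ ≤ 1 := by
      rw [Complex.norm_real, Real.norm_eq_abs]; exact cl_abs _
    linarith [hs x]
  have hc : ∀ x : ℝ, ‖∑ j ∈ Icc (-J) J, s j / ((1 + η ^ 2 : ℝ) : ℂ) * e (j * x) -
      (h (Real.cos (2 * Real.pi * x)) : ℂ)‖ ≤ 2 * η ^ 2 := by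
    intro x
    have a1 := hb x
    have a2 := hs x
    rw [hsum] at a1 ⊢
    generalize ∑ j ∈ Icc (-J) J, s j * e (j * x) = z at *
    generalize (h (Real.cos (2 * Real.pi * x)) : ℂ) = y at *
    have hne : ((1 + η ^ 2 : ℝ) : ℂ) ≠ 0 := Complex.ofReal_ne_zero.2 (by positivity)
    have a3 : z / ((1 + η ^ 2 : ℝ) : ℂ) - y =
        (z - y) - ((η ^ 2 : ℝ) : ℂ) * (z / ((1 + η ^ 2 : ℝ) : ℂ)) := by
      field_simp
      push_cast
      ring
    rw [a3]
    refine (norm_sub_le _ _).trans ?_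
    rw [norm_mul, Complex.norm_real, Real.norm_eq_abs, abs_of_pos hκ]
    nlinarith
  refine ⟨J, fun j => s j / ((1 + η ^ 2 : ℝ) : ℂ), hJ, fun j => ?_, hb, fun x => ?_, ?_⟩
  · simp only [hsym, map_div₀, Complex.conj_ofReal]
  · have a1 := hc x
    have a2 : |h (Real.cos (2 * Real.pi * x)) - Real.cos (2 * Real.pi * x)| ≤ 1 - 2 * η := by
      have b1 := Real.neg_one_le_cos (2 * Real.pi * x)
      have b2 := Real.cos_le_one (2 * Real.pi * x)
      generalize Real.cos (2 * Real.pi * x) = y at *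
      have b3 := abs_le.1 (cl_abs (y / η ^ 2))
      simp only [hh]
      generalize cl (y / η ^ 2) = w at *
      have b4 : (1 - 2 * η) * w ≤ 1 - 2 * η := by nlinarith
      have b5 : -(1 - 2 * η) ≤ (1 - 2 * η) * w := by nlinarith
      rw [abs_le]
      rcases cl_cases (y + (1 - 2 * η) * w) with g | g | g <;> constructor <;>
        linarith [g.1, g.2]
    have a3 := norm_sub_le_norm_sub_add_norm_sub
      (∑ j ∈ Icc (-J) J, s j / ((1 + η ^ 2 : ℝ) : ℂ) * e (j * x))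
      (h (Real.cos (2 * Real.pi * x)) : ℂ) (Real.cos (2 * Real.pi * x) : ℂ)
    rw [← Complex.ofReal_sub, Complex.norm_real, Real.norm_eq_abs] at a3
    nlinarith
  · have hp := parseval (Icc (-J) J) id (Set.injOn_id _) (fun j => s j / ((1 + η ^ 2 : ℝ) : ℂ)) 0
    simp only [id, zero_add] at hp
    rw [← hp]
    have hpt : ∀ x ∈ Set.Icc (0 : ℝ) 1,
        (1 - 4 * η ^ 2) - (4 * η * (bump (1 / 4 - 2 * η / 4) (1 / 4 + 2 * η / 4) x +
          bump (3 / 4 - 2 * η / 4) (3 / 4 + 2 * η / 4) x) +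
          (bump (1 / 4 - η ^ 2 / 4) (1 / 4 + η ^ 2 / 4) x +
          bump (3 / 4 - η ^ 2 / 4) (3 / 4 + η ^ 2 / 4) x)) ≤
        ‖∑ j ∈ Icc (-J) J, s j / ((1 + η ^ 2 : ℝ) : ℂ) * e (j * x)‖ ^ 2 := by
      intro x hx
      have a1 := hc x
      have a2 := hb x
      have a3 := abs_norm_sub_norm_le (∑ j ∈ Icc (-J) J, s j / ((1 + η ^ 2 : ℝ) : ℂ) * e (j * x))
        (h (Real.cos (2 * Real.pi * x)) : ℂ)
      rw [Complex.norm_real, Real.norm_eq_abs] at a3
      have a4 : |h (Real.cos (2 * Real.pi * x))| ≤ 1 := cl_abs _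
      have a5 : h (Real.cos (2 * Real.pi * x)) ^ 2 - 4 * η ^ 2 ≤
          ‖∑ j ∈ Icc (-J) J, s j / ((1 + η ^ 2 : ℝ) : ℂ) * e (j * x)‖ ^ 2 := by
        rw [← sq_abs (h _)]
        have b0 := norm_nonneg (∑ j ∈ Icc (-J) J, s j / ((1 + η ^ 2 : ℝ) : ℂ) * e (j * x))
        have b1 := (abs_le.1 (a3.trans a1)).1
        have b2 := abs_nonneg (h (Real.cos (2 * Real.pi * x)))
        generalize ‖∑ j ∈ Icc (-J) J, s j / ((1 + η ^ 2 : ℝ) : ℂ) * e (j * x)‖ = A at *
        generalize |h (Real.cos (2 * Real.pi * x))| = B at *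
        nlinarith
      refine le_trans ?_ a5
      have n1 := bump_nonneg (1 / 4 - 2 * η / 4) (1 / 4 + 2 * η / 4) x
      have n2 := bump_nonneg (3 / 4 - 2 * η / 4) (3 / 4 + 2 * η / 4) x
      have n3 := bump_nonneg (1 / 4 - η ^ 2 / 4) (1 / 4 + η ^ 2 / 4) x
      have n4 := bump_nonneg (3 / 4 - η ^ 2 / 4) (3 / 4 + η ^ 2 / 4) x
      have n5 := mul_nonneg h0.le (add_nonneg n1 n2)
      by_cases c1 : |Real.cos (2 * Real.pi * x)| < η ^ 2
      · have := sq_nonneg (h (Real.cos (2 * Real.pi * x)))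
        rcases cos_lower hx c1 with g | g <;> linarith [bump_one g]
      have d1 : (1 - 2 * η + |Real.cos (2 * Real.pi * x)|) ^ 2 ≤
          h (Real.cos (2 * Real.pi * x)) ^ 2 ∨ h (Real.cos (2 * Real.pi * x)) ^ 2 = 1 := by
        generalize Real.cos (2 * Real.pi * x) = y at *
        simp only [hh]
        rcases le_abs'.1 (not_lt.1 c1) with g | g
        · have g1 : cl (y / η ^ 2) = -1 := by
            have : y / η ^ 2 ≤ -1 := by rw [div_le_iff₀ hκ]; linarith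
            rcases cl_cases (y / η ^ 2) with g' | g' | g' <;> linarith [g'.1, g'.2]
          rw [g1, abs_of_nonpos (by linarith)]
          rcases cl_cases (y + (1 - 2 * η) * -1) with g' | g' | g'
          · right; rw [g'.2]; norm_num
          · left; rw [g'.2.2]; exact le_of_eq (by ring)
          · right; rw [g'.2]; norm_num
        · have g1 : cl (y / η ^ 2) = 1 := by
            have : 1 ≤ y / η ^ 2 := by rw [le_div_iff₀ hκ]; linarith
            rcases cl_cases (y / η ^ 2) with g' | g' | g' <;> linarith [g'.1, g'.2]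
          rw [g1, abs_of_nonneg (by linarith)]
          rcases cl_cases (y + (1 - 2 * η) * 1) with g' | g' | g'
          · right; rw [g'.2]; norm_num
          · left; rw [g'.2.2]; exact le_of_eq (by ring)
          · right; rw [g'.2]; norm_num
      rcases d1 with d1 | d1
      swap
      · linarith
      have d2 := abs_nonneg (Real.cos (2 * Real.pi * x))
      by_cases c2 : |Real.cos (2 * Real.pi * x)| < 2 * η
      · have d3 : (1 - 2 * η) ^ 2 ≤ (1 - 2 * η + |Real.cos (2 * Real.pi * x)|) ^ 2 :=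
          pow_le_pow_left₀ (by linarith) (by linarith) 2
        have d4 : 1 ≤ bump (1 / 4 - 2 * η / 4) (1 / 4 + 2 * η / 4) x +
            bump (3 / 4 - 2 * η / 4) (3 / 4 + 2 * η / 4) x := by
          rcases cos_lower hx c2 with g | g <;> linarith [bump_one g]
        have d5 := mul_le_mul_of_nonneg_left d4 h0.le
        nlinarith
      · have d3 : (1 : ℝ) ^ 2 ≤ (1 - 2 * η + |Real.cos (2 * Real.pi * x)|) ^ 2 :=
          pow_le_pow_left₀ (by linarith) (by linarith) 2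
        linarith
    have ib : ∀ p q, IntervalIntegrable (bump p q) MeasureTheory.volume 0 1 :=
      fun p q => (bump_integrable p q).intervalIntegrable
    refine le_trans ?_ (intervalIntegral.integral_mono_on zero_le_one
      (intervalIntegrable_const.sub ((((ib _ _).add (ib _ _)).const_mul _).add
        ((ib _ _).add (ib _ _)))) (Continuous.intervalIntegrable (by fun_prop) _ _) hpt)
    rw [intervalIntegral.integral_sub intervalIntegrable_const ((((ib _ _).add (ib _ _)).const_mul _).add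
        ((ib _ _).add (ib _ _))),
      intervalIntegral.integral_add (((ib _ _).add (ib _ _)).const_mul _) ((ib _ _).add (ib _ _)),
      intervalIntegral.integral_const_mul, intervalIntegral.integral_add (ib _ _) (ib _ _),
      intervalIntegral.integral_add (ib _ _) (ib _ _)]
    have i1 := bump_integral (p := 1 / 4 - 2 * η / 4) (q := 1 / 4 + 2 * η / 4) (by linarith)
    have i2 := bump_integral (p := 3 / 4 - 2 * η / 4) (q := 3 / 4 + 2 * η / 4) (by linarith)
    have i3 := bump_integral (p := 1 / 4 - η ^ 2 / 4) (q := 1 / 4 + η ^ 2 / 4) (by linarith)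
    have i4 := bump_integral (p := 3 / 4 - η ^ 2 / 4) (q := 3 / 4 + η ^ 2 / 4) (by linarith)
    have i5 := mul_le_mul_of_nonneg_left (add_le_add i1 i2) h0.le
    simp only [intervalIntegral.integral_const, sub_zero, smul_eq_mul, one_mul]
    nlinarith

lemma exists_generic {d : ℕ} (S : Finset (Fin d → ℤ)) (hS : ∀ m ∈ S, m ≠ 0) :
    ∃ u : Fin d → ℤ, ∀ m ∈ S, ∑ l, m l * u l ≠ 0 := by
  classical
  have hP : (∏ m ∈ S, ∑ l, MvPolynomial.C (m l) * MvPolynomial.X l : MvPolynomial (Fin d) ℤ) ≠ 0 := by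
    refine prod_ne_zero_iff.2 fun m hm h0 => hS m hm ?_
    funext l
    have := congrArg (MvPolynomial.eval (Pi.single l 1)) h0
    simpa [Pi.single_apply] using this
  by_contra hcon
  push Not at hcon
  refine hP (MvPolynomial.funext fun u => ?_)
  obtain ⟨m, hm, h0⟩ := hcon u
  rw [map_prod, map_zero]
  refine prod_eq_zero hm ?_
  simpa using h0

lemma split_sum {d : ℕ} {M : Type*} [AddCommMonoid M] (B : Finset (Fin d → ℤ))
    (hB : ∀ m ∈ B, -m ∈ B) (u : Fin d → ℤ) (hu : ∀ m ∈ B, ∑ l, m l * u l ≠ 0)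
    (φ : (Fin d → ℤ) → M) :
    ∑ m ∈ B, φ m = ∑ m ∈ B.filter (fun m => 0 < ∑ l, m l * u l), (φ m + φ (-m)) := by
  rw [sum_add_distrib, ← sum_filter_add_sum_filter_not B (fun m => 0 < ∑ l, m l * u l)]
  congr 1
  have hneg : ∀ m : Fin d → ℤ, ∑ l, (-m) l * u l = -∑ l, m l * u l := by
    intro m; simp
  refine Finset.sum_equiv (Equiv.neg _) (fun m => ?_) (fun m _ => by simp)
  simp only [mem_filter, Equiv.neg_apply, hneg]
  constructor
  · rintro ⟨h1, h2⟩
    have := hu m h1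
    exact ⟨hB m h1, by omega⟩
  · rintro ⟨h1, h2⟩
    exact ⟨by simpa using hB _ h1, by omega⟩

lemma tensor (n : ℕ) (hn : 13 ≤ n) :
    ∃ (d : ℕ) (B : Finset (Fin d → ℤ)) (C : (Fin d → ℤ) → ℂ), (∀ m ∈ B, -m ∈ B) ∧
      (∀ m ∈ B, C m ≠ 0) ∧ (∀ m ∈ B, ∃ l, m l = 1 ∨ m l = -1) ∧
      (∀ m, C (-m) = (starRingEnd ℂ) (C m)) ∧
      (∀ x : Fin d → ℝ, ‖∑ m ∈ B, C m * e (∑ l, m l * x l)‖ ≤ 1 + 1 / n) ∧
      1 - 15 * (1 / n : ℝ) ≤ ∑ m ∈ B, ‖C m‖ ^ 2 ∧ ∑ m ∈ B, ‖C m‖ ^ 2 ≤ (1 + 1 / n : ℝ) ^ 2 := by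
  classical
  have hn' : (13 : ℝ) ≤ n := by exact_mod_cast hn
  set ρ : ℝ := 1 / n with hρ
  have hρ0 : 0 < ρ := by positivity
  have hρn : ρ * n = 1 := by rw [hρ]; field_simp
  have hρ1 : ρ ≤ 1 / 13 := one_div_le_one_div_of_le (by norm_num) hn'
  have hq0 : 0 < ρ ^ 2 := by positivity
  have hq1 : ρ ^ 2 ≤ 1 / 13 := by nlinarith
  have hq2 : 0 ≤ 1 - 13 * (ρ ^ 2) ^ 2 := by nlinarith
  obtain ⟨J, s, hJ, hsym, hb, hc, hE⟩ := oneDim (η := ρ ^ 2) (by positivity) (by nlinarith)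
  set r : ℤ → ℂ := fun j => s j - (if j = 1 then 1 / 2 else 0) - (if j = -1 then 1 / 2 else 0)
    with hr
  have hrsym : ∀ j, r (-j) = (starRingEnd ℂ) (r j) := by
    intro j
    simp only [hr, hsym, map_sub, neg_eq_iff_eq_neg, neg_neg, apply_ite (starRingEnd ℂ), map_zero,
      map_div₀, map_one, map_ofNat]
    ring
  have hrb : ∀ x : ℝ, ‖∑ j ∈ Icc (-J) J, r j * e (j * x)‖ ≤ 1 - ρ ^ 2 := by
    intro x
    refine le_trans (le_of_eq ?_) (hc x)
    congr 1
    simp only [hr, sub_mul, sum_sub_distrib, ite_mul, zero_mul, sum_ite_eq', mem_Icc]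
    rw [if_pos (by omega), if_pos (by omega), ← e_re]
    push_cast
    rw [one_mul, neg_one_mul, e_neg, Complex.re_eq_add_conj]
    ring
  have hpar : ∀ (c : ℤ → ℂ) (M : ℝ), (∀ x : ℝ, ‖∑ j ∈ Icc (-J) J, c j * e (j * x)‖ ≤ M) →
      ∑ j ∈ Icc (-J) J, ‖c j‖ ^ 2 ≤ M ^ 2 := by
    intro c M hM
    have hp := parseval (Icc (-J) J) id (Set.injOn_id _) c 0
    simp only [id, zero_add] at hp
    rw [← hp]
    refine (intervalIntegral.integral_mono_on zero_le_one
      (Continuous.intervalIntegrable (by fun_prop) _ _) (intervalIntegrable_const (c := M ^ 2))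
      fun x _ => pow_le_pow_left₀ (norm_nonneg _) (hM x) 2).trans (by simp)
  set d := n ^ 3 with hd
  have hpow : (1 - ρ ^ 2) ^ d ≤ ρ := by
    have a1 : 1 + (d : ℝ) * ρ ^ 2 ≤ (1 + ρ ^ 2) ^ d := one_add_mul_le_pow (by nlinarith) d
    have a2 : (d : ℝ) * ρ ^ 2 = n := by
      rw [hd]; push_cast
      calc (n : ℝ) ^ 3 * ρ ^ 2 = (n : ℝ) * (ρ * n) ^ 2 := by ring
        _ = (n : ℝ) := by rw [hρn]; ring
    have a3 : (1 - ρ ^ 2) ^ d * (1 + ρ ^ 2) ^ d ≤ 1 := by
      rw [← mul_pow]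
      exact pow_le_one₀ (mul_nonneg (by linarith) (by linarith)) (by nlinarith)
    have a4 : 0 ≤ (1 - ρ ^ 2) ^ d := pow_nonneg (by nlinarith) d
    have a5 := mul_le_mul_of_nonneg_left a1 a4
    have a6 : (1 - ρ ^ 2) ^ d * n ≤ ρ * n := by nlinarith
    exact le_of_mul_le_mul_right a6 (by linarith)
  have hpow2 : 1 - 13 * ρ ≤ (1 - 13 * (ρ ^ 2) ^ 2) ^ d := by
    have a1 := one_add_mul_le_pow (a := -(13 * (ρ ^ 2) ^ 2)) (by linarith) d
    have a2 : (d : ℝ) * (ρ ^ 2) ^ 2 = ρ := by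
      rw [hd]; push_cast
      calc (n : ℝ) ^ 3 * (ρ ^ 2) ^ 2 = ρ * (ρ * n) ^ 3 := by ring
        _ = ρ := by rw [hρn]; ring
    rw [← sub_eq_add_neg] at a1
    linarith
  set B0 : Finset (Fin d → ℤ) := Fintype.piFinset (fun _ => Icc (-J) J) with hB0
  set C : (Fin d → ℤ) → ℂ := fun m => ∏ l, s (m l) - ∏ l, r (m l) with hC
  have hCsym : ∀ m, C (-m) = (starRingEnd ℂ) (C m) := by
    intro m
    simp only [hC, Pi.neg_apply, hsym, hrsym, map_sub, map_prod]
  have hprod : ∀ (c : ℤ → ℂ) (x : Fin d → ℝ), ∑ m ∈ B0, (∏ l, c (m l)) * e (∑ l, m l * x l) =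
      ∏ l, ∑ j ∈ Icc (-J) J, c j * e (j * x l) := by
    intro c x
    rw [Finset.prod_univ_sum]
    refine sum_congr rfl fun m _ => by rw [e_sum, prod_mul_distrib]
  have hen : ∀ c : ℤ → ℂ, ∑ m ∈ B0, ‖∏ l, c (m l)‖ ^ 2 = (∑ j ∈ Icc (-J) J, ‖c j‖ ^ 2) ^ d := by
    intro c
    have := Finset.prod_univ_sum (fun _ : Fin d => Icc (-J) J) (fun _ j => ‖c j‖ ^ 2)
    rw [prod_const, card_univ, Fintype.card_fin] at this
    rw [this]
    refine sum_congr rfl fun m _ => by rw [norm_prod, prod_pow]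
  have hS1 : ∑ m ∈ B0, ‖∏ l, s (m l)‖ ^ 2 ≤ 1 := by
    rw [hen]
    exact pow_le_one₀ (sum_nonneg fun _ _ => sq_nonneg _) (by simpa using hpar s 1 hb)
  have hS2 : 1 - 13 * ρ ≤ ∑ m ∈ B0, ‖∏ l, s (m l)‖ ^ 2 := by
    rw [hen]
    exact hpow2.trans (pow_le_pow_left₀ hq2 hE d)
  have hR : ∑ m ∈ B0, ‖∏ l, r (m l)‖ ^ 2 ≤ ρ ^ 2 := by
    rw [hen]
    refine (pow_le_pow_left₀ (sum_nonneg fun _ _ => sq_nonneg _) (hpar r _ hrb) d).trans ?_
    rw [← pow_mul, mul_comm, pow_mul]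
    exact pow_le_pow_left₀ (pow_nonneg (by nlinarith) d) hpow 2
  have hf : ∑ m ∈ B0.filter (fun m => C m ≠ 0), ‖C m‖ ^ 2 = ∑ m ∈ B0, ‖C m‖ ^ 2 :=
    sum_filter_of_ne fun m _ h h0 => h (by simp [h0])
  refine ⟨d, B0.filter (fun m => C m ≠ 0), C, ?_, fun m hm => (mem_filter.1 hm).2, ?_, hCsym,
    ?_, ?_, ?_⟩
  · intro m hm
    rw [mem_filter] at hm ⊢
    refine ⟨Fintype.mem_piFinset.2 fun l => ?_, by rw [hCsym]; simpa using hm.2⟩
    have := Fintype.mem_piFinset.1 hm.1 l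
    simp only [mem_Icc, Pi.neg_apply] at this ⊢
    omega
  · intro m hm
    by_contra hcon
    push Not at hcon
    refine (mem_filter.1 hm).2 ?_
    simp only [hC]
    rw [sub_eq_zero]
    refine prod_congr rfl fun l _ => ?_
    simp [hr, (hcon l).1, (hcon l).2]
  · intro x
    have hf2 : ∑ m ∈ B0.filter (fun m => C m ≠ 0), C m * e (∑ l, m l * x l) =
        ∑ m ∈ B0, C m * e (∑ l, m l * x l) :=
      sum_filter_of_ne fun m _ h h0 => h (by simp [h0])
    rw [hf2]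
    simp only [hC, sub_mul, sum_sub_distrib, hprod]
    refine (norm_sub_le _ _).trans (add_le_add ?_ ?_)
    · rw [norm_prod]
      exact prod_le_one (fun _ _ => norm_nonneg _) fun l _ => hb _
    · rw [norm_prod]
      refine le_trans ?_ hpow
      refine (prod_le_prod (fun _ _ => norm_nonneg _) fun l _ => hrb (x l)).trans (by simp)
  · rw [hf]
    have a1 : ∀ m ∈ B0, ρ * (1 - ρ) * ‖∏ l, s (m l)‖ ^ 2 - ‖∏ l, r (m l)‖ ^ 2 ≤ ρ * ‖C m‖ ^ 2 := by
      intro m _
      have b1 := pow_le_pow_left₀ (abs_nonneg _)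
        (abs_norm_sub_norm_le (∏ l, s (m l)) (∏ l, r (m l))) 2
      rw [sq_abs] at b1
      simp only [hC]
      generalize ‖∏ l, s (m l)‖ = A at *
      generalize ‖∏ l, r (m l)‖ = R at *
      generalize ‖∏ l, s (m l) - ∏ l, r (m l)‖ = Z at *
      nlinarith [sq_nonneg (ρ * A - R), mul_le_mul_of_nonneg_left b1 hρ0.le,
        mul_nonneg hρ0.le (sq_nonneg R)]
    have a2 := sum_le_sum a1
    rw [sum_sub_distrib, ← mul_sum, ← mul_sum] at a2
    have a3 := mul_le_mul_of_nonneg_left hS2 (show 0 ≤ ρ * (1 - ρ) by nlinarith)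
    have a4 : ρ * (1 - 15 * ρ) ≤ ρ * ∑ m ∈ B0, ‖C m‖ ^ 2 := by nlinarith
    exact le_of_mul_le_mul_left a4 hρ0
  · rw [hf]
    have a1 : ∀ m ∈ B0, ρ * ‖C m‖ ^ 2 ≤
        ρ * (1 + ρ) * ‖∏ l, s (m l)‖ ^ 2 + (1 + ρ) * ‖∏ l, r (m l)‖ ^ 2 := by
      intro m _
      have b1 := pow_le_pow_left₀ (norm_nonneg _) (norm_sub_le (∏ l, s (m l)) (∏ l, r (m l))) 2
      simp only [hC]
      generalize ‖∏ l, s (m l)‖ = A at *
      generalize ‖∏ l, r (m l)‖ = R at *
      generalize ‖∏ l, s (m l) - ∏ l, r (m l)‖ = Z at *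
      nlinarith [sq_nonneg (ρ * A - R), mul_le_mul_of_nonneg_left b1 hρ0.le]
    have a2 := sum_le_sum a1
    rw [sum_add_distrib, ← mul_sum, ← mul_sum, ← mul_sum] at a2
    have a3 := mul_le_mul_of_nonneg_left hS1 (show 0 ≤ ρ * (1 + ρ) by positivity)
    have a4 := mul_le_mul_of_nonneg_left hR (show 0 ≤ 1 + ρ by positivity)
    have a5 : ρ * ∑ m ∈ B0, ‖C m‖ ^ 2 ≤ ρ * (1 + ρ) ^ 2 := by nlinarith
    exact le_of_mul_le_mul_left a5 hρ0

end Profile

open Profile

theorem profile : ProfileStmt := by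
  classical
  intro ε hε
  obtain ⟨n0, hn0⟩ := exists_nat_gt (17 / ε)
  set n := n0 + 13 with hn
  obtain ⟨d, B, C, hneg, hC0, hone, hsym, hb, hlo, hup⟩ := tensor n (by omega)
  have hn' : 17 / ε < n := by rw [hn]; push_cast; linarith
  have hn1 : (0 : ℝ) < n := lt_trans (by positivity) hn'
  set ρ : ℝ := 1 / n with hρ
  have hρ0 : 0 < ρ := by positivity
  have hρε : 17 * ρ ≤ ε := by
    rw [div_lt_iff₀ hε] at hn'
    rw [hρ, mul_one_div, div_le_iff₀ hn1]
    linarith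
  obtain ⟨u, hu⟩ := exists_generic B (by
    intro m hm h0
    obtain ⟨l, hl⟩ := hone m hm
    rw [h0] at hl
    simp at hl)
  set S := B.filter (fun m => 0 < ∑ l, m l * u l) with hS
  obtain ⟨v, hv⟩ := exists_generic (S.offDiag.image (fun q =>
      fun l => (∑ l, q.1 l * u l) * q.2 l - (∑ l, q.2 l * u l) * q.1 l)) (by
    intro w hw h0
    obtain ⟨⟨m, m'⟩, hq, rfl⟩ := mem_image.1 hw
    obtain ⟨hm, hm', hne⟩ := mem_offDiag.1 hq
    rw [hS, mem_filter] at hm hm'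
    have h1 : ∀ l, (∑ l, m l * u l) * m' l = (∑ l, m' l * u l) * m l := fun l => by
      have := congrFun h0 l
      simpa [sub_eq_zero] using this
    obtain ⟨l, hl⟩ := hone m hm.1
    obtain ⟨l', hl'⟩ := hone m' hm'.1
    have p1 := hm.2
    have p2 := hm'.2
    generalize ∑ l, m l * u l = a at *
    generalize ∑ l, m' l * u l = a' at *
    have d1 : a ∣ a' := by
      have := h1 l
      rcases hl with h | h <;> rw [h] at this
      · exact ⟨m' l, by linarith⟩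
      · exact ⟨-m' l, by linarith⟩
    have d2 : a' ∣ a := by
      have := h1 l'
      rcases hl' with h | h <;> rw [h] at this
      · exact ⟨m l', by linarith⟩
      · exact ⟨-m l', by linarith⟩
    have e1 : a = a' := Int.dvd_antisymm p1.le p2.le d1 d2
    refine hne (funext fun i => ?_)
    have := h1 i
    rw [← e1] at this
    exact (mul_left_cancel₀ p1.ne' this).symm)
  set g := S.equivFin.symm with hg
  have hsumS : ∀ φ : (Fin d → ℤ) → ℝ, ∑ i, φ (g i) = ∑ m ∈ S, φ m := by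
    intro φ
    rw [Equiv.sum_comp g (fun m : S => φ m), sum_coe_sort]
  have hne : ((1 + ρ : ℝ) : ℂ) ≠ 0 := Complex.ofReal_ne_zero.2 (by positivity)
  have hen : ∑ i, 2 * ‖C (g i) / ((1 + ρ : ℝ) : ℂ)‖ ^ 2 = (∑ m ∈ B, ‖C m‖ ^ 2) / (1 + ρ) ^ 2 := by
    rw [hsumS (fun m => 2 * ‖C m / ((1 + ρ : ℝ) : ℂ)‖ ^ 2), split_sum B hneg u hu, sum_div]
    refine sum_congr rfl fun m _ => ?_
    rw [hsym, Complex.norm_conj, norm_div, Complex.norm_real, Real.norm_eq_abs, div_pow, sq_abs]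
    ring
  refine ⟨S.card, fun i => ∑ l, (g i).1 l * u l, fun i => ∑ l, (g i).1 l * v l,
    fun i => C (g i) / ((1 + ρ : ℝ) : ℂ), fun i => (mem_filter.1 (g i).2).2, ?_,
    fun i => div_ne_zero (hC0 _ (mem_filter.1 (g i).2).1) hne, ?_, ?_, ?_⟩
  · intro i j hij heq
    refine hv _ (mem_image.2 ⟨((g i).1, (g j).1), mem_offDiag.2 ⟨(g i).2, (g j).2, ?_⟩, rfl⟩) ?_
    · exact fun h => hij (g.injective (Subtype.ext h))
    · simp only [sub_mul, sum_sub_distrib, mul_assoc, ← mul_sum]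
      rw [heq, sub_self]
  · intro x y
    have h1 := hb (fun l => x * u l + y * v l)
    rw [split_sum B hneg u hu] at h1
    have h2 : ∑ m ∈ S, (C m * e (∑ l, m l * (x * u l + y * v l)) +
        C (-m) * e (∑ l, ((-m) l : ℤ) * (x * u l + y * v l))) =
        (((1 + ρ) * ∑ m ∈ S, 2 * (C m / ((1 + ρ : ℝ) : ℂ) *
          e (((∑ l, m l * u l : ℤ) : ℝ) * x + ((∑ l, m l * v l : ℤ) : ℝ) * y)).re : ℝ) : ℂ) := by
      rw [mul_sum, Complex.ofReal_sum]
      refine sum_congr rfl fun m _ => ?_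
      have a1 : ∑ l, (m l : ℝ) * (x * u l + y * v l) =
          ((∑ l, m l * u l : ℤ) : ℝ) * x + ((∑ l, m l * v l : ℤ) : ℝ) * y := by
        push_cast
        rw [sum_mul, sum_mul, ← sum_add_distrib]
        refine sum_congr rfl fun l _ => by ring
      have a2 : ∑ l, (((-m) l : ℤ) : ℝ) * (x * u l + y * v l) =
          -∑ l, (m l : ℝ) * (x * u l + y * v l) := by
        rw [← sum_neg_distrib]
        refine sum_congr rfl fun l _ => by simp
      rw [a2, a1, e_neg, hsym, ← map_mul, Complex.add_conj, div_mul_eq_mul_div,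
        Complex.div_ofReal_re]
      congr 1
      field_simp
    rw [h2, Complex.norm_real, Real.norm_eq_abs, abs_mul, abs_of_pos (by positivity)] at h1
    rw [hsumS (fun m => 2 * (C m / ((1 + ρ : ℝ) : ℂ) *
          e (((∑ l, m l * u l : ℤ) : ℝ) * x + ((∑ l, m l * v l : ℤ) : ℝ) * y)).re)]
    refine le_of_mul_le_mul_left (a := 1 + ρ) (by linarith) (by positivity)
  · rw [hen, le_div_iff₀ (by positivity)]
    rcases le_total ε 1 with h | h
    · nlinarith [mul_nonneg hρ0.le hρ0.le, mul_nonneg (mul_nonneg hρ0.le hρ0.le) hρ0.le]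
    · have : 0 ≤ ∑ m ∈ B, ‖C m‖ ^ 2 := sum_nonneg fun _ _ => sq_nonneg _
      nlinarith [sq_nonneg (1 + ρ)]
  · rw [hen, div_le_one (by positivity)]
    exact hup

end Vale.Agent.P110
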