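import Vale.Agent.P110.Stmts

/-! # P110: gluing phase functions -/

namespace Vale.Agent.P110

open Finset

namespace Reg

/-- A phase with controlled Lipschitz derivative. -/
def Good (ψ h : ℝ → ℝ) (lo hi L : ℝ) : Prop :=
  (∀ t, HasDerivAt ψ (h t) t) ∧ (∀ t, lo ≤ h t ∧ h t ≤ hi) ∧ ∀ s t, |h s - h t| ≤ L * |s - t|

lemma Good.mono {ψ h : ℝ → ℝ} {lo hi L lo' hi' L' : ℝ} (g : Good ψ h lo hi L) (h1 : lo' ≤ lo)
    (h2 : hi ≤ hi') (h3 : L ≤ L') : Good ψ h lo' hi' L' :=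
  ⟨g.1, fun t => ⟨h1.trans (g.2.1 t).1, (g.2.1 t).2.trans h2⟩,
    fun s t => (g.2.2 s t).trans (mul_le_mul_of_nonneg_right h3 (abs_nonneg _))⟩

lemma cont_of_lip {h : ℝ → ℝ} {L : ℝ} (hl : ∀ s t, |h s - h t| ≤ L * |s - t|) : Continuous h := by
  have : LipschitzWith (Real.toNNReal L) h := LipschitzWith.of_dist_le_mul fun s t => by
    rw [Real.dist_eq, Real.dist_eq]
    exact (hl s t).trans (mul_le_mul_of_nonneg_right (Real.le_coe_toNNReal L) (abs_nonneg _))
  exact this.continuous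

lemma exists_prim {h : ℝ → ℝ} (hc : Continuous h) (a v : ℝ) :
    ∃ ψ : ℝ → ℝ, (∀ t, HasDerivAt ψ (h t) t) ∧ ψ a = v := by
  refine ⟨fun t => v + ∫ s in a..t, h s, fun t => ?_, by simp⟩
  exact (hc.integral_hasStrictDerivAt a t).hasDerivAt.const_add v

lemma sub_eq {f g h : ℝ → ℝ} (hc : Continuous h) (a b : ℝ)
    (hf : ∀ t ∈ Set.uIcc a b, HasDerivAt f (h t) t)
    (hg : ∀ t ∈ Set.uIcc a b, HasDerivAt g (h t) t) : f b - f a = g b - g a := by
  rw [← intervalIntegral.integral_eq_sub_of_hasDerivAt hf (hc.intervalIntegrable _ _),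
    ← intervalIntegral.integral_eq_sub_of_hasDerivAt hg (hc.intervalIntegrable _ _)]

lemma extend (ψ h p : ℝ → ℝ) (a b lo hi L : ℝ) (hL : 0 ≤ L)
    (hd : ∀ t ∈ Set.Icc a b, HasDerivAt ψ (h t) t)
    (hb : ∀ t ∈ Set.Icc a b, lo ≤ h t ∧ h t ≤ hi)
    (hl : ∀ s ∈ Set.Icc a b, ∀ t ∈ Set.Icc a b, |h s - h t| ≤ L * |s - t|)
    (hp : ∀ t, p t ∈ Set.Icc a b) (hp1 : ∀ s t, |p s - p t| ≤ |s - t|)
    (hp2 : ∀ t ∈ Set.Icc a b, p t = t) :
    ∃ χ : ℝ → ℝ, Good χ (fun t => h (p t)) lo hi L ∧ ∀ t ∈ Set.Icc a b, χ t = ψ t := by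
  have h1 : ∀ s t, |h (p s) - h (p t)| ≤ L * |s - t| := fun s t =>
    (hl _ (hp s) _ (hp t)).trans (mul_le_mul_of_nonneg_left (hp1 s t) hL)
  have hc : Continuous fun t => h (p t) := cont_of_lip h1
  obtain ⟨χ, hχ, hχa⟩ := exists_prim hc a (ψ a)
  refine ⟨χ, ⟨hχ, fun t => hb _ (hp t), h1⟩, fun t ht => ?_⟩
  have h2 := sub_eq (f := χ) (g := ψ) hc a t (fun s _ => hχ s) (fun s hs => by
    rw [Set.uIcc_of_le ht.1] at hs
    have hs' : s ∈ Set.Icc a b := ⟨hs.1, hs.2.trans ht.2⟩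
    simp only [hp2 s hs']
    exact hd s hs')
  linarith

lemma clamp_lip (a b s t : ℝ) : |max a (min s b) - max a (min t b)| ≤ |s - t| := by
  rw [max_comm a, max_comm a]
  refine (abs_max_sub_max_le_abs _ _ _).trans ((abs_min_sub_min_le_max s b t b).trans ?_)
  simp

lemma clamp_mem {a b : ℝ} (hab : a ≤ b) (t : ℝ) : max a (min t b) ∈ Set.Icc a b :=
  ⟨le_max_left _ _, max_le hab (min_le_right _ _)⟩

lemma clamp_eq {a b t : ℝ} (ht : t ∈ Set.Icc a b) : max a (min t b) = t := by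
  rw [min_eq_left ht.2, max_eq_right ht.1]

/-- the ramp. -/
lemma exists_ramp (x w : ℝ) (hw : 0 < w) : ∃ ρ : ℝ → ℝ, (∀ t, 0 ≤ ρ t ∧ ρ t ≤ 1) ∧
    (∀ s t, |ρ s - ρ t| ≤ 1 / (2 * w) * |s - t|) ∧ (∀ t ≤ x - w, ρ t = 0) ∧
    (∀ t, x + w ≤ t → ρ t = 1) ∧
    ∀ t ∈ Set.Icc (x - w) (x + w), ρ t = (t - (x - w)) / (2 * w) := by
  have h2 : 0 < 2 * w := by linarith
  refine ⟨fun t => max 0 (min ((t - (x - w)) / (2 * w)) 1), fun t => clamp_mem zero_le_one _,
    fun s t => ?_, fun t ht => ?_, fun t ht => ?_, fun t ht => ?_⟩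
  · refine (clamp_lip _ _ _ _).trans (le_of_eq ?_)
    rw [← sub_div, abs_div, abs_of_pos h2]
    have : s - (x - w) - (t - (x - w)) = s - t := by ring
    rw [this]; ring
  · refine max_eq_left ((min_le_left _ _).trans ?_)
    exact div_nonpos_of_nonpos_of_nonneg (by linarith) h2.le
  · have : 1 ≤ (t - (x - w)) / (2 * w) := by rw [le_div_iff₀ h2]; linarith
    simp only [min_eq_right this]
    exact max_eq_right zero_le_one
  · refine clamp_eq ⟨div_nonneg (by linarith [ht.1]) h2.le, ?_⟩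
    rw [div_le_one h2]; linarith [ht.2]

/-- the bump and its primitive. -/
lemma exists_bump (x w : ℝ) (hw : 0 < w) : ∃ B b : ℝ → ℝ, (∀ t, HasDerivAt B (b t) t) ∧
    (∀ t, 0 ≤ b t ∧ b t ≤ 1 / 4) ∧ (∀ s t, |b s - b t| ≤ 1 / (2 * w) * |s - t|) ∧
    (∀ t ≤ x - w, B t = 0) ∧ ∀ t, x + w ≤ t → B t = w / 3 := by
  obtain ⟨ρ, h1, h2, h3, h4, h5⟩ := exists_ramp x w hw
  have hl : ∀ s t, |ρ s * (1 - ρ s) - ρ t * (1 - ρ t)| ≤ 1 / (2 * w) * |s - t| := by
    intro s t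
    have : ρ s * (1 - ρ s) - ρ t * (1 - ρ t) = (ρ s - ρ t) * (1 - ρ s - ρ t) := by ring
    rw [this, abs_mul]
    refine (mul_le_of_le_one_right (abs_nonneg _) ?_).trans (h2 s t)
    rw [abs_le]
    constructor <;> linarith [h1 s, h1 t]
  have hc : Continuous fun t => ρ t * (1 - ρ t) := cont_of_lip hl
  obtain ⟨B, hB, hB0⟩ := exists_prim hc (x - w) 0
  have hB1 : B (x + w) = w / 3 := by
    have := sub_eq (f := B) (g := fun t => (t - (x - w)) ^ 2 / (4 * w)
      - (t - (x - w)) ^ 3 / (12 * w ^ 2)) hc (x - w) (x + w) (fun s _ => hB s) (fun s hs => by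
        rw [Set.uIcc_of_le (by linarith)] at hs
        simp only [h5 s hs]
        have h6 : HasDerivAt (fun t : ℝ => t - (x - w)) 1 s := (hasDerivAt_id s).sub_const _
        have h7 := ((h6.pow 2).div_const (4 * w)).sub ((h6.pow 3).div_const (12 * w ^ 2))
        refine HasDerivAt.congr_deriv h7 ?_
        field_simp; ring)
    rw [hB0] at this
    simp only [sub_self, sub_zero] at this
    rw [this]; field_simp; ring
  refine ⟨B, _, hB, fun t => ⟨mul_nonneg (h1 t).1 (by linarith [h1 t]), ?_⟩, hl, fun t ht => ?_,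
    fun t ht => ?_⟩
  · nlinarith [sq_nonneg (ρ t - 1 / 2)]
  · have := sub_eq (f := B) (g := fun _ => 0) hc t (x - w) (fun s _ => hB s) (fun s hs => by
      rw [Set.uIcc_of_le ht] at hs
      simp only [h3 s hs.2, zero_mul]
      exact hasDerivAt_const _ _)
    linarith
  · have := sub_eq (f := B) (g := fun _ => 0) hc (x + w) t (fun s _ => hB s) (fun s hs => by
      rw [Set.uIcc_of_le ht] at hs
      simp only [h4 s hs.1, sub_self, mul_zero]
      exact hasDerivAt_const _ _)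
    linarith

lemma glue {ψ₁ h₁ ψ₂ h₂ : ℝ → ℝ} {lo hi L : ℝ} (g₁ : Good ψ₁ h₁ lo hi L)
    (g₂ : Good ψ₂ h₂ lo hi L) (x w M : ℝ) (hw : 0 < w) (hM : hi - lo ≤ M) :
    ∃ ψ h : ℝ → ℝ, Good ψ h lo (hi + 1 / w) (L + (M / w + 2 / w ^ 2)) ∧
      (∀ t ≤ x - w, ψ t = ψ₁ t) ∧ ∀ t, x + w ≤ t → e (ψ t) = e (ψ₂ t) := by
  obtain ⟨ρ, h1, h2, h3, h4, -⟩ := exists_ramp x w hw
  obtain ⟨B, b, hB, hb, hbl, hB0, hB1⟩ := exists_bump x w hw
  have hM0 : 0 ≤ M := by linarith [g₁.2.1 0]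
  have hl : ∀ s t, |((1 - ρ s) * h₁ s + ρ s * h₂ s) - ((1 - ρ t) * h₁ t + ρ t * h₂ t)|
      ≤ (L + M / w) * |s - t| := by
    intro s t
    have e1 : ((1 - ρ s) * h₁ s + ρ s * h₂ s) - ((1 - ρ t) * h₁ t + ρ t * h₂ t)
        = (1 - ρ s) * (h₁ s - h₁ t) + ρ s * (h₂ s - h₂ t) + (ρ s - ρ t) * (h₂ t - h₁ t) := by ring
    have e2 : |(1 - ρ s) * (h₁ s - h₁ t)| ≤ (1 - ρ s) * (L * |s - t|) := by
      rw [abs_mul, abs_of_nonneg (by linarith [h1 s])]
      exact mul_le_mul_of_nonneg_left (g₁.2.2 s t) (by linarith [h1 s])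
    have e3 : |ρ s * (h₂ s - h₂ t)| ≤ ρ s * (L * |s - t|) := by
      rw [abs_mul, abs_of_nonneg (h1 s).1]
      exact mul_le_mul_of_nonneg_left (g₂.2.2 s t) (h1 s).1
    have e4 : |(ρ s - ρ t) * (h₂ t - h₁ t)| ≤ 1 / (2 * w) * |s - t| * M := by
      rw [abs_mul]
      refine mul_le_mul (h2 s t) ?_ (abs_nonneg _) (by positivity)
      rw [abs_le]
      constructor <;> linarith [g₁.2.1 t, g₂.2.1 t]
    have e5 : 1 / (2 * w) * |s - t| * M ≤ M / w * |s - t| := by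
      have : M / w * |s - t| = 2 * (1 / (2 * w) * |s - t| * M) := by field_simp
      have h0 : 0 ≤ 1 / (2 * w) * |s - t| * M := by positivity
      linarith
    rw [e1]
    refine (abs_add_three _ _ _).trans ?_
    nlinarith
  have hc : Continuous fun t => (1 - ρ t) * h₁ t + ρ t * h₂ t := cont_of_lip hl
  obtain ⟨P, hP, hP0⟩ := exists_prim hc (x - w) (ψ₁ (x - w))
  set A : ℝ := P (x + w) - ψ₂ (x + w) with hA
  set D : ℝ := 3 * (⌈A⌉ - A) / w with hD
  have hD0 : 0 ≤ D := div_nonneg (by linarith [Int.le_ceil A]) hw.le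
  have hD1 : D ≤ 3 / w := div_le_div_of_nonneg_right (by linarith [Int.ceil_lt_add_one A]) hw.le
  refine ⟨fun t => P t + D * B t, fun t => ((1 - ρ t) * h₁ t + ρ t * h₂ t) + D * b t,
    ⟨fun t => (hP t).add ((hB t).const_mul D), fun t => ⟨?_, ?_⟩, fun s t => ?_⟩,
    fun t ht => ?_, fun t ht => ?_⟩
  · have := mul_nonneg hD0 (hb t).1
    nlinarith [g₁.2.1 t, g₂.2.1 t, h1 t]
  · have e1 : D * b t ≤ 3 / w * (1 / 4) := mul_le_mul hD1 (hb t).2 (hb t).1 (by positivity)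
    have e2 : 3 / w * (1 / 4) ≤ 1 / w := by
      have : 3 / w * (1 / 4) = 3 / 4 * (1 / w) := by ring
      have h0 : 0 < 1 / w := by positivity
      linarith
    nlinarith [g₁.2.1 t, g₂.2.1 t, h1 t]
  · have e1 : ((1 - ρ s) * h₁ s + ρ s * h₂ s + D * b s) - ((1 - ρ t) * h₁ t + ρ t * h₂ t + D * b t)
        = (((1 - ρ s) * h₁ s + ρ s * h₂ s) - ((1 - ρ t) * h₁ t + ρ t * h₂ t))
          + D * (b s - b t) := by ring
    have e2 : |D * (b s - b t)| ≤ 3 / w * (1 / (2 * w) * |s - t|) := by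
      rw [abs_mul, abs_of_nonneg hD0]
      exact mul_le_mul hD1 (hbl s t) (abs_nonneg _) (by positivity)
    have e3 : 3 / w * (1 / (2 * w) * |s - t|) ≤ 2 / w ^ 2 * |s - t| := by
      have : 3 / w * (1 / (2 * w) * |s - t|) = 3 / 4 * (2 / w ^ 2 * |s - t|) := by
        field_simp; ring
      have h0 : 0 ≤ 2 / w ^ 2 * |s - t| := by positivity
      linarith
    simp only
    rw [e1]
    refine (abs_add_le _ _).trans ?_
    have := hl s t
    linarith
  · have := sub_eq (f := P) (g := ψ₁) hc t (x - w) (fun s _ => hP s) (fun s hs => by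
      rw [Set.uIcc_of_le ht] at hs
      simp only [h3 s hs.2, zero_mul, sub_zero, one_mul, add_zero]
      exact g₁.1 s)
    simp only [hB0 t ht]
    linarith
  · have := sub_eq (f := P) (g := ψ₂) hc (x + w) t (fun s _ => hP s) (fun s hs => by
      rw [Set.uIcc_of_le ht] at hs
      simp only [h4 s hs.1, sub_self, zero_mul, one_mul, zero_add]
      exact g₂.1 s)
    have e1 : D * (w / 3) = ⌈A⌉ - A := by rw [hD]; field_simp
    have e2 : P t + D * B t = ψ₂ t + (⌈A⌉ : ℤ) := by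
      rw [hB1 t ht, e1]; linarith
    simp only
    rw [e2, e_add_int]

lemma glue_all (n : ℕ) (x : ℕ → ℝ) (hx : ∀ j ≤ n, x j < x (j + 1)) (χ g : ℕ → ℝ → ℝ)
    (lo hi L w M : ℝ) (hw : 0 < w) (hg : ∀ j ≤ n, Good (χ j) (g j) lo hi L)
    (hM : hi + n / w - lo ≤ M) (j : ℕ) (hj : j ≤ n) :
    ∃ ψ h : ℝ → ℝ, Good ψ h lo (hi + j / w) (L + j * (M / w + 2 / w ^ 2)) ∧
      ∀ i ≤ j, ∀ t, (i = 0 ∨ x i + w ≤ t) → (i = j ∨ t ≤ x (i + 1) - w) →
        e (ψ t) = e (χ i t) := by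
  have hmono : ∀ j ≤ n + 1, ∀ i ≤ j, x i ≤ x j := by
    intro j hj i hi
    induction j, hi using Nat.le_induction with
    | base => exact le_rfl
    | succ k hk ih => exact (ih (by omega)).trans (hx k (by omega)).le
  have hM0 : 0 ≤ M := by
    have := (hg 0 (Nat.zero_le n)).2.1 0
    have h0 : (0 : ℝ) ≤ n / w := by positivity
    linarith [this.1, this.2]
  induction j with
  | zero =>
    refine ⟨χ 0, g 0, by simpa using hg 0 hj, fun i hi t _ _ => ?_⟩
    rw [Nat.le_zero.mp hi]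
  | succ j ih =>
    obtain ⟨ψ, h, hψ, hψ'⟩ := ih (by omega)
    have h1 : (0 : ℝ) ≤ j / w := by positivity
    have h2 : (0 : ℝ) ≤ j * (M / w + 2 / w ^ 2) := by positivity
    have h3 : (j : ℝ) / w ≤ n / w := by
      gcongr; omega
    obtain ⟨ψ', h', g', e1, e2⟩ := glue hψ ((hg (j + 1) hj).mono le_rfl (by linarith) (by linarith))
      (x (j + 1)) w M hw (by linarith)
    refine ⟨ψ', h', g'.mono le_rfl (le_of_eq ?_) (le_of_eq ?_), fun i hi t ht1 ht2 => ?_⟩
    · push_cast; ring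
    · push_cast; ring
    · rcases Nat.lt_or_eq_of_le hi with hi' | rfl
      · have ht3 : t ≤ x (i + 1) - w := ht2.resolve_left (by omega)
        have := hmono (j + 1) (by omega) (i + 1) (by omega)
        rw [e1 t (by linarith)]
        exact hψ' i (by omega) t ht1 (Or.inr ht3)
      · exact e2 t (ht1.resolve_left (by omega))

lemma tri_lip (s t : ℝ) : |(|s - round s|) - (|t - round t|)| ≤ |s - t| := by
  have h : ∀ s t : ℝ, |s - round s| ≤ |t - round t| + |s - t| := by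
    intro s t
    refine (round_le s (round t)).trans ?_
    have : s - round t = (t - round t) + (s - t) := by ring
    rw [this]; exact abs_add_le _ _
  rw [abs_le]
  constructor
  · have := h t s
    rw [abs_sub_comm t s] at this; linarith
  · linarith [h s t]

lemma tri_eq {t : ℝ} (ht : t ∈ Set.Icc (0 : ℝ) (1 / 2)) : |t - round t| = t := by
  rw [abs_sub_round_eq_min, Int.fract_eq_self.mpr ⟨ht.1, by linarith [ht.2]⟩]
  exact min_eq_left (by linarith [ht.2])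

lemma tri_neg (t : ℝ) : |-t - round (-t)| = |t - round t| := by
  have h : ∀ t : ℝ, |-t - round (-t)| ≤ |t - round t| := by
    intro t
    refine (round_le (-t) (-round t)).trans (le_of_eq ?_)
    rw [← abs_neg]; congr 1; push_cast; ring
  refine le_antisymm (h t) ?_
  have := h (-t)
  rwa [neg_neg] at this

lemma symmetrise {ψ h : ℝ → ℝ} {lo hi L : ℝ} (g : Good ψ h lo hi L) (hL : 0 ≤ L)
    (h0 : e (ψ 0) = 1) (h1 : e (ψ (1 / 2)) = 1) :
    ∃ χ h' : ℝ → ℝ, Good χ h' lo hi L ∧ (∀ t ∈ Set.Icc (0 : ℝ) (1 / 2), χ t = ψ t) ∧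
      (∀ t, e (χ (t + 1)) = e (χ t)) ∧ ∀ t, e (χ (1 - t)) = e (-χ t) := by
  obtain ⟨χ, hχ, hχ'⟩ := extend ψ h (fun t => |t - round t|) 0 (1 / 2) lo hi L hL
    (fun t _ => g.1 t) (fun t _ => g.2.1 t) (fun s _ t _ => g.2.2 s t)
    (fun t => ⟨abs_nonneg _, abs_sub_round t⟩) tri_lip (fun t ht => tri_eq ht)
  obtain ⟨n0, hn0⟩ := (e_eq_one_iff _).mp h0
  obtain ⟨n1, hn1⟩ := (e_eq_one_iff _).mp h1
  have hc := cont_of_lip hχ.2.2
  have e0 : χ 0 = n0 := by rw [hχ' 0 ⟨le_rfl, by norm_num⟩, hn0]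
  have e1 : χ (1 / 2) = n1 := by rw [hχ' _ ⟨by norm_num, le_rfl⟩, hn1]
  have hodd : ∀ t, χ (-t) = 2 * n0 - χ t := by
    intro t
    have := sub_eq (f := χ) (g := fun s => -χ (-s)) hc 0 t (fun s _ => hχ.1 s) (fun s _ => by
      have h2 := ((hχ.1 (-s)).comp s (hasDerivAt_neg s)).neg
      refine HasDerivAt.congr_deriv h2 ?_
      simp only [tri_neg]; ring)
    simp only [neg_zero] at this
    linarith
  have hper : ∀ t, χ (t + 1) = χ t + ((2 * n1 - 2 * n0 : ℤ) : ℝ) := by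
    intro t
    have := sub_eq (f := χ) (g := fun s => χ (s + 1)) hc (-(1 / 2)) t (fun s _ => hχ.1 s)
      (fun s _ => by
        have h2 := (hχ.1 (s + 1)).comp_add_const s 1
        refine HasDerivAt.congr_deriv h2 ?_
        simp only [round_add_one]
        congr 2; push_cast; ring)
    have e2 : (-(1 / 2) + 1 : ℝ) = 1 / 2 := by norm_num
    simp only [e2] at this
    have e3 := hodd (1 / 2)
    push_cast
    linarith
  refine ⟨χ, _, hχ, hχ', fun t => by rw [hper, e_add_int], fun t => ?_⟩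
  have : χ (1 - t) = -χ t + ((2 * n1 : ℤ) : ℝ) := by
    rw [sub_eq_neg_add, hper, hodd]; push_cast; ring
  rw [this, e_add_int]

lemma integral_sym (χ : ℝ → ℝ) (hc : Continuous χ) (hs : ∀ t, e (χ (1 - t)) = e (-χ t)) (k : ℕ) :
    ∫ s in (0 : ℝ)..1, e (χ s - k * s)
      = ((2 * (∫ s in (0 : ℝ)..1 / 2, e (χ s - k * s)).re : ℝ) : ℂ) := by
  rw [← intervalIntegral.integral_add_adjacent_intervals (b := 1 / 2)
    (by apply Continuous.intervalIntegrable; fun_prop)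
    (by apply Continuous.intervalIntegrable; fun_prop), ← Complex.add_conj]
  congr 1
  have h1 := intervalIntegral.integral_comp_sub_left (a := 0) (b := 1 / 2)
    (fun s => e (χ s - k * s)) 1
  have e1 : (1 : ℝ) - 1 / 2 = 1 / 2 := by norm_num
  rw [e1, sub_zero] at h1
  rw [← h1, ← intervalIntegral.intervalIntegral_conj]
  refine intervalIntegral.integral_congr fun s _ => ?_
  rw [← e_neg, sub_eq_add_neg, e_add, hs, ← e_add]
  have : -χ s + -((k : ℝ) * (1 - s)) = -(χ s - k * s) - ((k : ℤ) : ℝ) := by push_cast; ring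
  rw [this, e_sub_int]

lemma norm_integral_le (f : ℝ → ℂ) (hc : Continuous f) (hf : ∀ t, ‖f t‖ ≤ 2) (a b w : ℝ)
    (hab : a ≤ b) (hw : 0 < w) (h0 : ∀ t, a + w ≤ t → t ≤ b - w → f t = 0) :
    ‖∫ t in a..b, f t‖ ≤ 4 * w := by
  have h1 : ∀ u v : ℝ, ‖∫ t in u..v, f t‖ ≤ 2 * |v - u| := fun u v =>
    intervalIntegral.norm_integral_le_of_norm_le_const fun t _ => hf t
  by_cases h : a + w ≤ b - w
  · rw [← intervalIntegral.integral_add_adjacent_intervals (b := a + w)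
      (hc.intervalIntegrable _ _) (hc.intervalIntegrable _ _),
      ← intervalIntegral.integral_add_adjacent_intervals (a := a + w) (b := b - w)
      (hc.intervalIntegrable _ _) (hc.intervalIntegrable _ _)]
    have h2 : ∫ t in a + w..b - w, f t = 0 := by
      rw [intervalIntegral.integral_congr (g := fun _ => 0) (fun t ht => by
        rw [Set.uIcc_of_le h] at ht
        exact h0 t ht.1 ht.2)]
      simp
    rw [h2, zero_add]
    refine (norm_add_le _ _).trans ?_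
    have h3 := h1 a (a + w)
    have h4 := h1 (b - w) b
    rw [add_sub_cancel_left, abs_of_pos hw] at h3
    rw [sub_sub_cancel, abs_of_pos hw] at h4
    linarith
  · refine (h1 a b).trans ?_
    rw [abs_of_nonneg (by linarith)]
    linarith

lemma phase (n : ℕ) (x : ℕ → ℝ) (hx0 : x 0 = 0) (hxn : x (n + 1) = 1 / 2)
    (hx : ∀ j ≤ n, x j < x (j + 1)) (φ φ' : ℕ → ℝ → ℝ) (lo hi L w M : ℝ) (hw : 0 < w) (hL : 0 ≤ L)
    (hw1 : w ≤ x 1) (hw2 : x n + w ≤ 1 / 2) (hM : hi + n / w - lo ≤ M)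
    (hd : ∀ j ≤ n, ∀ θ, HasDerivAt (φ j) (φ' j θ) θ)
    (hb : ∀ j ≤ n, ∀ θ ∈ Set.Icc (x j) (x (j + 1)), lo ≤ φ' j θ ∧ φ' j θ ≤ hi)
    (hl : ∀ j ≤ n, ∀ θ ∈ Set.Icc (x j) (x (j + 1)), ∀ θ' ∈ Set.Icc (x j) (x (j + 1)),
      |φ' j θ - φ' j θ'| ≤ L * |θ - θ'|) (h0 : φ 0 0 = 0) (h1 : φ n (1 / 2) = 0) :
    ∃ χ h : ℝ → ℝ, Good χ h lo (hi + n / w) (L + n * (M / w + 2 / w ^ 2)) ∧
      (∀ t, e (χ (t + 1)) = e (χ t)) ∧ (∀ t, e (χ (1 - t)) = e (-χ t)) ∧
      ∀ k : ℕ, ‖(∫ s in (0 : ℝ)..1 / 2, e (χ s - k * s))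
        - ∑ j ∈ range (n + 1), ∫ s in x j..x (j + 1), e (φ j s - k * s)‖ ≤ (n + 1) * (4 * w) := by
  have hmono : ∀ j ≤ n + 1, ∀ i ≤ j, x i ≤ x j := by
    intro j hj i hi
    induction j, hi using Nat.le_induction with
    | base => exact le_rfl
    | succ k hk ih => exact (ih (by omega)).trans (hx k (by omega)).le
  have hext : ∀ j, ∃ χ g : ℝ → ℝ, j ≤ n → Good χ g lo hi L ∧
      ∀ t ∈ Set.Icc (x j) (x (j + 1)), χ t = φ j t := by
    intro j
    by_cases hj : j ≤ n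
    · obtain ⟨χ, hχ⟩ := extend (φ j) (φ' j) (fun t => max (x j) (min t (x (j + 1)))) (x j)
        (x (j + 1)) lo hi L hL (fun t _ => hd j hj t) (hb j hj) (hl j hj)
        (clamp_mem (hx j hj).le) (clamp_lip _ _) (fun t ht => clamp_eq ht)
      exact ⟨χ, _, fun _ => hχ⟩
    · exact ⟨φ j, φ' j, fun h => absurd h hj⟩
  choose χ g hχ using hext
  obtain ⟨ψ, h, hψ, hψ'⟩ := glue_all n x hx χ g lo hi L w M hw (fun j hj => (hχ j hj).1) hM n le_rfl
  have hM0 : 0 ≤ M := by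
    have := hψ.2.1 0
    linarith [this.1, this.2]
  have e0 : e (ψ 0) = 1 := by
    rw [hψ' 0 (Nat.zero_le n) 0 (Or.inl rfl) (Or.inr (by simpa using hw1)),
      (hχ 0 (Nat.zero_le n)).2 0 ⟨hx0.le, by simpa using hw.le.trans hw1⟩, h0, e_zero]
  have e1 : e (ψ (1 / 2)) = 1 := by
    rw [hψ' n le_rfl _ (Or.inr hw2) (Or.inl rfl),
      (hχ n le_rfl).2 _ ⟨by linarith, hxn.ge⟩, h1, e_zero]
  obtain ⟨ξ, h', hξ, hξ1, hξ2, hξ3⟩ := symmetrise hψ (by positivity) e0 e1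
  refine ⟨ξ, h', hξ, hξ2, hξ3, fun k => ?_⟩
  have hc : Continuous ξ := continuous_iff_continuousAt.mpr fun t => (hξ.1 t).continuousAt
  have h2 : ∫ s in (0 : ℝ)..1 / 2, e (ξ s - k * s)
      = ∑ j ∈ range (n + 1), ∫ s in x j..x (j + 1), e (ξ s - k * s) := by
    rw [intervalIntegral.sum_integral_adjacent_intervals (fun j _ => by
      apply Continuous.intervalIntegrable; fun_prop), hx0, hxn]
  rw [h2, ← sum_sub_distrib]
  refine (norm_sum_le _ _).trans ?_
  have h3 : ∀ j ∈ range (n + 1), ‖(∫ s in x j..x (j + 1), e (ξ s - k * s))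
      - ∫ s in x j..x (j + 1), e (φ j s - k * s)‖ ≤ 4 * w := by
    intro j hj
    have hj' : j ≤ n := by rw [mem_range] at hj; omega
    have hcj : Continuous (φ j) :=
      continuous_iff_continuousAt.mpr fun t => (hd j hj' t).continuousAt
    rw [← intervalIntegral.integral_sub (by apply Continuous.intervalIntegrable; fun_prop)
      (by apply Continuous.intervalIntegrable; fun_prop)]
    refine norm_integral_le _ (by fun_prop) (fun t => ?_) _ _ w (hx j hj').le hw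
      (fun t ht1 ht2 => ?_)
    · refine (norm_sub_le _ _).trans ?_
      simp only [norm_e]; norm_num
    · have a1 := hmono j (by omega) 0 (Nat.zero_le j)
      have a2 := hmono (n + 1) le_rfl (j + 1) (by omega)
      rw [e_sub, e_sub, hξ1 t ⟨by linarith, by linarith⟩, hψ' j hj' t (Or.inr ht1) (Or.inr ht2),
        (hχ j hj').2 t ⟨by linarith, by linarith⟩, sub_self]
  refine (sum_le_sum h3).trans (le_of_eq ?_)
  simp

end Reg

theorem reg_of : KernelStmt → RegStmt := by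
  intro hK c n x C δ hc hc2 hx0 hxn hx hδ
  obtain ⟨C₁, N₁, hC₁, hK⟩ := hK (c / 2) (by linarith) (by linarith)
  have hx1 : 0 < x 1 := by have := hx 0 (Nat.zero_le n); rwa [hx0] at this
  have hx2 : 0 < 1 / 2 - x n := by have := hx n le_rfl; rw [hxn] at this; linarith
  set a : ℝ := δ / (8 * (n + 1)) with ha
  have ha0 : 0 < a := by positivity
  set A : ℝ := |C| + n / a + 2 * n / a ^ 2 + 1 with hA
  have hA0 : 0 < A := by positivity
  set B : ℝ := 1 + a / x 1 + a / (1 / 2 - x n) + 2 * n / (a * c) + C₁ * A / δ with hB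
  have hB1 : 0 ≤ a / x 1 := by positivity
  have hB2 : 0 ≤ a / (1 / 2 - x n) := by positivity
  have hB3 : 0 ≤ 2 * n / (a * c) := by positivity
  have hB4 : 0 ≤ C₁ * A / δ := by positivity
  refine ⟨max N₁ ⌈B ^ 2⌉₊, fun N hN φ φ' hd hb hl h0 h1 => ?_⟩
  have hNB : B ^ 2 ≤ N := (Nat.le_ceil _).trans (by exact_mod_cast le_trans (le_max_right _ _) hN)
  set s : ℝ := √(N : ℝ) with hs
  have hsB : B ≤ s := Real.le_sqrt_of_sq_le hNB
  have hs1 : 1 ≤ s := by linarith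
  have hs0 : 0 < s := by linarith
  have hss : (N : ℝ) = s ^ 2 := (Real.sq_sqrt (Nat.cast_nonneg N)).symm
  have hN0 : (0 : ℝ) < N := by rw [hss]; positivity
  set w : ℝ := a / s with hw
  have hw0 : 0 < w := by positivity
  have hw1 : w ≤ x 1 := by
    have : a / x 1 ≤ s := by linarith
    rw [div_le_iff₀ hx1] at this
    rw [hw, div_le_iff₀ hs0]; linarith
  have hw2 : x n + w ≤ 1 / 2 := by
    have : a / (1 / 2 - x n) ≤ s := by linarith
    rw [div_le_iff₀ hx2] at this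
    have : w ≤ 1 / 2 - x n := by rw [hw, div_le_iff₀ hs0]; linarith
    linarith
  have hw3 : n / w ≤ c / 2 * N := by
    have h2 : 2 * n / (a * c) ≤ s := by linarith
    rw [div_le_iff₀ (by positivity)] at h2
    have : n / w = n * s / a := by rw [hw]; field_simp
    rw [this, div_le_iff₀ ha0, hss]
    nlinarith
  have hcN : 0 < c * N := by positivity
  obtain ⟨χ, h, hχ, hp, hsym, hint⟩ := Reg.phase n x hx0 hxn hx φ φ' (c * N) ((1 - c) * N)
    (|C| * N) w N hw0 (by positivity) hw1 hw2 (by linarith) hd hb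
    (fun j hj θ hθ θ' hθ' => (hl j hj θ hθ θ' hθ').trans (by gcongr; exact le_abs_self C)) h0 h1
  obtain ⟨W, hW, hW'⟩ := hK N (le_trans (le_max_left _ _) hN) χ h _ (by positivity) hχ.1
    (fun t => ⟨by linarith [(hχ.2.1 t).1], by linarith [(hχ.2.1 t).2]⟩) hχ.2.2 hp
  have hcχ : Continuous χ := continuous_iff_continuousAt.mpr fun t => (hχ.1 t).continuousAt
  refine ⟨fun k => s * (W k * (2 * (∫ t in (0 : ℝ)..1 / 2, e (χ t - k * t)).re)), fun k => ?_,
    fun θ => ?_⟩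
  · have h2 := (Complex.abs_re_le_norm _).trans (hint k)
    rw [Complex.sub_re, Complex.re_sum] at h2
    rw [← mul_sum]
    set I := (∫ t in (0 : ℝ)..1 / 2, e (χ t - k * t)).re
    set J := ∑ j ∈ range (n + 1), (∫ θ in x j..x (j + 1), e (φ j θ - k * θ)).re
    have h3 : |2 * I| ≤ |2 * J| + 2 * ((n + 1) * (4 * w)) := by
      rw [abs_mul, abs_mul, abs_two]
      have := abs_sub_abs_le_abs_sub I J
      linarith
    have h4 : s * (2 * ((n + 1) * (4 * w))) = δ := by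
      rw [hw, ha]; field_simp; ring
    simp only
    rw [abs_mul, abs_mul (W k), abs_of_pos hs0, abs_of_nonneg (hW k).1, ← h4, ← mul_add]
    refine mul_le_mul_of_nonneg_left ?_ hs0.le
    exact (mul_le_of_le_one_left (abs_nonneg _) (hW k).2).trans h3
  · have h2 : ∑ k ∈ range N, ((s * (W k * (2 * (∫ t in (0 : ℝ)..1 / 2, e (χ t - k * t)).re)) : ℝ) : ℂ)
        * e (k * θ) = (s : ℂ) * ∑ k ∈ range N,
          ((W k : ℂ) * ∫ t in (0 : ℝ)..1, e (χ t - k * t)) * e (k * θ) := by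
      rw [mul_sum]
      refine sum_congr rfl fun k _ => ?_
      rw [Reg.integral_sym χ hcχ hsym k]
      simp only [Complex.ofReal_mul]
      ring
    have h3 : C₁ * ((|C| * N + n * (N / w + 2 / w ^ 2)) / (N : ℝ) ^ 2 + 1 / N) ≤ δ := by
      have e1 : (|C| * N + n * (N / w + 2 / w ^ 2)) / (N : ℝ) ^ 2 + 1 / N
          = (|C| + 2 * n / a ^ 2 + 1) / s / s + n / a / s := by
        rw [hss, hw]; field_simp; ring
      have e2 : (|C| + 2 * n / a ^ 2 + 1) / s / s ≤ (|C| + 2 * n / a ^ 2 + 1) / s :=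
        div_le_self (by positivity) hs1
      have e3 : (|C| + 2 * n / a ^ 2 + 1) / s + n / a / s = A / s := by rw [hA]; ring
      have e4 : C₁ * A / δ ≤ s := by linarith
      rw [div_le_iff₀ hδ] at e4
      calc _ ≤ C₁ * (A / s) := by
            refine mul_le_mul_of_nonneg_left ?_ hC₁.le
            linarith
        _ = C₁ * A / s := by ring
        _ ≤ δ := by rw [div_le_iff₀ hs0]; linarith
    have h4 := (abs_norm_sub_norm_le _ _).trans ((hW' θ).trans h3)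
    simp only
    rw [h2, norm_mul, Complex.norm_real, Real.norm_eq_abs, abs_of_pos hs0]
    rw [norm_e] at h4
    rw [← mul_sub_one, abs_mul, abs_of_pos hs0, mul_comm δ]
    exact mul_le_mul_of_nonneg_left h4 hs0.le

end Vale.Agent.P110
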