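import Vale.Agent.P110.Stmts

/-! # P110: grid-to-circle bound and rounding to signs -/

namespace Vale.Agent.P110

open Finset

namespace Rounding

lemma parseval_grid (M n : ℕ) (hM : 0 < M) (hn : n ≤ M) (σ : ℤ) (hσ : σ = 1 ∨ σ = -1) (θ : ℝ) :
    ∑ j ∈ range M, ‖∑ a ∈ range n, e (σ * a * (θ - j / M))‖ ^ 2 = M * n := by
  apply Complex.ofReal_injective
  push_cast
  have h1 : ∀ j ∈ range M, ((‖∑ a ∈ range n, e (σ * a * (θ - j / M))‖ : ℝ) : ℂ) ^ 2 =
      ∑ a ∈ range n, ∑ l ∈ range n,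
        e (σ * (a - l) * θ) * e (((σ * (l - a) : ℤ) : ℝ) * (j / M)) := by
    intro j _
    have h2 := normSq_sum_e (range n) (fun _ => 1) (fun a => σ * a * (θ - j / M))
    simp only [one_mul, map_one] at h2
    push_cast at h2
    rw [h2]
    refine Finset.sum_congr rfl fun a _ => Finset.sum_congr rfl fun l _ => ?_
    rw [← e_add]
    congr 1
    push_cast
    ring
  rw [Finset.sum_congr rfl h1, Finset.sum_comm]
  have h3 : ∀ a ∈ range n, ∑ j ∈ range M, ∑ l ∈ range n,
      e (σ * (a - l) * θ) * e (((σ * (l - a) : ℤ) : ℝ) * (j / M)) = M := by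
    intro a ha
    rw [Finset.sum_comm, Finset.sum_eq_single a]
    · rw [← Finset.mul_sum, sum_e_grid M hM]
      simp
    · intro l hl hla
      rw [← Finset.mul_sum, sum_e_grid M hM, if_neg, mul_zero]
      intro hd
      have ha' := mem_range.1 ha
      have hl' := mem_range.1 hl
      have h4 : σ * ((l : ℤ) - a) = 0 := by
        apply Int.eq_zero_of_abs_lt_dvd hd
        rcases hσ with rfl | rfl <;> rw [abs_lt] <;> constructor <;> omega
      rcases hσ with rfl | rfl <;> omega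
    · intro h; exact absurd ha h
  rw [Finset.sum_congr rfl h3]
  simp [mul_comm]

end Rounding

open Rounding in
theorem grid : GridStmt := by
  intro N c D hN hD θ
  set M := 2 * N with hM
  have hM0 : 0 < M := by omega
  have hD0 : 0 ≤ D := le_trans (norm_nonneg _) (hD 0 hM0)
  have hid : ∑ j ∈ range M, (∑ k ∈ range N, c k * e (k * ((j : ℝ) / (M : ℝ)))) *
      ((∑ a ∈ range M, e (((1 : ℤ) : ℝ) * a * (θ - j / M))) *
        (∑ b ∈ range N, e (((-1 : ℤ) : ℝ) * b * (θ - j / M)))) =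
      (N * M : ℂ) * ∑ k ∈ range N, c k * e (k * θ) := by
    have h1 : ∀ j ∈ range M, (∑ k ∈ range N, c k * e (k * ((j : ℝ) / (M : ℝ)))) *
        ((∑ a ∈ range M, e (((1 : ℤ) : ℝ) * a * (θ - j / M))) *
          (∑ b ∈ range N, e (((-1 : ℤ) : ℝ) * b * (θ - j / M)))) =
        ∑ k ∈ range N, ∑ b ∈ range N, ∑ a ∈ range M,
          c k * e ((a - b) * θ) * e ((((k : ℤ) + b - a : ℤ) : ℝ) * (j / M)) := by
      intro j _
      rw [Finset.sum_mul]
      refine Finset.sum_congr rfl fun k _ => ?_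
      rw [mul_comm (∑ a ∈ range M, _), Finset.sum_mul_sum, Finset.mul_sum]
      refine Finset.sum_congr rfl fun b _ => ?_
      rw [Finset.mul_sum]
      refine Finset.sum_congr rfl fun a _ => ?_
      rw [mul_assoc (c k), mul_assoc (c k), ← e_add, ← e_add, ← e_add]
      congr 2
      push_cast
      ring
    rw [Finset.sum_congr rfl h1, Finset.sum_comm, Finset.mul_sum]
    refine Finset.sum_congr rfl fun k hk => ?_
    rw [Finset.sum_comm]
    have h2 : ∀ b ∈ range N, ∑ j ∈ range M, ∑ a ∈ range M,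
        c k * e ((a - b) * θ) * e ((((k : ℤ) + b - a : ℤ) : ℝ) * (j / M)) =
        M * (c k * e (k * θ)) := by
      intro b hb
      have hk' := mem_range.1 hk
      have hb' := mem_range.1 hb
      rw [Finset.sum_comm, Finset.sum_eq_single (k + b)]
      · rw [← Finset.mul_sum, sum_e_grid M hM0, if_pos (by push_cast; simp), mul_comm]
        congr 3
        push_cast
        ring
      · intro a ha hab
        have ha' := mem_range.1 ha
        rw [← Finset.mul_sum, sum_e_grid M hM0, if_neg, mul_zero]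
        intro hd
        have h4 : ((k : ℤ) + b - a) = 0 := by
          apply Int.eq_zero_of_abs_lt_dvd hd
          rw [abs_lt]; constructor <;> omega
        omega
      · intro h
        exact absurd (mem_range.2 (by omega)) h
    rw [Finset.sum_congr rfl h2, Finset.sum_const, card_range, nsmul_eq_mul]
    ring
  have hP1 := parseval_grid M M hM0 le_rfl 1 (Or.inl rfl) θ
  have hP2 := parseval_grid M N hM0 (by omega) (-1) (Or.inr rfl) θ
  have hb : ‖(N * M : ℂ) * ∑ k ∈ range N, c k * e (k * θ)‖ ≤ D * ((M : ℝ) * M / 4 + M * N) := by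
    rw [← hid, ← hP1, ← hP2, Finset.sum_div, ← Finset.sum_add_distrib, Finset.mul_sum]
    refine (norm_sum_le _ _).trans (Finset.sum_le_sum fun j hj => ?_)
    rw [norm_mul, norm_mul]
    refine mul_le_mul (hD j (mem_range.1 hj)) ?_ (by positivity) hD0
    nlinarith [sq_nonneg (‖∑ a ∈ range M, e (((1 : ℤ) : ℝ) * a * (θ - j / M))‖ / 2 -
      ‖∑ b ∈ range N, e (((-1 : ℤ) : ℝ) * b * (θ - j / M))‖)]
  rw [norm_mul, norm_mul, Complex.norm_natCast, Complex.norm_natCast] at hb
  have hN' : (0 : ℝ) < N := by exact_mod_cast hN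
  have hM' : (M : ℝ) = 2 * N := by rw [hM]; push_cast; ring
  rw [hM'] at hb
  have h5 : (N : ℝ) * (2 * N) * ‖∑ k ∈ range N, c k * e (k * θ)‖ ≤ (N : ℝ) * (2 * N) * (2 * D) := by
    have : 0 ≤ D * ((N : ℝ) * N) := by positivity
    nlinarith
  exact le_of_mul_le_mul_left h5 (by positivity)

namespace Rounding

lemma sqrt_sqrt_mul_le {a x y : ℝ} (ha : 0 ≤ a) (h : x ≤ a ^ 4 * y) : √(√x) ≤ a * √(√y) := by
  have e1 : a ^ 4 = (a ^ 2) ^ 2 := by ring
  have h1 : a * √(√y) = √(√(a ^ 4 * y)) := by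
    rw [e1, Real.sqrt_mul (sq_nonneg (a ^ 2)), Real.sqrt_sq (by positivity),
      Real.sqrt_mul (sq_nonneg a), Real.sqrt_sq ha]
  rw [h1]
  exact Real.sqrt_le_sqrt (Real.sqrt_le_sqrt h)

lemma trig_spencer (hS : SpencerStmt) : ∃ C : ℝ, 0 < C ∧ ∀ (N : ℕ) (S : Finset ℕ) (x : ℕ → ℝ),
    0 < N → S ⊆ range N → ∃ χ : ℕ → ℝ, (∀ k, χ k = 1 ∨ χ k = -1) ∧ 0 ≤ ∑ k ∈ S, χ k * x k ∧
      ∀ θ : ℝ, ‖∑ k ∈ S, (χ k : ℂ) * e (k * θ)‖ ≤ C * √(√((S.card : ℝ) * N)) := by
  classical
  obtain ⟨C, hC, h⟩ := hS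
  refine ⟨8 * C, by positivity, fun N S x hN hSN => ?_⟩
  let A : ℕ → ℕ → ℝ := fun i k => if i < 2 * N then (e (k * ((i : ℝ) / ((2 * N : ℕ) : ℝ)))).re
    else (e (k * (((i - 2 * N : ℕ) : ℝ) / ((2 * N : ℕ) : ℝ)))).im
  have hA : ∀ i k, |A i k| ≤ 1 := by
    intro i k
    simp only [A]
    split_ifs
    · exact (Complex.abs_re_le_norm _).trans (norm_e _).le
    · exact (Complex.abs_im_le_norm _).trans (norm_e _).le
  have hcard : S.card ≤ N := by simpa using Finset.card_le_card hSN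
  obtain ⟨χ, hχ, hb⟩ := h (4 * N) S A hA (by omega)
  have hsq : √(√((S.card : ℝ) * ((4 * N : ℕ) : ℝ))) ≤ 2 * √(√((S.card : ℝ) * N)) := by
    apply sqrt_sqrt_mul_le (by norm_num)
    have : (0 : ℝ) ≤ (S.card : ℝ) * N := by positivity
    push_cast
    nlinarith
  have hconv : ∀ t : ℝ, ∑ k ∈ range N, (if k ∈ S then (χ k : ℂ) else 0) * e (k * t) =
      ∑ k ∈ S, (χ k : ℂ) * e (k * t) := by
    intro t
    rw [← Finset.sum_subset hSN]
    · exact Finset.sum_congr rfl fun k hk => by rw [if_pos hk]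
    · intro k _ hk
      rw [if_neg hk, zero_mul]
  have hmain : ∀ θ : ℝ, ‖∑ k ∈ S, (χ k : ℂ) * e (k * θ)‖ ≤ 8 * C * √(√((S.card : ℝ) * N)) := by
    intro θ
    have hg := grid N (fun k => if k ∈ S then (χ k : ℂ) else 0)
      (4 * C * √(√((S.card : ℝ) * N))) hN (fun j hj => by
        rw [hconv]
        refine (Complex.norm_le_abs_re_add_abs_im _).trans ?_
        have h1 := hb j (by omega)
        have h2 := hb (j + 2 * N) (by omega)
        simp only [A, if_pos hj] at h1
        simp only [A, if_neg (by omega : ¬ j + 2 * N < 2 * N), Nat.add_sub_cancel] at h2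
        rw [Complex.re_sum, Complex.im_sum]
        simp only [Complex.re_ofReal_mul, Complex.im_ofReal_mul]
        have h3 := mul_le_mul_of_nonneg_left hsq hC.le
        linarith) θ
    rw [hconv] at hg
    linarith
  rcases le_total 0 (∑ k ∈ S, χ k * x k) with h0 | h0
  · exact ⟨χ, hχ, h0, hmain⟩
  · refine ⟨fun k => - χ k, fun k => ?_, ?_, fun θ => ?_⟩
    · rcases hχ k with h | h <;> simp [h]
    · simp only [neg_mul, Finset.sum_neg_distrib]
      linarith
    · have := hmain θ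
      simp only [Complex.ofReal_neg, neg_mul, Finset.sum_neg_distrib, norm_neg]
      exact this

lemma round_dyadic (C : ℝ) (hC : 0 < C) (N : ℕ) (hN : 0 < N)
    (h : ∀ (S : Finset ℕ) (x : ℕ → ℝ), S ⊆ range N →
      ∃ χ : ℕ → ℝ, (∀ k, χ k = 1 ∨ χ k = -1) ∧ 0 ≤ ∑ k ∈ S, χ k * x k ∧
      ∀ θ : ℝ, ‖∑ k ∈ S, (χ k : ℂ) * e (k * θ)‖ ≤ C * √(√((S.card : ℝ) * N))) (V : ℝ) :
    ∀ (l : ℕ) (j : ℕ → ℕ), (∀ k, j k ≤ 2 ^ l) →
      ∑ k ∈ range N, (1 - (2 * (j k : ℝ) / 2 ^ l - 1) ^ 2) ≤ V →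
      ∃ ε : ℕ → ℝ, (∀ k, ε k = 1 ∨ ε k = -1) ∧ ∀ θ : ℝ,
        ‖∑ k ∈ range N, ((ε k - (2 * (j k : ℝ) / 2 ^ l - 1) : ℝ) : ℂ) * e (k * θ)‖ ≤
          C * √(√(V * N)) * (5 / 2 * (1 - (3 / 5) ^ l)) := by
  classical
  intro l
  induction l with
  | zero =>
    intro j hj _
    refine ⟨fun k => 2 * (j k : ℝ) / 2 ^ 0 - 1, fun k => ?_, fun θ => by simp⟩
    have := hj k
    have h2 : j k = 0 ∨ j k = 1 := by omega
    rcases h2 with h2 | h2 <;> simp only [h2] <;> norm_num
  | succ l ih =>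
    intro j hj hV
    set x : ℕ → ℝ := fun k => 2 * (j k : ℝ) / 2 ^ (l + 1) - 1 with hx
    set S := (range N).filter (fun k => j k % 2 = 1) with hS
    have hSN : S ⊆ range N := Finset.filter_subset _ _
    obtain ⟨χ, hχ, hpos, hb⟩ := h S x hSN
    let j' : ℕ → ℕ := fun k => if k ∈ S ∧ χ k = 1 then (j k + 1) / 2 else j k / 2
    have hp : (0 : ℝ) < 2 ^ l := by positivity
    have hj' : ∀ k, j' k ≤ 2 ^ l := by
      intro k
      have h1 := hj k
      rw [pow_succ] at h1
      simp only [j']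
      split_ifs <;> omega
    have hrel : ∀ k ∈ range N, 2 * (j' k : ℝ) / 2 ^ l - 1 =
        x k + (if k ∈ S then χ k / 2 ^ l else 0) := by
      intro k hk
      simp only [hx, j']
      by_cases hkS : k ∈ S
      · have hodd : j k % 2 = 1 := (mem_filter.1 hkS).2
        rcases hχ k with h1 | h1
        · rw [if_pos ⟨hkS, h1⟩, if_pos hkS, h1]
          have h2 : 2 * ((j k + 1) / 2) = j k + 1 := by omega
          have h3 : 2 * (((j k + 1) / 2 : ℕ) : ℝ) = j k + 1 := by exact_mod_cast h2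
          rw [h3, pow_succ]
          field_simp
          ring
        · rw [if_neg (fun h => by rw [h1] at h; norm_num at h), if_pos hkS, h1]
          have h2 : 2 * (j k / 2) + 1 = j k := by omega
          have h3 : 2 * ((j k / 2 : ℕ) : ℝ) = j k - 1 := by
            have : 2 * ((j k / 2 : ℕ) : ℝ) + 1 = j k := by exact_mod_cast h2
            linarith
          rw [h3, pow_succ]
          field_simp
          ring
      · rw [if_neg (fun h => hkS h.1), if_neg hkS]
        have hev : ¬ j k % 2 = 1 := fun h => hkS (mem_filter.2 ⟨hk, h⟩)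
        have h2 : 2 * (j k / 2) = j k := by omega
        have h3 : 2 * ((j k / 2 : ℕ) : ℝ) = j k := by exact_mod_cast h2
        rw [h3, pow_succ]
        field_simp
        ring
    have hite : ∀ f : ℕ → ℝ, ∑ k ∈ range N, (if k ∈ S then f k else 0) = ∑ k ∈ S, f k := by
      intro f
      rw [← Finset.sum_subset hSN]
      · exact Finset.sum_congr rfl fun k hk => by rw [if_pos hk]
      · intro k _ hk
        rw [if_neg hk]
    have hV' : ∑ k ∈ range N, (1 - (2 * (j' k : ℝ) / 2 ^ l - 1) ^ 2) ≤ V := by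
      refine le_trans ?_ hV
      have h1 : ∀ k ∈ range N, (1 - (2 * (j' k : ℝ) / 2 ^ l - 1) ^ 2) ≤
          (1 - x k ^ 2) - (if k ∈ S then (χ k * x k) * (2 / 2 ^ l) else 0) := by
        intro k hk
        rw [hrel k hk]
        split_ifs
        · have : (x k + χ k / 2 ^ l) ^ 2 = x k ^ 2 + χ k * x k * (2 / 2 ^ l) + (χ k / 2 ^ l) ^ 2 := by
            ring
          rw [this]
          linarith [sq_nonneg (χ k / 2 ^ l)]
        · simp
      refine (Finset.sum_le_sum h1).trans ?_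
      rw [Finset.sum_sub_distrib, hite, ← Finset.sum_mul]
      have : 0 ≤ (∑ k ∈ S, χ k * x k) * (2 / 2 ^ l) := by positivity
      linarith
    obtain ⟨ε, hε, hbε⟩ := ih j' hj' hV'
    refine ⟨ε, hε, fun θ => ?_⟩
    have hcard : (S.card : ℝ) ≤ 2 ^ l * V := by
      have h1 : ∀ k ∈ range N, (if k ∈ S then (1 : ℝ) else 0) ≤ 2 ^ l * (1 - x k ^ 2) := by
        intro k _
        have h2 := hj k
        have h3 : (j k : ℝ) ≤ 2 ^ (l + 1) := by exact_mod_cast h2
        have h4 : 2 ^ l * (1 - x k ^ 2) = (j k : ℝ) * (2 * 2 ^ l - j k) / 2 ^ l := by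
          simp only [hx]
          rw [pow_succ]
          field_simp
          ring
        rw [h4]
        rw [pow_succ] at h3
        split_ifs with hkS
        · have hodd : j k % 2 = 1 := (mem_filter.1 hkS).2
          have h5 : 1 ≤ j k := by omega
          have h6 : j k + 1 ≤ 2 ^ (l + 1) := by
            have : 2 ^ (l + 1) = 2 * 2 ^ l := by ring
            omega
          have h5' : (1 : ℝ) ≤ j k := by exact_mod_cast h5
          have h6' : (j k : ℝ) + 1 ≤ 2 ^ (l + 1) := by exact_mod_cast h6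
          have h7 : (1 : ℝ) ≤ 2 ^ l := one_le_pow₀ (by norm_num)
          rw [pow_succ] at h6'
          rw [le_div_iff₀ hp]
          nlinarith
        · apply div_nonneg _ hp.le
          apply mul_nonneg (by positivity)
          linarith
      have h2 := Finset.sum_le_sum h1
      rw [hite, ← Finset.mul_sum] at h2
      simp only [Finset.sum_const, nsmul_eq_mul, mul_one] at h2
      exact h2.trans (mul_le_mul_of_nonneg_left hV hp.le)
    have hN' : (0 : ℝ) < N := by exact_mod_cast hN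
    have hsq : √(√((S.card : ℝ) * N)) ≤ (6 / 5) ^ l * √(√(V * N)) := by
      apply sqrt_sqrt_mul_le (by positivity)
      have hV0 : 0 ≤ V := by
        have : (0 : ℝ) ≤ 2 ^ l * V := le_trans (by positivity) hcard
        exact nonneg_of_mul_nonneg_right this hp
      have h1 : (2 : ℝ) ^ l ≤ ((6 / 5) ^ l) ^ 4 := by
        rw [← pow_mul, mul_comm, pow_mul]
        exact pow_le_pow_left₀ (by norm_num) (by norm_num) l
      calc (S.card : ℝ) * N ≤ (2 ^ l * V) * N := by gcongr
        _ = 2 ^ l * (V * N) := by ring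
        _ ≤ _ := by gcongr
    have hsplit : ∑ k ∈ range N, ((ε k - x k : ℝ) : ℂ) * e (k * θ) =
        ∑ k ∈ range N, ((ε k - (2 * (j' k : ℝ) / 2 ^ l - 1) : ℝ) : ℂ) * e (k * θ) +
          (((1 / 2 ^ l : ℝ)) : ℂ) * ∑ k ∈ S, (χ k : ℂ) * e (k * θ) := by
      have h1 : ∑ k ∈ S, (χ k : ℂ) * e (k * θ) =
          ∑ k ∈ range N, (if k ∈ S then (χ k : ℂ) * e (k * θ) else 0) := by
        rw [← Finset.sum_subset hSN]
        · exact Finset.sum_congr rfl fun k hk => by rw [if_pos hk]
        · intro k _ hk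
          rw [if_neg hk]
      rw [h1, Finset.mul_sum, ← Finset.sum_add_distrib]
      refine Finset.sum_congr rfl fun k hk => ?_
      rw [hrel k hk]
      split_ifs
      · push_cast; ring
      · push_cast; ring
    have h1 := hbε θ
    have h2 := hb θ
    have h3 : ‖(((1 / 2 ^ l : ℝ)) : ℂ) * ∑ k ∈ S, (χ k : ℂ) * e (k * θ)‖ ≤
        C * √(√(V * N)) * (3 / 5) ^ l := by
      rw [norm_mul, Complex.norm_real, Real.norm_eq_abs, abs_of_pos (by positivity)]
      calc _ ≤ 1 / 2 ^ l * (C * ((6 / 5) ^ l * √(√(V * N)))) := by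
            apply mul_le_mul_of_nonneg_left _ (by positivity)
            exact h2.trans (mul_le_mul_of_nonneg_left hsq hC.le)
        _ = C * √(√(V * N)) * ((6 / 5) ^ l / 2 ^ l) := by ring
        _ = _ := by rw [← div_pow]; norm_num
    change ‖∑ k ∈ range N, ((ε k - x k : ℝ) : ℂ) * e (k * θ)‖ ≤ _
    rw [hsplit]
    refine (norm_add_le _ _).trans ((add_le_add h1 h3).trans (le_of_eq ?_))
    ring

end Rounding

open Rounding in
theorem rounding_of (hS : SpencerStmt) : RoundingStmt := by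
  obtain ⟨C, hC, h⟩ := trig_spencer hS
  refine ⟨5 / 2 * C + 1, by positivity, fun N x hx => ?_⟩
  rcases Nat.eq_zero_or_pos N with rfl | hN
  · exact ⟨fun _ => 1, fun _ => Or.inl rfl, fun θ => by simp⟩
  have hN' : (1 : ℝ) ≤ N := by exact_mod_cast hN
  set l := N + 3 with hl
  have hp : (0 : ℝ) < 2 ^ l := by positivity
  have hl2 : 8 * (N : ℝ) ≤ 2 ^ l := by
    have h1 : N ≤ 2 ^ N := Nat.lt_two_pow_self.le
    have h2 : 8 * N ≤ 2 ^ l := by rw [hl, pow_add]; omega
    exact_mod_cast h2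
  let j : ℕ → ℕ := fun k => ⌊(x k + 1) * 2 ^ l / 2⌋₊
  have hj : ∀ k, j k ≤ 2 ^ l := by
    intro k
    apply Nat.floor_le_of_le
    have := (abs_le.1 (hx k)).2
    push_cast
    nlinarith
  set y : ℕ → ℝ := fun k => 2 * (j k : ℝ) / 2 ^ l - 1 with hy
  have hxy : ∀ k, y k ≤ x k ∧ x k - y k ≤ 1 / (4 * N) ∧ -1 ≤ y k := by
    intro k
    have h0 := (abs_le.1 (hx k)).1
    have h1 : (j k : ℝ) ≤ (x k + 1) * 2 ^ l / 2 := Nat.floor_le (by
      have : 0 ≤ x k + 1 := by linarith
      positivity)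
    have h2 : (x k + 1) * 2 ^ l / 2 < j k + 1 := Nat.lt_floor_add_one _
    refine ⟨?_, ?_, ?_⟩
    · simp only [hy]
      rw [sub_le_iff_le_add, div_le_iff₀ hp]
      linarith
    · have h3 : x k - y k ≤ 2 / 2 ^ l := by
        simp only [hy]
        have : x k - (2 * (j k : ℝ) / 2 ^ l - 1) = ((x k + 1) * 2 ^ l - 2 * j k) / 2 ^ l := by
          field_simp
          ring
        rw [this]
        gcongr
        linarith
      refine h3.trans ?_
      rw [div_le_div_iff₀ hp (by positivity)]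
      linarith
    · simp only [hy]
      have : 0 ≤ 2 * (j k : ℝ) / 2 ^ l := by positivity
      linarith
  set V : ℝ := ∑ k ∈ range N, (1 - x k ^ 2) + 1 with hV
  have hV1 : 1 ≤ V := by
    have : 0 ≤ ∑ k ∈ range N, (1 - x k ^ 2) := Finset.sum_nonneg fun k _ => by
      have := abs_le.1 (hx k)
      nlinarith
    linarith
  have hVy : ∑ k ∈ range N, (1 - y k ^ 2) ≤ V := by
    have h1 : ∀ k ∈ range N, 1 - y k ^ 2 ≤ (1 - x k ^ 2) + 1 / N := by
      intro k _
      obtain ⟨h2, h3, h4⟩ := hxy k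
      have h5 := abs_le.1 (hx k)
      have h6 : (1 : ℝ) / N = 4 * (1 / (4 * N)) := by field_simp
      have h7 : (0 : ℝ) ≤ 1 / (4 * N) := by positivity
      rw [h6]
      nlinarith
    refine (Finset.sum_le_sum h1).trans (le_of_eq ?_)
    rw [Finset.sum_add_distrib, Finset.sum_const, card_range, nsmul_eq_mul, hV]
    field_simp
  obtain ⟨ε, hε, hb⟩ := round_dyadic C hC N hN (fun S x => h N S x hN) V l j hj hVy
  refine ⟨ε, hε, fun θ => ?_⟩
  have hsplit : ∑ k ∈ range N, ((ε k - x k : ℝ) : ℂ) * e (k * θ) =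
      ∑ k ∈ range N, ((ε k - y k : ℝ) : ℂ) * e (k * θ) +
        ∑ k ∈ range N, ((y k - x k : ℝ) : ℂ) * e (k * θ) := by
    rw [← Finset.sum_add_distrib]
    refine Finset.sum_congr rfl fun k _ => ?_
    push_cast; ring
  have h1 : ‖∑ k ∈ range N, ((y k - x k : ℝ) : ℂ) * e (k * θ)‖ ≤ 1 := by
    refine (norm_sum_le _ _).trans ?_
    calc _ ≤ ∑ _k ∈ range N, (1 : ℝ) / (4 * N) := by
          refine Finset.sum_le_sum fun k _ => ?_
          obtain ⟨h2, h3, -⟩ := hxy k
          rw [norm_mul, norm_e, mul_one, Complex.norm_real, Real.norm_eq_abs, abs_sub_comm,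
            abs_of_nonneg (by linarith)]
          exact h3
      _ = 1 / 4 := by
          rw [Finset.sum_const, card_range, nsmul_eq_mul]
          field_simp
      _ ≤ 1 := by norm_num
  have h2 : 1 ≤ √(√(V * N)) := by
    rw [Real.one_le_sqrt, Real.one_le_sqrt]
    nlinarith
  have h3 := hb θ
  have h4 : C * √(√(V * N)) * (5 / 2 * (1 - (3 / 5) ^ l)) ≤ C * √(√(V * N)) * (5 / 2) := by
    apply mul_le_mul_of_nonneg_left _ (by positivity)
    have : (0 : ℝ) ≤ (3 / 5) ^ l := by positivity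
    linarith
  rw [hsplit]
  refine (norm_add_le _ _).trans ?_
  have h5 : ‖∑ k ∈ range N, ((ε k - y k : ℝ) : ℂ) * e (k * θ)‖ ≤
      C * √(√(V * N)) * (5 / 2) := h3.trans h4
  nlinarith

end Vale.Agent.P110
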