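import Vale.Agent.P110.Stmts

/-! # P110: Spencer-type discrepancy bound by the partial colouring method -/

namespace Vale.Agent.P110

open Finset

namespace Spencer

lemma sum_powerset_prod (S : Finset ℕ) (f g : ℕ → ℝ) :
    ∑ T ∈ S.powerset, ∏ k ∈ S, (if k ∈ T then f k else g k) = ∏ k ∈ S, (f k + g k) := by
  rw [Finset.prod_add]
  refine Finset.sum_congr rfl fun T hT => ?_
  have hTS := mem_powerset.1 hT
  rw [Finset.prod_ite]
  congr 2
  · ext k
    simp only [mem_filter]
    exact ⟨fun h => h.2, fun h => ⟨hTS h, h⟩⟩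
  · ext k
    simp

/-- signed sum -/
noncomputable def L (S : Finset ℕ) (a : ℕ → ℝ) (T : Finset ℕ) : ℝ :=
  ∑ k ∈ S, (if k ∈ T then a k else - a k)

lemma sum_exp_le (S : Finset ℕ) (a : ℕ → ℝ) (ha : ∀ k, |a k| ≤ 1) (t : ℝ)
    (ht : t ^ 2 * S.card ≤ 1) :
    ∑ T ∈ S.powerset, Real.exp (t * L S a T) ≤ 2 * 2 ^ S.card := by
  have h1 : ∀ T : Finset ℕ, Real.exp (t * L S a T) =
      ∏ k ∈ S, (if k ∈ T then Real.exp (t * a k) else Real.exp (-(t * a k))) := by
    intro T
    rw [L, Finset.mul_sum, Real.exp_sum]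
    refine Finset.prod_congr rfl fun k _ => ?_
    split_ifs <;> simp
  simp_rw [h1]
  rw [sum_powerset_prod]
  have h2 : ∀ k ∈ S, Real.exp (t * a k) + Real.exp (-(t * a k)) ≤ 2 * Real.exp (t ^ 2 / 2) := by
    intro k _
    have h3 := Real.cosh_le_exp_half_sq (t * a k)
    rw [Real.cosh_eq] at h3
    have h4 : (t * a k) ^ 2 / 2 ≤ t ^ 2 / 2 := by
      have : a k ^ 2 ≤ 1 := by
        have := ha k
        rw [← sq_abs]
        nlinarith [abs_nonneg (a k)]
      nlinarith [sq_nonneg t]
    have h5 := Real.exp_le_exp.2 h4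
    linarith
  calc _ ≤ ∏ _k ∈ S, (2 * Real.exp (t ^ 2 / 2)) :=
        Finset.prod_le_prod (fun k _ => by positivity) h2
    _ = 2 ^ S.card * Real.exp (t ^ 2 * S.card / 2) := by
        rw [Finset.prod_const, mul_pow, ← Real.exp_nat_mul]
        congr 2
        ring
    _ ≤ 2 ^ S.card * 2 := by
        apply mul_le_mul_of_nonneg_left _ (by positivity)
        have h6 : Real.exp (t ^ 2 * S.card / 2) ≤ Real.exp (1 / 2) :=
          Real.exp_le_exp.2 (by linarith)
        have h7 : Real.exp (1 / 2) * Real.exp (1 / 2) = Real.exp 1 := by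
          rw [← Real.exp_add]; norm_num
        have h8 := Real.exp_one_lt_d9
        have h9 := Real.exp_pos (1 / 2)
        nlinarith
    _ = _ := by ring

lemma sum_pow_eight_le (S : Finset ℕ) (hS : 0 < S.card) (a : ℕ → ℝ) (ha : ∀ k, |a k| ≤ 1) :
    ∑ T ∈ S.powerset, L S a T ^ 8 ≤ 161280 * 2 ^ S.card * (S.card : ℝ) ^ 4 := by
  have hn : (0 : ℝ) < S.card := by exact_mod_cast hS
  set t : ℝ := 1 / √(S.card : ℝ) with ht
  have ht2 : t ^ 2 * S.card = 1 := by
    rw [ht, div_pow, Real.sq_sqrt hn.le]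
    field_simp
  have h1 := sum_exp_le S a ha t ht2.le
  have h2 := sum_exp_le S a ha (-t) (by rw [neg_sq]; exact ht2.le)
  have h3 : ∀ T ∈ S.powerset, L S a T ^ 8 ≤
      (40320 * (S.card : ℝ) ^ 4) * (Real.exp (t * L S a T) + Real.exp (-t * L S a T)) := by
    intro T _
    set y := t * L S a T with hy
    have h4 := Real.pow_div_factorial_le_exp |y| (abs_nonneg y) 8
    have h5 : Real.exp |y| ≤ Real.exp y + Real.exp (-y) := by
      rcases abs_cases y with h | h <;> rw [h.1] <;> linarith [Real.exp_pos y, Real.exp_pos (-y)]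
    have h6 : |y| ^ 8 = y ^ 8 := by
      have : Even 8 := by decide
      exact this.pow_abs y
    have h7 : ((Nat.factorial 8 : ℕ) : ℝ) = 40320 := by norm_num [Nat.factorial]
    rw [h6, h7, div_le_iff₀ (by norm_num)] at h4
    have h8 : L S a T ^ 8 = (S.card : ℝ) ^ 4 * y ^ 8 := by
      have : (S.card : ℝ) ^ 4 * y ^ 8 = (t ^ 2 * S.card) ^ 4 * L S a T ^ 8 := by rw [hy]; ring
      rw [this, ht2]; ring
    have h9 : -t * L S a T = -y := by rw [hy]; ring
    rw [h8, h9]
    have h10 : y ^ 8 ≤ 40320 * (Real.exp y + Real.exp (-y)) := by linarith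
    calc _ ≤ (S.card : ℝ) ^ 4 * (40320 * (Real.exp y + Real.exp (-y))) := by gcongr
      _ = _ := by ring
  refine (Finset.sum_le_sum h3).trans ?_
  rw [← Finset.mul_sum, Finset.sum_add_distrib]
  calc _ ≤ (40320 * (S.card : ℝ) ^ 4) * (2 * 2 ^ S.card + 2 * 2 ^ S.card) := by gcongr
    _ = _ := by ring

lemma abs_round_le (y : ℝ) : ((round y).natAbs : ℝ) ≤ (2 * y) ^ 8 := by
  by_cases h : round y = 0
  · rw [h]; simp; positivity
  · have h1 := abs_sub_round y
    have h2 : (1 : ℝ) ≤ |(round y : ℝ)| := by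
      have := Int.one_le_abs h
      exact_mod_cast this
    have h3 : |(round y : ℝ)| ≤ |y| + 1 / 2 := by
      have := abs_sub_abs_le_abs_sub (round y : ℝ) y
      rw [abs_sub_comm] at this
      linarith
    have h4 : 1 ≤ |2 * y| := by rw [abs_mul, abs_two]; linarith
    have h5 : ((round y).natAbs : ℝ) = |(round y : ℝ)| := by
      rw [Nat.cast_natAbs, Int.cast_abs]
    have h6 : |2 * y| ^ 8 = (2 * y) ^ 8 := by
      have : Even 8 := by decide
      exact this.pow_abs _
    rw [h5, ← h6]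
    calc |(round y : ℝ)| ≤ |2 * y| := by rw [abs_mul, abs_two] at h4 ⊢; linarith
      _ ≤ |2 * y| ^ 8 := le_self_pow₀ h4 (by norm_num)

lemma sum_Icc_le (τ : ℝ) (h0 : 0 ≤ τ) (h1 : τ ≤ 1 / 2) (R : ℕ) :
    ∑ j ∈ Icc (-(R : ℤ)) R, τ ^ j.natAbs ≤ 1 + 4 * τ - 4 * τ ^ (R + 1) := by
  induction R with
  | zero => simp
  | succ R ih =>
    have h2 : Icc (-((R + 1 : ℕ) : ℤ)) ((R + 1 : ℕ) : ℤ) =
        insert (-((R + 1 : ℕ) : ℤ)) (insert ((R + 1 : ℕ) : ℤ) (Icc (-(R : ℤ)) R)) := by
      ext j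
      simp only [mem_Icc, mem_insert]
      push_cast
      omega
    rw [h2, Finset.sum_insert, Finset.sum_insert]
    · rw [Int.natAbs_neg, Int.natAbs_natCast]
      have h3 : 0 ≤ τ ^ (R + 1) := by positivity
      have h4 : τ ^ (R + 1 + 1) = τ ^ (R + 1) * τ := pow_succ _ _
      nlinarith
    · simp only [mem_Icc]; push_cast; omega
    · simp only [mem_Icc, mem_insert]; push_cast; omega

lemma card_ball_le (S T₀ : Finset ℕ) :
    ((S.powerset.filter (fun T => 10 * (S.filter (fun k => ¬ (k ∈ T ↔ k ∈ T₀))).card ≤ S.card)).card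
      : ℝ) ≤ (5 / 4 * (23 / 20)) ^ S.card := by
  have h1 : ∀ T : Finset ℕ, ((1 : ℝ) / 4) ^ (S.filter (fun k => ¬ (k ∈ T ↔ k ∈ T₀))).card =
      ∏ k ∈ S, (if k ∈ T then (if k ∈ T₀ then (1 : ℝ) else 1 / 4)
        else (if k ∈ T₀ then (1 : ℝ) / 4 else 1)) := by
    intro T
    rw [← Finset.prod_const, Finset.prod_filter]
    refine Finset.prod_congr rfl fun k _ => ?_
    by_cases h1 : k ∈ T <;> by_cases h2 : k ∈ T₀ <;> simp [h1, h2]
  have h2 : ∑ T ∈ S.powerset, ((1 : ℝ) / 4) ^ (S.filter (fun k => ¬ (k ∈ T ↔ k ∈ T₀))).card =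
      (5 / 4) ^ S.card := by
    simp_rw [h1]
    rw [sum_powerset_prod, ← Finset.prod_const]
    refine Finset.prod_congr rfl fun k _ => ?_
    split_ifs <;> norm_num
  rw [mul_pow, ← h2, Finset.sum_mul, Finset.card_eq_sum_ones]
  push_cast
  refine le_trans (Finset.sum_le_sum fun T hT => ?_)
    (Finset.sum_le_sum_of_subset_of_nonneg (Finset.filter_subset _ _) (fun _ _ _ => by positivity))
  have h3 := (mem_filter.1 hT).2
  set d := (S.filter (fun k => ¬ (k ∈ T ↔ k ∈ T₀))).card
  calc (1 : ℝ) ≤ (1 / 4 * (23 / 20) ^ 10) ^ d := one_le_pow₀ (by norm_num)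
    _ = (1 / 4) ^ d * (23 / 20) ^ (10 * d) := by rw [mul_pow, ← pow_mul]
    _ ≤ _ := by
      apply mul_le_mul_of_nonneg_left _ (by positivity)
      exact pow_le_pow_right₀ (by norm_num) h3

lemma partial_col (M : ℕ) (S : Finset ℕ) (hS : 0 < S.card) (A : ℕ → ℕ → ℝ)
    (hA : ∀ i k, |A i k| ≤ 1) (hM : S.card ≤ M) :
    ∃ T T₀ : Finset ℕ, S.card < 10 * (S.filter (fun k => ¬ (k ∈ T ↔ k ∈ T₀))).card ∧
      ∀ i < M, |L S (A i) T - L S (A i) T₀| ≤ 40 * √(√((S.card : ℝ) * M)) := by
  classical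
  by_contra hcon'
  have hcon : ∀ T T₀ : Finset ℕ,
      S.card < 10 * (S.filter (fun k => ¬ (k ∈ T ↔ k ∈ T₀))).card →
      ∃ i < M, 40 * √(√((S.card : ℝ) * M)) < |L S (A i) T - L S (A i) T₀| := by
    intro T T₀ h
    by_contra hc
    refine hcon' ⟨T, T₀, h, fun i hi => ?_⟩
    by_contra hc2
    exact hc ⟨i, hi, not_le.1 hc2⟩
  clear hcon'
  have hn : (0 : ℝ) < S.card := by exact_mod_cast hS
  have hn1 : (1 : ℝ) ≤ S.card := by exact_mod_cast hS
  have hnM : (S.card : ℝ) ≤ M := by exact_mod_cast hM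
  have hM0 : (0 : ℝ) < M := by linarith
  set n : ℝ := (S.card : ℝ) with hndef
  set D : ℝ := √(√(n * M)) with hD
  have hD0 : 0 < D := by rw [hD]; positivity
  have hD4 : D ^ 4 = n * M := by
    have : D ^ 4 = (D ^ 2) ^ 2 := by ring
    rw [this, hD, Real.sq_sqrt (Real.sqrt_nonneg _), Real.sq_sqrt (by positivity)]
  let b : Finset ℕ → Fin M → ℤ := fun T i => round (L S (A i) T / (40 * D))
  let N : Finset ℕ → ℕ := fun T => ∑ i, (b T i).natAbs
  -- first moment of `N`
  have hN : ∑ T ∈ S.powerset, (N T : ℝ) ≤ 2 ^ S.card * (n ^ 2 / (10000 * M)) := by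
    have h1 : ∀ i : Fin M, ∑ T ∈ S.powerset, ((b T i).natAbs : ℝ) ≤
        2 ^ S.card * (n ^ 2 / (10000 * M ^ 2)) := by
      intro i
      have h2 := sum_pow_eight_le S hS (A i) (hA i)
      calc _ ≤ ∑ T ∈ S.powerset, (2 * (L S (A i) T / (40 * D))) ^ 8 :=
            Finset.sum_le_sum fun T _ => abs_round_le _
        _ = (∑ T ∈ S.powerset, L S (A i) T ^ 8) / (20 ^ 8 * (n * M) ^ 2) := by
            rw [Finset.sum_div, ← hD4]
            refine Finset.sum_congr rfl fun T _ => ?_
            field_simp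
            ring
        _ ≤ (161280 * 2 ^ S.card * n ^ 4) / (20 ^ 8 * (n * M) ^ 2) := by gcongr
        _ = 2 ^ S.card * (n ^ 2 / ((20 ^ 8 / 161280) * M ^ 2)) := by field_simp
        _ ≤ _ := by gcongr; norm_num
    simp only [N]
    push_cast
    rw [Finset.sum_comm]
    refine (Finset.sum_le_sum fun i _ => h1 i).trans (le_of_eq ?_)
    rw [Finset.sum_const, Finset.card_univ, Fintype.card_fin, nsmul_eq_mul]
    field_simp
  set τ : ℝ := n / (100 * M) with hτ
  have hτ0 : 0 < τ := by positivity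
  have hτ1 : τ ≤ 1 / 100 := by
    rw [hτ, div_le_div_iff₀ (by positivity) (by norm_num)]; linarith
  set lam : ℝ := - Real.log τ with hlam
  have hlam0 : 0 ≤ lam := by
    rw [hlam, neg_nonneg]; exact Real.log_nonpos hτ0.le (by linarith)
  have hlam1 : lam ≤ 100 * M / n := by
    have h1 : lam = Real.log (100 * M / n) := by
      rw [hlam, ← Real.log_inv, hτ, inv_div]
    rw [h1]
    have := Real.log_le_sub_one_of_pos (x := 100 * M / n) (by positivity)
    linarith
  set s : ℝ := n ^ 2 / (10000 * M) with hs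
  have hs0 : 0 ≤ s := by positivity
  have hlams : lam * s ≤ n / 100 := by
    calc lam * s ≤ 100 * M / n * s := by gcongr
      _ = n / 100 := by rw [hs]; field_simp; norm_num
  -- lower bound for the weighted sum
  have hlow : Real.exp (-(n / 100)) * 2 ^ S.card ≤ ∑ T ∈ S.powerset, τ ^ N T := by
    have h1 : ∀ T ∈ S.powerset, Real.exp (-(lam * s)) * (1 - lam * (N T - s)) ≤ τ ^ N T := by
      intro T _
      have h2 : τ ^ N T = Real.exp (-(lam * s)) * Real.exp (-(lam * (N T - s))) := by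
        rw [← Real.exp_add]
        conv_lhs => rw [← Real.exp_log hτ0, ← Real.exp_nat_mul]
        congr 1
        rw [hlam]; ring
      rw [h2]
      apply mul_le_mul_of_nonneg_left _ (Real.exp_pos _).le
      have := Real.add_one_le_exp (-(lam * (N T - s)))
      linarith
    refine le_trans ?_ (Finset.sum_le_sum h1)
    rw [← Finset.mul_sum]
    refine mul_le_mul (Real.exp_le_exp.2 (by linarith)) ?_ (by positivity) (Real.exp_pos _).le
    rw [Finset.sum_sub_distrib, ← Finset.mul_sum, Finset.sum_sub_distrib]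
    simp only [Finset.sum_const, Finset.card_powerset, nsmul_eq_mul]
    push_cast
    nlinarith
  -- upper bound
  set R : ℕ := ∑ T ∈ S.powerset, N T with hR
  let P : Finset (Fin M → ℤ) := Fintype.piFinset (fun _ => Icc (-(R : ℤ)) R)
  have hmaps : ∀ T ∈ S.powerset, b T ∈ P := by
    intro T hT
    refine Fintype.mem_piFinset.2 fun i => ?_
    have h1 : (b T i).natAbs ≤ N T :=
      Finset.single_le_sum (f := fun i => (b T i).natAbs) (fun _ _ => Nat.zero_le _) (mem_univ i)
    have h2 : N T ≤ R := Finset.single_le_sum (f := N) (fun _ _ => Nat.zero_le _) hT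
    rw [mem_Icc]
    omega
  have hfib : ∀ β : Fin M → ℤ, ((S.powerset.filter (fun T => b T = β)).card : ℝ) ≤
      (5 / 4 * (23 / 20)) ^ S.card := by
    intro β
    rcases (S.powerset.filter (fun T => b T = β)).eq_empty_or_nonempty with h | ⟨T₀, hT₀⟩
    · rw [h, Finset.card_empty, Nat.cast_zero]; positivity
    · refine le_trans ?_ (card_ball_le S T₀)
      have hsub : S.powerset.filter (fun T => b T = β) ⊆ S.powerset.filter
          (fun T => 10 * (S.filter (fun k => ¬ (k ∈ T ↔ k ∈ T₀))).card ≤ S.card) := by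
        intro T hT
        refine mem_filter.2 ⟨(mem_filter.1 hT).1, ?_⟩
        by_contra hc
        obtain ⟨i, hi, hlt⟩ := hcon T T₀ (not_le.1 hc)
        have h1 : b T ⟨i, hi⟩ = b T₀ ⟨i, hi⟩ := by
          rw [(mem_filter.1 hT).2, (mem_filter.1 hT₀).2]
        simp only [b] at h1
        have h2 := abs_sub_round (L S (A i) T / (40 * D))
        have h3 := abs_sub_round (L S (A i) T₀ / (40 * D))
        rw [h1] at h2
        have h4 : |L S (A i) T / (40 * D) - L S (A i) T₀ / (40 * D)| ≤ 1 := by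
          rw [abs_le] at h2 h3 ⊢
          constructor <;> linarith [h2.1, h2.2, h3.1, h3.2]
        rw [← sub_div, abs_div, abs_of_pos (by positivity : (0 : ℝ) < 40 * D),
          div_le_one (by positivity)] at h4
        linarith
      exact_mod_cast Finset.card_le_card hsub
  have hup : ∑ T ∈ S.powerset, τ ^ N T ≤ (5 / 4 * (23 / 20)) ^ S.card * Real.exp (4 * n / 100) := by
    rw [← Finset.sum_fiberwise_of_maps_to hmaps]
    have h1 : ∀ β ∈ P, ∑ T ∈ S.powerset.filter (fun T => b T = β), τ ^ N T ≤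
        (5 / 4 * (23 / 20)) ^ S.card * ∏ i, τ ^ (β i).natAbs := by
      intro β _
      have h2 : ∀ T ∈ S.powerset.filter (fun T => b T = β), τ ^ N T = ∏ i, τ ^ (β i).natAbs := by
        intro T hT
        rw [Finset.prod_pow_eq_pow_sum, ← (mem_filter.1 hT).2]
      rw [Finset.sum_congr rfl h2, Finset.sum_const, nsmul_eq_mul]
      exact mul_le_mul_of_nonneg_right (hfib β) (by positivity)
    refine (Finset.sum_le_sum h1).trans ?_
    rw [← Finset.mul_sum]
    apply mul_le_mul_of_nonneg_left _ (by positivity)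
    rw [← Finset.prod_univ_sum (fun _ : Fin M => Icc (-(R : ℤ)) R) (fun _ j => τ ^ j.natAbs)]
    calc _ ≤ ∏ _i : Fin M, Real.exp (4 * τ) := by
          refine Finset.prod_le_prod (fun _ _ => by positivity) (fun _ _ => ?_)
          have h3 := sum_Icc_le τ hτ0.le (by linarith) R
          have h4 := Real.add_one_le_exp (4 * τ)
          have h5 : 0 ≤ τ ^ (R + 1) := by positivity
          linarith
      _ = Real.exp (4 * n / 100) := by
          rw [Finset.prod_const, Finset.card_univ, Fintype.card_fin, ← Real.exp_nat_mul, hτ]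
          congr 1
          field_simp
  have h1 := hlow.trans hup
  have h2 : (2 : ℝ) ^ S.card ≤ (5 / 4 * (23 / 20) * Real.exp (1 / 20)) ^ S.card := by
    have h3 : Real.exp (1 / 20) ^ S.card = Real.exp (4 * n / 100) * Real.exp (n / 100) := by
      rw [← Real.exp_nat_mul, ← Real.exp_add]
      congr 1
      rw [hndef]; ring
    have h4 : Real.exp (-(n / 100)) * Real.exp (n / 100) = 1 := by
      rw [← Real.exp_add]; simp
    rw [mul_pow, h3]
    calc (2 : ℝ) ^ S.card = (Real.exp (-(n / 100)) * 2 ^ S.card) * Real.exp (n / 100) := by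
          rw [mul_right_comm, h4, one_mul]
      _ ≤ ((5 / 4 * (23 / 20)) ^ S.card * Real.exp (4 * n / 100)) * Real.exp (n / 100) := by gcongr
      _ = _ := by ring
  have h3 : 5 / 4 * (23 / 20) * Real.exp (1 / 20) < 2 := by
    have h4 := Real.add_one_le_exp (-(1 / 20))
    have h5 : Real.exp (-(1 / 20)) * Real.exp (1 / 20) = 1 := by
      rw [← Real.exp_add]; simp
    have h6 := Real.exp_pos (1 / 20)
    nlinarith
  exact absurd h2 (not_le.2 (pow_lt_pow_left₀ h3 (by positivity) hS.ne'))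

end Spencer

open Spencer in
theorem spencer : SpencerStmt := by
  classical
  refine ⟨800, by norm_num, fun M S A hA => ?_⟩
  induction S using Finset.strongInduction with
  | H S ih =>
    intro hM
    rcases Nat.eq_zero_or_pos S.card with h0 | h0
    · refine ⟨fun _ => 1, fun _ => Or.inl rfl, fun i _ => ?_⟩
      rw [Finset.card_eq_zero.1 h0]
      simp
    obtain ⟨T, T₀, hT, hL⟩ := partial_col M S h0 A hA hM
    set U := S.filter (fun k => ¬ (k ∈ T ↔ k ∈ T₀)) with hU
    set W := S.filter (fun k => (k ∈ T ↔ k ∈ T₀)) with hW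
    have hUW : W.card + U.card = S.card := Finset.card_filter_add_card_filter_not _
    have hWS : W ⊂ S := Finset.ssubset_iff_subset_ne.2
      ⟨Finset.filter_subset _ _, fun h => by rw [h] at hUW; omega⟩
    obtain ⟨χ, hχ, hχ2⟩ := ih W hWS (by omega)
    refine ⟨fun k => if (k ∈ T ↔ k ∈ T₀) then χ k else (if k ∈ T then 1 else -1), fun k => ?_,
      fun i hi => ?_⟩
    · dsimp only
      split_ifs
      · exact hχ k
      · exact Or.inl rfl
      · exact Or.inr rfl
    · have h1 : ∑ k ∈ S, (if (k ∈ T ↔ k ∈ T₀) then χ k else (if k ∈ T then 1 else -1)) * A i k =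
          ∑ k ∈ W, χ k * A i k + (L S (A i) T - L S (A i) T₀) / 2 := by
        rw [L, L, ← Finset.sum_sub_distrib, Finset.sum_div, hW, Finset.sum_filter,
          ← Finset.sum_add_distrib]
        refine Finset.sum_congr rfl fun k _ => ?_
        by_cases h1 : k ∈ T <;> by_cases h2 : k ∈ T₀ <;> simp [h1, h2]
        ring
      rw [h1]
      have h2 := hχ2 i hi
      have h3 := hL i hi
      have h4 : √(√((W.card : ℝ) * M)) ≤ 39 / 40 * √(√((S.card : ℝ) * M)) := by
        have h5 : (W.card : ℝ) ≤ 9 / 10 * S.card := by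
          have : 10 * W.card ≤ 9 * S.card := by omega
          have : (10 : ℝ) * W.card ≤ 9 * S.card := by exact_mod_cast this
          linarith
        have h6 : (39 / 40 : ℝ) * √(√((S.card : ℝ) * M)) =
            √(√((39 / 40) ^ 4 * ((S.card : ℝ) * M))) := by
          have e1 : ((39 / 40 : ℝ)) ^ 4 = ((39 / 40) ^ 2) ^ 2 := by norm_num
          rw [e1, Real.sqrt_mul (sq_nonneg ((39 / 40 : ℝ) ^ 2)), Real.sqrt_sq (by positivity),
            Real.sqrt_mul (sq_nonneg (39 / 40 : ℝ)), Real.sqrt_sq (by positivity)]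
        rw [h6]
        apply Real.sqrt_le_sqrt
        apply Real.sqrt_le_sqrt
        have h7 : (0 : ℝ) ≤ (S.card : ℝ) * M := by positivity
        have h8 : (W.card : ℝ) * M ≤ 9 / 10 * S.card * M := by gcongr
        nlinarith
      refine (abs_add_le _ _).trans ?_
      rw [abs_div, abs_two]
      linarith

end Vale.Agent.P110
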