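import Vale.Agent.P110.Stmts

/-! # P110: van der Corput lemmas -/

namespace Vale.Agent.P110

open Set

theorem vdc1 : Vdc1Stmt := by
  intro G G1 G2 a b lam hab hlam hG hG1 hG2 hpos hsign
  have hne : ∀ x ∈ Icc a b, G1 x ≠ 0 := by
    intro x hx
    rcases hsign with h | h
    · exact (lt_of_lt_of_le hlam (h x hx)).ne'
    · exact (lt_of_le_of_lt (h x hx) (by linarith)).ne
  have habs : ∀ x ∈ Icc a b, lam ≤ |G1 x| := by
    intro x hx
    rcases hsign with h | h
    · exact (h x hx).trans (le_abs_self _)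
    · have := h x hx
      exact le_trans (by linarith) (neg_le_abs _)
  have hGc : Continuous G := continuous_iff_continuousAt.2 fun x => (hG x).continuousAt
  have hG1c : Continuous G1 := continuous_iff_continuousAt.2 fun x => (hG1 x).continuousAt
  have huIcc : uIcc a b = Icc a b := uIcc_of_le hab
  set c : ℂ := 2 * Real.pi * Complex.I with hc
  have hc0 : c ≠ 0 := by simp [hc, Real.pi_ne_zero, Complex.I_ne_zero]
  have hcn : ‖c‖ = 2 * Real.pi := by
    simp [hc, abs_of_pos Real.pi_pos]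
  have hq : ContinuousOn (fun x => G2 x / G1 x ^ 2) (Icc a b) :=
    hG2.continuousOn.div (hG1c.pow 2).continuousOn (fun x hx => pow_ne_zero 2 (hne x hx))
  have hqi : IntervalIntegrable (fun x => G2 x / G1 x ^ 2) MeasureTheory.volume a b :=
    ContinuousOn.intervalIntegrable (by rw [huIcc]; exact hq)
  have hw : ContinuousOn (fun x => e (G x) * (((G2 x / G1 x ^ 2 : ℝ) : ℂ) / c)) (Icc a b) := by
    refine ContinuousOn.mul (by fun_prop) (ContinuousOn.div_const ?_ c)
    exact Complex.continuous_ofReal.comp_continuousOn hq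
  have hwi : IntervalIntegrable (fun x => e (G x) * (((G2 x / G1 x ^ 2 : ℝ) : ℂ) / c))
      MeasureTheory.volume a b := ContinuousOn.intervalIntegrable (by rw [huIcc]; exact hw)
  have hei : IntervalIntegrable (fun x => e (G x)) MeasureTheory.volume a b :=
    Continuous.intervalIntegrable (by fun_prop) _ _
  have hinv : ∀ x ∈ uIcc a b, HasDerivAt (fun y => (G1 y)⁻¹) (-(G2 x / G1 x ^ 2)) x := by
    intro x hx
    rw [huIcc] at hx
    have := (hG1 x).inv (hne x hx)
    refine HasDerivAt.congr_deriv this ?_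
    ring
  have hu : ∀ x ∈ uIcc a b, HasDerivAt (fun y => e (G y) * ((((G1 y)⁻¹ : ℝ) : ℂ) / c))
      (e (G x) - e (G x) * (((G2 x / G1 x ^ 2 : ℝ) : ℂ) / c)) x := by
    intro x hx
    have h1 := HasDerivAt.e_comp (hG x)
    have h2 := ((hinv x hx).ofReal_comp).div_const c
    have h3 := h1.mul h2
    refine HasDerivAt.congr_deriv h3 ?_
    rw [huIcc] at hx
    have h4 : ((G1 x : ℝ) : ℂ) ≠ 0 := by exact_mod_cast hne x hx
    rw [← hc]
    push_cast
    field_simp
    ring
  have h1 := intervalIntegral.integral_eq_sub_of_hasDerivAt hu (hei.sub hwi)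
  rw [intervalIntegral.integral_sub hei hwi] at h1
  have h2 := intervalIntegral.integral_eq_sub_of_hasDerivAt hinv hqi.neg
  rw [intervalIntegral.integral_neg] at h2
  have hpi := Real.pi_gt_three
  have hbd : ∀ x ∈ Icc a b, ‖e (G x) * ((((G1 x)⁻¹ : ℝ) : ℂ) / c)‖ ≤ 1 / lam / (2 * Real.pi) := by
    intro x hx
    rw [norm_mul, norm_e, one_mul, norm_div, hcn, Complex.norm_real, Real.norm_eq_abs, abs_inv,
      one_div]
    gcongr
    exact habs x hx
  have h3 : ‖∫ x in a..b, e (G x) * (((G2 x / G1 x ^ 2 : ℝ) : ℂ) / c)‖ ≤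
      1 / lam / (2 * Real.pi) := by
    have h4 : ‖∫ x in a..b, e (G x) * (((G2 x / G1 x ^ 2 : ℝ) : ℂ) / c)‖ ≤
        ∫ x in a..b, (G2 x / G1 x ^ 2) / (2 * Real.pi) := by
      refine intervalIntegral.norm_integral_le_of_norm_le hab
        (Filter.Eventually.of_forall fun x hx => ?_) (hqi.div_const _)
      have hx' : x ∈ Icc a b := Ioc_subset_Icc_self hx
      rw [norm_mul, norm_e, one_mul, norm_div, hcn, Complex.norm_real, Real.norm_eq_abs,
        abs_of_nonneg (div_nonneg (hpos x hx') (sq_nonneg _))]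
    refine h4.trans ?_
    rw [intervalIntegral.integral_div]
    gcongr
    have ha : a ∈ Icc a b := left_mem_Icc.2 hab
    have hb : b ∈ Icc a b := right_mem_Icc.2 hab
    rcases hsign with h | h
    · have h5 : (G1 a)⁻¹ ≤ lam⁻¹ := inv_anti₀ hlam (h a ha)
      have h6 : 0 < (G1 b)⁻¹ := inv_pos.2 (lt_of_lt_of_le hlam (h b hb))
      rw [one_div]; linarith
    · have h5 : (-G1 b)⁻¹ ≤ lam⁻¹ := inv_anti₀ hlam (by linarith [h b hb])
      have h6 : (G1 a)⁻¹ < 0 := inv_lt_zero.2 (by linarith [h a ha])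
      rw [inv_neg] at h5
      rw [one_div]; linarith
  have h5 : ∫ x in a..b, e (G x) = (e (G b) * ((((G1 b)⁻¹ : ℝ) : ℂ) / c) -
      e (G a) * ((((G1 a)⁻¹ : ℝ) : ℂ) / c)) +
      ∫ x in a..b, e (G x) * (((G2 x / G1 x ^ 2 : ℝ) : ℂ) / c) := by
    rw [← h1]; ring
  rw [h5]
  refine (norm_add_le _ _).trans ?_
  have h6 := norm_sub_le (e (G b) * ((((G1 b)⁻¹ : ℝ) : ℂ) / c))
    (e (G a) * ((((G1 a)⁻¹ : ℝ) : ℂ) / c))
  have h7 := hbd a (left_mem_Icc.2 hab)
  have h8 := hbd b (right_mem_Icc.2 hab)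
  have h9 : 1 / lam / (2 * Real.pi) ≤ 1 / lam / 3 := by
    gcongr
    linarith
  linarith

namespace Vdc

lemma slope_le {G1 G2 : ℝ → ℝ} {a b mu : ℝ} (hG1 : ∀ x, HasDerivAt G1 (G2 x) x)
    (hmu : ∀ x ∈ Icc a b, mu ≤ G2 x) {x y : ℝ} (hx : x ∈ Icc a b) (hy : y ∈ Icc a b)
    (hxy : x ≤ y) : mu * (y - x) ≤ G1 y - G1 x := by
  have hG1c : Continuous G1 := continuous_iff_continuousAt.2 fun x => (hG1 x).continuousAt
  refine (convex_Icc a b).mul_sub_le_image_sub_of_le_deriv hG1c.continuousOn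
    (fun z _ => (hG1 z).differentiableAt.differentiableWithinAt) (fun z hz => ?_) x hx y hy hxy
  rw [(hG1 z).deriv]
  exact hmu z (interior_subset hz)

end Vdc

open Vdc in
theorem vdc2 : Vdc2Stmt := by
  intro G G1 G2 a b mu hab hmu hG hG1 hG2 hge
  have hGc : Continuous G := continuous_iff_continuousAt.2 fun x => (hG x).continuousAt
  have hG1c : Continuous G1 := continuous_iff_continuousAt.2 fun x => (hG1 x).continuousAt
  have hs : 0 < √mu := Real.sqrt_pos.2 hmu
  have hss : √mu * √mu = mu := Real.mul_self_sqrt hmu.le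
  set ρ : ℝ := 1 / √mu with hρ
  have hρ0 : 0 < ρ := by positivity
  have hmr : mu * ρ = √mu := by
    rw [hρ]; field_simp; nlinarith
  have ha : a ∈ Icc a b := left_mem_Icc.2 hab
  have hb : b ∈ Icc a b := right_mem_Icc.2 hab
  obtain ⟨x0, hx0, hP, hN⟩ : ∃ x0 ∈ Icc a b, (∀ x ∈ Icc a b, x0 + ρ ≤ x → √mu ≤ G1 x) ∧
      (∀ x ∈ Icc a b, x ≤ x0 - ρ → G1 x ≤ -√mu) := by
    have key : ∀ x0 ∈ Icc a b, (0 ≤ G1 x0 → ∀ x ∈ Icc a b, x0 + ρ ≤ x → √mu ≤ G1 x) ∧
        (G1 x0 ≤ 0 → ∀ x ∈ Icc a b, x ≤ x0 - ρ → G1 x ≤ -√mu) := by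
      intro x0 hx0
      constructor
      · intro h x hx hxx
        have := slope_le hG1 hge hx0 hx (by linarith)
        nlinarith
      · intro h x hx hxx
        have := slope_le hG1 hge hx hx0 (by linarith)
        nlinarith
    rcases le_total 0 (G1 a) with h1 | h1
    · exact ⟨a, ha, (key a ha).1 h1, fun x hx hxx => by linarith [hx.1]⟩
    rcases le_total (G1 b) 0 with h2 | h2
    · exact ⟨b, hb, fun x hx hxx => by linarith [hx.2], (key b hb).2 h2⟩
    obtain ⟨x0, hx0, h0⟩ := intermediate_value_Icc hab hG1c.continuousOn ⟨h1, h2⟩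
    exact ⟨x0, hx0, (key x0 hx0).1 h0.ge, (key x0 hx0).2 h0.le⟩
  have hei : ∀ u v : ℝ, IntervalIntegrable (fun x => e (G x)) MeasureTheory.volume u v :=
    fun u v => Continuous.intervalIntegrable (by fun_prop) _ _
  set c := max a (x0 - ρ) with hc
  set d := min b (x0 + ρ) with hd
  have hac : a ≤ c := le_max_left _ _
  have hdb : d ≤ b := min_le_left _ _
  have hcx : c ≤ x0 := max_le hx0.1 (by linarith)
  have hxd : x0 ≤ d := le_min hx0.2 (by linarith)
  have h1 : ‖∫ x in a..c, e (G x)‖ ≤ 1 / √mu := by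
    rcases le_total (x0 - ρ) a with h | h
    · rw [hc, max_eq_left h]; simp
    · have hc' : c = x0 - ρ := max_eq_right h
      have hsub : ∀ x ∈ Icc a c, x ∈ Icc a b := fun x hx => ⟨hx.1, by linarith [hx.2, hx0.2]⟩
      exact vdc1 G G1 G2 a c _ hac hs hG hG1 hG2
        (fun x hx => hmu.le.trans (hge x (hsub x hx)))
        (Or.inr fun x hx => hN x (hsub x hx) (hc' ▸ hx.2))
  have h2 : ‖∫ x in d..b, e (G x)‖ ≤ 1 / √mu := by
    rcases le_total b (x0 + ρ) with h | h
    · rw [hd, min_eq_left h]; simp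
    · have hd' : d = x0 + ρ := min_eq_right h
      have hsub : ∀ x ∈ Icc d b, x ∈ Icc a b := fun x hx => ⟨by linarith [hx.1, hx0.1], hx.2⟩
      exact vdc1 G G1 G2 d b _ hdb hs hG hG1 hG2
        (fun x hx => hmu.le.trans (hge x (hsub x hx)))
        (Or.inl fun x hx => hP x (hsub x hx) (hd' ▸ hx.1))
  have h3 : ‖∫ x in c..d, e (G x)‖ ≤ 2 * ρ := by
    have h4 := intervalIntegral.norm_integral_le_of_norm_le_const (a := c) (b := d)
      (f := fun x => e (G x)) (C := 1) (fun x _ => (norm_e _).le)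
    rw [one_mul, abs_of_nonneg (by linarith)] at h4
    have h5 : x0 - ρ ≤ c := le_max_right _ _
    have h6 : d ≤ x0 + ρ := min_le_right _ _
    linarith
  rw [← intervalIntegral.integral_add_adjacent_intervals (hei a c) (hei c b),
    ← intervalIntegral.integral_add_adjacent_intervals (hei c d) (hei d b)]
  have h7 := norm_add_le (∫ x in a..c, e (G x)) ((∫ x in c..d, e (G x)) + ∫ x in d..b, e (G x))
  have h8 := norm_add_le (∫ x in c..d, e (G x)) (∫ x in d..b, e (G x))
  have h9 : 4 / √mu = 4 * ρ := by rw [hρ]; ring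
  rw [h9]
  rw [← hρ] at h1 h2
  linarith

end Vale.Agent.P110
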