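import Vale.Agent.P110.Final
import Vale.Agent.P110.Approx
import Vale.Agent.P110.Config
import Vale.Agent.P110.Design
import Vale.Agent.P110.Spencer
import Vale.Agent.P110.Rounding
import Vale.Agent.P110.Profile
import Vale.Agent.P110.Arith
import Vale.Agent.P110.Layout
import Vale.Agent.P110.Vdc
import Vale.Agent.P110.Line
import Vale.Agent.P110.Kernel
import Vale.Agent.P110.Reg
import Vale.Agent.P110.Arcs

/-! # P110: assembly -/

namespace Vale.Agent.P110

theorem approx : ApproxStmt :=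
  approx_of (config_of profile gauss coprime frac (layout_of design)) line
    (arcs_of vdc1 vdc2 (reg_of kernel))

theorem ultraflat :
    ∃ ε : (N : ℕ) → Fin N → ℤ, (∀ N k, ε N k = 1 ∨ ε N k = -1) ∧
      ∀ c : ℝ, 0 < c → ∃ N₀ : ℕ, ∀ N ≥ N₀, ∀ z : ℂ, ‖z‖ = 1 →
        |‖∑ k, (ε N k : ℂ) * z ^ (k : ℕ)‖ / √N - 1| ≤ c :=
  ultraflat_of approx (rounding_of spencer)

end Vale.Agent.P110
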