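import Vale.Agent.P110.Basic

/-! # P110: the intermediate statements of the proof (each is proved in its own file) -/

namespace Vale.Agent.P110

open Finset

/-- Spencer-type discrepancy bound for `M` linear forms in `|S| ≤ M` sign variables. -/
def SpencerStmt : Prop :=
  ∃ C : ℝ, 0 < C ∧ ∀ (M : ℕ) (S : Finset ℕ) (A : ℕ → ℕ → ℝ), (∀ i k, |A i k| ≤ 1) → S.card ≤ M →
    ∃ χ : ℕ → ℝ, (∀ k, χ k = 1 ∨ χ k = -1) ∧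
      ∀ i < M, |∑ k ∈ S, χ k * A i k| ≤ C * √(√((S.card : ℝ) * M))

/-- From the grid `j / (2N)` to the whole circle. -/
def GridStmt : Prop :=
  ∀ (N : ℕ) (c : ℕ → ℂ) (D : ℝ), 0 < N →
    (∀ j < 2 * N, ‖∑ k ∈ range N, c k * e (k * ((j : ℝ) / ((2 * N : ℕ) : ℝ)))‖ ≤ D) →
    ∀ θ : ℝ, ‖∑ k ∈ range N, c k * e (k * θ)‖ ≤ 2 * D

/-- Rounding a vector in `[-1,1]^N` that is nearly a sign vector. -/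
def RoundingStmt : Prop :=
  ∃ C : ℝ, 0 < C ∧ ∀ (N : ℕ) (x : ℕ → ℝ), (∀ k, |x k| ≤ 1) →
    ∃ ε : ℕ → ℝ, (∀ k, ε k = 1 ∨ ε k = -1) ∧
      ∀ θ : ℝ, ‖∑ k ∈ range N, ((ε k - x k : ℝ) : ℂ) * e (k * θ)‖
        ≤ C * √(√((∑ k ∈ range N, (1 - x k ^ 2) + 1) * N))

/-- A real trigonometric polynomial on the two-torus, bounded by one, of energy almost one,
with pairwise non-parallel frequencies. -/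
def ProfileStmt : Prop :=
  ∀ ε : ℝ, 0 < ε → ∃ (r : ℕ) (α β : Fin r → ℤ) (c : Fin r → ℂ),
    (∀ i, 0 < α i) ∧ (∀ i j, i ≠ j → α i * β j ≠ α j * β i) ∧ (∀ i, c i ≠ 0) ∧
    (∀ x y : ℝ, |∑ i, 2 * (c i * e (α i * x + β i * y)).re| ≤ 1) ∧
    1 - ε ≤ ∑ i, 2 * ‖c i‖ ^ 2 ∧ ∑ i, 2 * ‖c i‖ ^ 2 ≤ 1

/-- Quadratic phases have a flat finite Fourier expansion (Gauss sums). -/
def GaussStmt : Prop :=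
  ∀ (M : ℕ) (a j : ℤ), 0 < M → IsCoprime (2 * a) (M : ℤ) →
    ∃ g : ℕ → ℝ, ∀ k : ℤ, ∑ ζ ∈ range M, e (g ζ - k * ((ζ : ℝ) / M))
      = ((√M : ℝ) : ℂ) * e ((a * k ^ 2 + j * k) / M)

/-- Pairwise coprime integers in prescribed ratios. -/
def CoprimeStmt : Prop :=
  ∀ (r : ℕ) (y : Fin r → ℝ) (A : ℕ) (δ X₀ : ℝ), (∀ i, 0 < y i) → 0 < A → 0 < δ →
    ∃ (Z : ℝ) (n : Fin r → ℕ), X₀ ≤ Z ∧ 0 < Z ∧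
      (∀ i, Z * y i ≤ n i ∧ (n i : ℝ) ≤ (1 + δ) * (Z * y i)) ∧
      (∀ i j, i ≠ j → Nat.Coprime (n i) (n j)) ∧ ∀ i, Nat.Coprime (n i) A

/-- A sum of reduced fractions with pairwise coprime odd denominators is reduced. -/
def FracStmt : Prop :=
  ∀ (r : ℕ) (S : Finset (Fin r)) (n : Fin r → ℕ) (D : Fin r → ℤ), (∀ l, 0 < n l) →
    (∀ l l', l ≠ l' → Nat.Coprime (n l) (n l')) → (∀ l ∈ S, IsCoprime (2 * D l) (n l : ℤ)) →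
    ∃ a : ℤ, IsCoprime (2 * a) ((∏ l ∈ S, n l : ℕ) : ℤ) ∧
      (a : ℝ) / ((∏ l ∈ S, n l : ℕ) : ℝ) = ∑ l ∈ S, (D l : ℝ) / n l

/-- The colouring design. -/
def DesignStmt : Prop :=
  ∀ (r : ℕ) (α β : Fin r → ℤ) (ρ : Fin r → ℝ) (δ : ℝ), (∀ i, 0 < α i) →
    (∀ i j, i ≠ j → α i * β j ≠ α j * β i) → (∀ i, 0 < ρ i) → ∑ i, ρ i = 1 → 0 < δ →
    ∃ (p T : ℕ) (z : Fin T → ℤ × ℤ) (col : ℕ → Fin r) (a : Fin r → Fin T → ℕ), 0 < p ∧ 0 < T ∧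
      (∀ i t, (a i t : ℤ) + α i ≤ p) ∧
      (∀ i t, (p : ℤ) ∣ (a i t : ℤ) - (α i * (z t).1 + β i * (z t).2)) ∧
      (∀ i t (s : ℕ), (s : ℤ) < α i → col (a i t + s) = i) ∧
      (∀ x < p, col (p - 1 - x) = col x) ∧
      ∀ i (x : ℕ), ((univ.filter fun t => a i t = x).card : ℝ) ≤ (1 + δ) * T / (ρ i * p)

/-- The layout of the frequency intervals on the grid of `p * ∏ n` cells. -/
def LayoutStmt : Prop :=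
  ∀ (r : ℕ) (α β : Fin r → ℤ) (ρ : Fin r → ℝ) (δ : ℝ), (∀ i, 0 < α i) →
    (∀ i j, i ≠ j → α i * β j ≠ α j * β i) → (∀ i, 0 < ρ i) → ∑ i, ρ i = 1 → 0 < δ →
    ∃ p T₀ : ℕ, 0 < p ∧ 0 < T₀ ∧ ∀ (K : ℕ) (n : Fin r → ℕ), (∀ i, 0 < n i) →
      (∀ i j, i ≠ j → Nat.Coprime (n i) (n j)) → (∀ i, IsCoprime (α i) (n i : ℤ)) →
      (∀ i, 2 * (α i : ℝ) * K * ((1 + δ) * T₀ / (ρ i * p)) ≤ n i) →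
      ∃ (Y : Fin (K * T₀) → ℤ × ℤ) (s : Fin r → Fin (K * T₀) → ℕ),
        (∀ i t, ((p : ℤ) * n i) ∣ (s i t : ℤ) - (α i * (Y t).1 + β i * (Y t).2)) ∧
        (∀ i t, (s i t : ℤ) + α i ≤ p * n i) ∧
        (∀ i t (ζ : ℕ) i' t' (ζ' : ℕ), (i, t, ζ) ≠ (i', t', ζ') →
          ((s i t : ℤ) + p * n i * ζ) + α i ≤ (s i' t' : ℤ) + p * n i' * ζ' ∨
          ((s i' t' : ℤ) + p * n i' * ζ') + α i' ≤ (s i t : ℤ) + p * n i * ζ) ∧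
        (∀ i t (ζ : ℕ) i' t' (ζ' : ℕ),
          ((s i t : ℤ) + p * n i * ζ) + α i + (((s i' t' : ℤ) + p * n i' * ζ') + α i')
            ≤ p * ((∏ l, n l : ℕ) : ℤ) ∨
          p * ((∏ l, n l : ℕ) : ℤ) ≤ ((s i t : ℤ) + p * n i * ζ) + ((s i' t' : ℤ) + p * n i' * ζ'))

/-- van der Corput, first derivative test (convex phase). -/
def Vdc1Stmt : Prop :=
  ∀ (G G1 G2 : ℝ → ℝ) (a b lam : ℝ), a ≤ b → 0 < lam → (∀ x, HasDerivAt G (G1 x) x) →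
    (∀ x, HasDerivAt G1 (G2 x) x) → Continuous G2 → (∀ x ∈ Set.Icc a b, 0 ≤ G2 x) →
    ((∀ x ∈ Set.Icc a b, lam ≤ G1 x) ∨ (∀ x ∈ Set.Icc a b, G1 x ≤ -lam)) →
    ‖∫ x in a..b, e (G x)‖ ≤ 1 / lam

/-- van der Corput, second derivative test (convex phase). -/
def Vdc2Stmt : Prop :=
  ∀ (G G1 G2 : ℝ → ℝ) (a b mu : ℝ), a ≤ b → 0 < mu → (∀ x, HasDerivAt G (G1 x) x) →
    (∀ x, HasDerivAt G1 (G2 x) x) → Continuous G2 → (∀ x ∈ Set.Icc a b, mu ≤ G2 x) →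
    ‖∫ x in a..b, e (G x)‖ ≤ 4 / √mu

/-- Stationary phase for a tapered chirp. -/
def LineStmt : Prop :=
  ∃ γ : ℂ, ‖γ‖ = 1 ∧ ∀ σ₀ Γ δ η : ℝ, 0 < σ₀ → 0 < Γ → 0 < δ → 0 < η →
    ∃ (G G1 : ℝ → ℝ) (C lam₀ : ℝ), (∀ x, HasDerivAt G (G1 x) x) ∧
      (∀ x ∈ Set.Icc (-σ₀) σ₀, |G1 x| ≤ (1 + δ) * Γ * σ₀) ∧
      (∀ x ∈ Set.Icc (-σ₀) σ₀, ∀ y ∈ Set.Icc (-σ₀) σ₀, |G1 x - G1 y| ≤ C * |x - y|) ∧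
      ∀ κ : ℝ, ∃ A Ψ : ℝ, 0 ≤ A ∧ A ≤ 1 ∧ (A ≠ 0 → |κ| ≤ (1 + δ) * Γ * σ₀) ∧
        ∀ lam ≥ lam₀, ‖((√lam : ℝ) : ℂ) * (∫ x in (-σ₀)..σ₀, e (lam * (G x - κ * x)))
          - γ * ((A / √Γ : ℝ) : ℂ) * e (lam * Ψ)‖ ≤ η

/-- A unimodular function with slowly varying frequency inside the band is reproduced by a
windowed Fourier sum. -/
def KernelStmt : Prop :=
  ∀ c : ℝ, 0 < c → c < 1 / 2 → ∃ (C : ℝ) (N₀ : ℕ), 0 < C ∧ ∀ N ≥ N₀, ∀ (ψ h : ℝ → ℝ) (L : ℝ),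
    0 ≤ L → (∀ x, HasDerivAt ψ (h x) x) → (∀ x, c * N ≤ h x ∧ h x ≤ (1 - c) * N) →
    (∀ x y, |h x - h y| ≤ L * |x - y|) → (∀ x, e (ψ (x + 1)) = e (ψ x)) →
    ∃ W : ℕ → ℝ, (∀ k, 0 ≤ W k ∧ W k ≤ 1) ∧ ∀ θ : ℝ,
      ‖∑ k ∈ range N, ((W k : ℂ) * ∫ s in (0 : ℝ)..1, e (ψ s - k * s)) * e (k * θ) - e (ψ θ)‖
        ≤ C * (L / (N : ℝ) ^ 2 + 1 / N)

/-- Gluing phase functions given on consecutive pieces of `[0, 1/2]`. -/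
def RegStmt : Prop :=
  ∀ (c : ℝ) (n : ℕ) (x : ℕ → ℝ) (C δ : ℝ), 0 < c → c < 1 / 2 → x 0 = 0 → x (n + 1) = 1 / 2 →
    (∀ j ≤ n, x j < x (j + 1)) → 0 < δ →
    ∃ N₀ : ℕ, ∀ N ≥ N₀, ∀ φ φ' : ℕ → ℝ → ℝ,
      (∀ j ≤ n, ∀ θ, HasDerivAt (φ j) (φ' j θ) θ) →
      (∀ j ≤ n, ∀ θ ∈ Set.Icc (x j) (x (j + 1)), c * N ≤ φ' j θ ∧ φ' j θ ≤ (1 - c) * N) →
      (∀ j ≤ n, ∀ θ ∈ Set.Icc (x j) (x (j + 1)), ∀ θ' ∈ Set.Icc (x j) (x (j + 1)),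
        |φ' j θ - φ' j θ'| ≤ C * N * |θ - θ'|) →
      φ 0 0 = 0 → φ n (1 / 2) = 0 →
      ∃ u : ℕ → ℝ,
        (∀ k : ℕ, |u k| ≤ √N * |∑ j ∈ range (n + 1),
          2 * (∫ θ in x j..x (j + 1), e (φ j θ - k * θ)).re| + δ) ∧
        ∀ θ : ℝ, |‖∑ k ∈ range N, (u k : ℂ) * e (k * θ)‖ - √N| ≤ δ * √N

/-- Phase functions given on disjoint arcs of `(0, 1/2)`; the gaps are swept by fast chirps. -/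
def ArcsStmt : Prop :=
  ∃ C₀ : ℝ, 0 < C₀ ∧ ∀ (ι : Type) [Fintype ι] [Nonempty ι] (a b : ι → ℝ) (c C δ : ℝ),
    0 < c → c < 1 / 4 → (∀ l, 0 < a l ∧ a l < b l ∧ b l < 1 / 2) →
    (∀ l l', l ≠ l' → b l < a l' ∨ b l' < a l) → 0 < δ →
    ∃ N₀ : ℕ, ∀ N ≥ N₀, ∀ φ φ' : ι → ℝ → ℝ,
      (∀ l θ, HasDerivAt (φ l) (φ' l θ) θ) →
      (∀ l, ∀ θ ∈ Set.Icc (a l) (b l), c * N ≤ φ' l θ ∧ φ' l θ ≤ (1 - c) * N) →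
      (∀ l, ∀ θ ∈ Set.Icc (a l) (b l), ∀ θ' ∈ Set.Icc (a l) (b l),
        |φ' l θ - φ' l θ'| ≤ C * N * |θ - θ'|) →
      ∃ u : ℕ → ℝ,
        (∀ k : ℕ, |u k| ≤ √N * |∑ l, 2 * (∫ θ in a l..b l, e (φ l θ - k * θ)).re|
          + C₀ * √(1 / 2 - ∑ l, (b l - a l)) + δ) ∧
        ∀ θ : ℝ, |‖∑ k ∈ range N, (u k : ℂ) * e (k * θ)‖ - √N| ≤ δ * √N

/-- The arithmetic configuration of chirps. -/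
def ConfigStmt : Prop :=
  ∀ (γ : ℂ) (ε : ℝ), ‖γ‖ = 1 → 0 < ε → ε < 1 / 10 →
    ∃ (ι : Type) (_ : Fintype ι) (T : ℕ) (blk : ι → Fin T) (α θ β : ι → ℝ) (σ₀ Γ : ℝ),
      0 < σ₀ ∧ 0 < Γ ∧ (∀ l, 1 ≤ α l) ∧
      (∀ l, 0 < θ l - α l * σ₀ ∧ θ l + α l * σ₀ < 1) ∧
      (∀ l l', l ≠ l' → θ l + α l * σ₀ < θ l' - α l' * σ₀ ∨ θ l' + α l' * σ₀ < θ l - α l * σ₀) ∧
      (∀ l l', (θ l + α l * σ₀) + (θ l' + α l' * σ₀) < 1 ∨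
        1 < (θ l - α l * σ₀) + (θ l' - α l' * σ₀)) ∧
      1 / 2 - 3 * ε ≤ ∑ l, 2 * α l * σ₀ ∧ 2 * Γ * σ₀ * T ≤ 1 - ε ∧
      ∀ (t : Fin T) (k : ℕ) (Ψ : ℝ),
        |∑ l ∈ univ.filter (fun l => blk l = t),
          2 * (((√(α l) : ℝ) : ℂ) * γ * e (β l - k * θ l + α l * Ψ)).re| ≤ (1 + ε) * √Γ

/-- Almost ultraflat polynomials with real coefficients in `[-1-δ, 1+δ]`. -/
def ApproxStmt : Prop :=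
  ∀ δ : ℝ, 0 < δ → ∃ N₀ : ℕ, ∀ N ≥ N₀, ∃ u : ℕ → ℝ, (∀ k, |u k| ≤ 1 + δ) ∧
    ∀ θ : ℝ, |‖∑ k ∈ range N, (u k : ℂ) * e (k * θ)‖ - √N| ≤ δ * √N

end Vale.Agent.P110
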